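import Vale.Agent.P046.Walk

/-! # P046: a conflict gives a degenerate pair of walks -/

set_option linter.unusedSectionVars false

namespace Vale.Agent.P046

open Finset Vale.Agent.P015

variable {V : Type} [Fintype V] [DecidableEq V]

/-- the invariant of the exploration as long as all steps go to new vertices. -/
structure Inv_bad (st : St V) (U : Finset V) (H : Finset (Sym2 V)) (x0 : Option (Bool × V)) :
    Prop where
  nd : ∀ v, s(v, v) ∉ H
  HU : ∀ a b, s(a, b) ∈ H → b ∈ U
  n1 : ∀ β, (st β).1 ∈ U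
  n2 : ∀ β, (st β).2.1 ∈ U
  ne : ∀ β, (st β).1 ≠ (st β).2.1
  good : ∀ β z, s((st β).1, z) ∈ H → s((st β).2.1, z) ∈ H → z = (st β).2.2 ∨ some (β, z) = x0

variable {G : SimpleGraph V} {st : St V} {U : Finset V} {H : Finset (Sym2 V)}
  {x0 : Option (Bool × V)} {x : Bool × V}

lemma Inv_bad.sav (h : Inv_bad st U H x0) {p q v : V} (hp : p ∈ U) (hq : q ∈ U) (hv : v ∉ U)
    (hs : ∀ β, ((st β).1 = p ∨ (st β).1 = q) → ((st β).2.1 = p ∨ (st β).2.1 = q) →
      some (β, v) = x0) :
    Inv_bad st (insert v U) (insert s(p, v) (insert s(q, v) H)) x0 := by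
  have h1 := h.nd
  have h2 := h.HU
  refine ⟨fun w => ?_, fun a b => ?_, fun β => mem_insert_of_mem (h.n1 β),
    fun β => mem_insert_of_mem (h.n2 β), h.ne, fun β z => ?_⟩
  · simp only [mem_insert, Sym2.eq_iff]
    grind
  · simp only [mem_insert, Sym2.eq_iff]
    grind
  · have h3 := h.n1 β
    have h4 := h.n2 β
    have h5 := h.good β z
    have h6 := hs β
    simp only [mem_insert, Sym2.eq_iff]
    grind

lemma Inv_bad.cur (h : Inv_bad st U H x0) (hv : x.2 ∉ U) :
    Inv_bad (nxt st x) (insert x.2 U)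
      (insert s((st x.1).1, x.2) (insert s((st x.1).2.1, x.2) H)) none := by
  have h1 := h.nd
  have h2 : ∀ z, s(x.2, z) ∉ H := fun z hz => hv (h.HU z x.2 (Sym2.eq_swap ▸ hz))
  have h3 := h.n1 x.1
  have h4 := h.n2 x.1
  have h5 := h.HU
  have h6 := h.ne x.1
  refine ⟨fun w => ?_, fun a b => ?_, fun β => ?_, fun β => ?_, fun β => ?_, fun β z => ?_⟩
  · simp only [mem_insert, Sym2.eq_iff]
    grind
  · simp only [mem_insert, Sym2.eq_iff]
    grind
  · cases β <;> simp [nxt, h3, h4]
  · cases β <;> simp [nxt]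
  · cases β <;> simp only [nxt] <;> grind
  · cases β <;> simp only [nxt, mem_insert, Sym2.eq_iff] <;> grind

lemma Inv_bad.old (h : Inv_bad st U H x0) (hx : ok G st x) (h0 : some x ≠ x0) :
    ¬(s((st x.1).1, x.2) ∈ H ∧ s((st x.1).2.1, x.2) ∈ H) :=
  fun h' => (h.good x.1 x.2 h'.1 h'.2).elim hx.2 h0

lemma Inv_bad.tri (h : Inv_bad st U H x0) (x : Bool × V) (l : List (Bool × V)) :
    U ∪ tri st (x :: l) ⊆ insert x.2 U ∪ tri (nxt st x) l := by
  refine union_subset ((subset_insert _ _).trans subset_union_left) ?_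
  cases l with
  | nil =>
    refine Subset.trans ?_ subset_union_left
    simp [P046.tri, insert_subset_iff, h.n1, h.n2]
  | cons y l => exact subset_union_right

lemma tri_cons_bad (st : St V) (x : Bool × V) {l : List (Bool × V)} (hl : l ≠ []) :
    tri st (x :: l) = tri (nxt st x) l := by
  cases l with
  | nil => exact absurd rfl hl
  | cons y l => rfl

lemma second_bad (cur : St V) : ∀ (b2 : List (Bool × V)) {sav : St V} {U : Finset V}
    {H : Finset (Sym2 V)} {x0 : Option (Bool × V)}, Inv_bad sav U H x0 → okP G sav b2 → b2 ≠ [] →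
    b2.head? ≠ x0 → tri sav b2 ⊆ U → pbad ppar pnx (cur, sav, 0, 0) U H b2
  | [], _, _, _, _, _, _, h, _, _ => absurd rfl h
  | x :: l, sav, U, H, x0, hI, hok, _, h0, hT => by
    unfold pbad
    split_ifs with hx
    · exact hI.old hok.1 h0
    · have hl : l ≠ [] := by
        rintro rfl
        exact hx (hT (by simp [tri]))
      rw [tri_cons_bad _ _ hl] at hT
      exact second_bad cur l (hI.cur hx) hok.2 hl (by simpa using hl)
        (hT.trans (subset_insert _ _))

lemma first_bad {sav : St V} {b2 : List (Bool × V)} (h2 : okP G sav b2) (hb : b2 ≠ [])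
    (h0 : b2.head? ≠ x0) : ∀ (b1 : List (Bool × V)) {cur : St V} {U : Finset V}
    {H : Finset (Sym2 V)}, Inv_bad cur U H none → Inv_bad sav U H x0 → okP G cur b1 →
    (∀ x ∈ b1.head?, ∀ β, ((sav β).1 = (cur x.1).1 ∨ (sav β).1 = (cur x.1).2.1) →
      ((sav β).2.1 = (cur x.1).1 ∨ (sav β).2.1 = (cur x.1).2.1) → some (β, x.2) = x0) →
    tri sav b2 ⊆ U ∪ tri cur b1 → pbad ppar pnx (cur, sav, 0, b1.length) U H (b1 ++ b2)
  | [], cur, _, _, _, hI, _, _, hT => second_bad cur b2 hI h2 hb h0 (by simpa [tri] using hT)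
  | x :: l, cur, U, H, hI, hI', hok, hs, hT => by
    rw [List.cons_append]
    unfold pbad
    split_ifs with hx
    · exact hI.old hok.1 (by simp)
    · refine first_bad h2 hb h0 l (hI.cur hx) (hI'.sav (hI.n1 _) (hI.n2 _) hx (hs x rfl)) hok.2
        (fun y _ β => ?_) (hT.trans (hI.tri x l))
      have h3 := hI'.n1 β
      have h4 := hI'.n2 β
      have h5 := hI'.ne β
      have h6 : (nxt cur x y.1).2.1 = x.2 := by unfold nxt; split_ifs <;> rfl
      grind

lemma common_bad {b1 b2 : List (Bool × V)} (hb : b2 ≠ []) (h0 : b1.head? ≠ b2.head?) :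
    ∀ (l : List (Bool × V)) {st : St V} {U : Finset V} {H : Finset (Sym2 V)},
    Inv_bad st U H none → okP G st (l ++ b1) → okP G st (l ++ b2) →
    (∀ β β', ((st β).1 = (st β').1 ∨ (st β).1 = (st β').2.1) → β = β') →
    tri st (l ++ b2) ⊆ U ∪ tri st (l ++ b1) →
    pbad ppar pnx (st, st, l.length, b1.length) U H (l ++ b1 ++ b2)
  | [], _, _, _, hI, h1, h2, hd, hT =>
    first_bad h2 hb h0.symm b1 hI ⟨hI.nd, hI.HU, hI.n1, hI.n2, hI.ne, fun β z a b =>
      Or.inl ((hI.good β z a b).resolve_right (by simp))⟩ h1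
      (fun x hx β h _ => by rw [hd β x.1 h]; exact hx.symm) hT
  | x :: l, st, U, H, hI, h1, h2, hd, hT => by
    rw [List.cons_append, List.cons_append]
    unfold pbad
    split_ifs with hx
    · exact hI.old h1.1 (by simp)
    · rw [List.cons_append, List.cons_append, tri_cons_bad _ _ (by simp [hb])] at hT
      refine common_bad hb h0 l (hI.cur hx) h1.2 h2.2 (fun β β' => ?_) (hT.trans (hI.tri x _))
      have h3 := hI.n1 x.1
      have h4 := hI.n2 x.1
      have h5 := hI.ne x.1
      cases β <;> cases β' <;> simp only [nxt] <;> grind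

lemma valid2_bad (cur : St V) : ∀ (b2 : List (Bool × V)) {sav : St V}, okP G sav b2 →
    pvalid G ppar pnx (cur, sav, 0, 0) b2
  | [], _, _ => trivial
  | _ :: l, _, h => ⟨h.1.1, valid2_bad cur l h.2⟩

lemma valid1_bad {sav : St V} {b2 : List (Bool × V)} (h2 : okP G sav b2) :
    ∀ (b1 : List (Bool × V)) {cur : St V}, okP G cur b1 →
    pvalid G ppar pnx (cur, sav, 0, b1.length) (b1 ++ b2)
  | [], cur, _ => valid2_bad cur b2 h2
  | _ :: l, _, h => ⟨h.1.1, valid1_bad h2 l h.2⟩

lemma valid0_bad {b1 b2 : List (Bool × V)} : ∀ (l : List (Bool × V)) {st : St V},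
    okP G st (l ++ b1) → okP G st (l ++ b2) →
    pvalid G ppar pnx (st, st, l.length, b1.length) (l ++ b1 ++ b2)
  | [], _, h1, h2 => valid1_bad h2 b1 h1
  | _ :: l, _, h1, h2 => ⟨h1.1.1, valid0_bad l h1.2 h2.2⟩

theorem bad_ok : BadS := by
  intro V _ _ G a b c d l b1 b2 hab hcd ⟨h1, h2, h3, h4⟩ o1 o2 _ hb h0 hT
  have h5 := hab.ne
  have h6 := hcd.ne
  refine ⟨valid0_bad l o1 o2, common_bad hb h0 l ⟨fun v => ?_, fun u v => ?_, fun β => ?_,
    fun β => ?_, fun β => ?_, fun β z => ?_⟩ o1 o2 (fun β β' => ?_) (hT ▸ subset_union_right)⟩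
  · simp only [mem_insert, mem_singleton, Sym2.eq_iff]
    grind
  · simp only [mem_insert, mem_singleton, Sym2.eq_iff]
    grind
  · cases β <;> simp [st0]
  · cases β <;> simp [st0]
  · cases β <;> simp [st0, h5, h6]
  · cases β <;> simp only [st0, mem_insert, mem_singleton, Sym2.eq_iff] <;> grind
  · cases β <;> cases β' <;> simp only [st0] <;> grind

end Vale.Agent.P046
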