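import Vale.Agent.P046.Walk

/-! # P046: numerical properties of the barriers -/

namespace Vale.Agent.P046

open Finset Vale.Agent.P015

lemma free_cons_bar {π : List Bool} (h : π ≠ []) (β : Bool) :
    Free (β :: π) ↔ β = true ∨ Free π := by
  unfold Free
  rw [List.dropLast_cons_of_ne_nil h, List.mem_cons, eq_comm]

lemma not_free_nil_bar : ¬ Free [] := by simp [Free]

lemma not_free_single_bar (β : Bool) : ¬ Free [β] := by simp [Free]

/-- the three shapes of the barrier and of its two children -/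
lemma cases_bar (ν n : ℝ) (j : ℕ) (π : List Bool) :
    ((∀ D, bar ν n D j π = 2 * bS ν n D + 2 ^ π.length / 2 ^ j * bT ν n D) ∧ ¬ Free π ∧
      ∀ D β, bar ν n D j (β :: π) = bS ν n D + 2 * (2 ^ π.length / 2 ^ j * bT ν n D)) ∨
    ((∀ D, bar ν n D j π = bS ν n D + 2 ^ π.length / 2 ^ j * bT ν n D) ∧ ¬ Free π ∧
      (∀ D, bar ν n D j (false :: π) = bS ν n D + 2 * (2 ^ π.length / 2 ^ j * bT ν n D)) ∧
      ∀ D, bar ν n D j (true :: π) = bF ν n D + 2 * (2 ^ π.length / 2 ^ j * bT ν n D)) ∨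
    ((∀ D, bar ν n D j π = bF ν n D + 2 ^ π.length / 2 ^ j * bT ν n D) ∧ Free π ∧
      ∀ D β, bar ν n D j (β :: π) = bF ν n D + 2 * (2 ^ π.length / 2 ^ j * bT ν n D)) := by
  have e : ∀ (β : Bool) (T : ℝ), (2 : ℝ) ^ (β :: π).length / 2 ^ j * T =
      2 * (2 ^ π.length / 2 ^ j * T) := fun β T => by
    rw [List.length_cons, pow_succ]
    ring
  by_cases h : π = []
  · refine Or.inl ⟨fun D => by rw [bar, if_pos h], h ▸ not_free_nil_bar, fun D β => ?_⟩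
    rw [bar, if_neg (List.cons_ne_nil _ _), if_neg (h ▸ not_free_single_bar β), e]
  by_cases hf : Free π
  · refine Or.inr (Or.inr ⟨fun D => by rw [bar, if_neg h, if_pos hf], hf, fun D β => ?_⟩)
    rw [bar, if_neg (List.cons_ne_nil _ _), if_pos ((free_cons_bar h β).2 (Or.inr hf)), e]
  · refine Or.inr (Or.inl ⟨fun D => by rw [bar, if_neg h, if_neg hf], hf, fun D => ?_, fun D => ?_⟩)
    · rw [bar, if_neg (List.cons_ne_nil _ _), if_neg, e]
      rw [free_cons_bar h]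
      simp [hf]
    · rw [bar, if_neg (List.cons_ne_nil _ _), if_pos ((free_cons_bar h true).2 (Or.inl rfl)), e]

lemma rpow_ge_bar {a : ℝ} (h0 : 0 ≤ a) (h1 : a ≤ 1 / 16000) :
    1 + a / 2500 ≤ (1 + 2 * a) ^ ((1 : ℝ) / 4000) := by
  have hm : 0 < 1 + 2 * a := by linarith
  rw [Real.rpow_def_of_pos hm]
  have h2 := Real.one_sub_inv_le_log_of_pos hm
  have h3 : 8 / 5 * a ≤ 1 - (1 + 2 * a)⁻¹ := by
    rw [le_sub_comm, inv_eq_one_div, div_le_iff₀ hm]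
    nlinarith
  have h4 := Real.add_one_le_exp (Real.log (1 + 2 * a) * (1 / 4000))
  linarith

lemma sqrt_ge_bar {a : ℝ} (h0 : 0 ≤ a) (h1 : a ≤ 1 / 16000) :
    1 + a - a ^ 2 ≤ Real.sqrt (1 + 2 * a) := by
  apply Real.le_sqrt_of_sq_le
  have h2 : a ^ 2 * a ^ 2 ≤ a ^ 2 * 1 :=
    mul_le_mul_of_nonneg_left (by nlinarith) (sq_nonneg a)
  nlinarith [mul_nonneg h0 (sq_nonneg a)]

lemma gg_step_bar {n D m : ℝ} (hD : 0 < D) (hn : D ≤ n - 2) (hm : 0 < m) :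
    gg n (D / m) = gg n D * m ^ ((1 : ℝ) / 4000) := by
  unfold gg
  rw [← Real.mul_rpow (div_nonneg (by linarith) hD.le) hm.le]
  congr 1
  field_simp

lemma step_bar {ν n D a : ℝ} (hν : 0 ≤ ν) (hD : 0 < D) (hn : D ≤ n - 2) (h0 : 0 ≤ a)
    (h1 : a ≤ 1 / 16000) :
    bS ν n D * (1 + a + a / 8000) ≤ bS ν n (D / (1 + 2 * a)) ∧
    bF ν n D * (1 + 2 * a + a / 16000) ≤ bF ν n (D / (1 + 2 * a)) ∧
    bT ν n D * (1 + 4 * a + a / 16000) ≤ bT ν n (D / (1 + 2 * a)) := by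
  have hm : 0 < 1 + 2 * a := by linarith
  have hr := rpow_ge_bar h0 h1
  have hq := sqrt_ge_bar h0 h1
  have hg : 0 ≤ gg n D := Real.rpow_nonneg (div_nonneg (by linarith) hD.le) _
  have hs : 0 < Real.sqrt D := Real.sqrt_pos.2 hD
  have hsm : 0 < Real.sqrt (1 + 2 * a) := Real.sqrt_pos.2 hm
  have e := gg_step_bar hD hn hm
  set r := (1 + 2 * a) ^ ((1 : ℝ) / 4000) with hr'
  have haa : a * a ≤ a * (1 / 16000) := mul_le_mul_of_nonneg_left h1 h0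
  refine ⟨?_, ?_, ?_⟩
  · have e1 : bS ν n (D / (1 + 2 * a)) = bS ν n D * (r * Real.sqrt (1 + 2 * a)) := by
      unfold bS
      rw [e, Real.sqrt_div hD.le]
      field_simp
    rw [e1]
    refine mul_le_mul_of_nonneg_left ?_ (by unfold bS; positivity)
    have := mul_le_mul hr hq (by nlinarith) (by linarith)
    nlinarith
  · have e1 : bF ν n (D / (1 + 2 * a)) = bF ν n D * (r * (1 + 2 * a)) := by
      unfold bF
      rw [e]
      field_simp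
    rw [e1]
    refine mul_le_mul_of_nonneg_left ?_ (by unfold bF; positivity)
    have := mul_le_mul_of_nonneg_right hr hm.le
    nlinarith
  · have e1 : bT ν n (D / (1 + 2 * a)) = bT ν n D * (r * (1 + 2 * a) ^ 2) := by
      unfold bT
      rw [e]
      field_simp
    rw [e1]
    refine mul_le_mul_of_nonneg_left ?_ (by unfold bT; positivity)
    have := mul_le_mul_of_nonneg_right hr (sq_nonneg (1 + 2 * a))
    nlinarith [mul_nonneg h0 (sq_nonneg a)]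

/-- the static inequalities, with `s = sqrt D` -/
lemma static_bar {C0 ν g s j : ℝ} (hν : 16000 + 10 * |C0| ≤ ν) (g1 : 1 ≤ g) (g2 : g ≤ ν)
    (hs : ν ^ 50 ≤ s) (j0 : 0 ≤ j) (j1 : j ≤ ν) :
    16000 * (ν ^ 9 * g / s ^ 2) ≤ ν ^ 2 * g / s ∧ 3 * (ν ^ 2 * g / s) ≤ 1 / ν ^ 46 ∧
    C0 * (j * (3 * (ν ^ 2 * g / s)) ^ 2 + j ^ 3 / s ^ 2) ≤ (1 / ν) ^ 2 * (ν ^ 9 * g / s ^ 2) ∧
    C0 / s ^ 2 ≤ (1 / ν) ^ 2 * (ν ^ 2 * g / s) ^ 2 ∧
    C0 * (j ^ 2 * (3 * (ν ^ 2 * g / s)) ^ 2 / s ^ 2 + j / (s ^ 2) ^ 2) ≤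
      (1 / ν) ^ 2 * (ν ^ 9 * g / s ^ 2) ^ 2 ∧
    C0 / s ^ 2 ≤ 1 / ν * (ν ^ 9 * g / s ^ 2) := by
  have hC := abs_nonneg C0
  have hC' := le_abs_self C0
  have ν1 : 1 ≤ ν := by linarith
  have ν0 : 0 < ν := by linarith
  have g0 : 0 < g := by linarith
  have s0 : 0 < s := lt_of_lt_of_le (by positivity) hs
  have pw : ∀ {a b : ℕ}, a ≤ b → ν ^ a ≤ ν ^ b := fun h => pow_le_pow_right₀ ν1 h
  have p1 : ∀ a : ℕ, 1 ≤ ν ^ a := fun a => one_le_pow₀ ν1
  refine ⟨?_, ?_, ?_, ?_, ?_, ?_⟩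
  · have h1 : 16000 * ν ^ 7 ≤ s := by
      have : 16000 * ν ^ 7 ≤ ν * ν ^ 7 := mul_le_mul_of_nonneg_right (by linarith) (by positivity)
      have h2 : ν * ν ^ 7 = ν ^ 8 := by ring
      linarith [pw (show 8 ≤ 50 by norm_num)]
    have e : 16000 * (ν ^ 9 * g / s ^ 2) = ν ^ 2 * g / s * (16000 * ν ^ 7 / s) := by
      field_simp
    rw [e]
    exact mul_le_of_le_one_right (by positivity) ((div_le_one s0).2 h1)
  · have e : 3 * (ν ^ 2 * g / s) = 3 * ν ^ 2 * g / s := by ring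
    rw [e, div_le_div_iff₀ s0 (by positivity), one_mul]
    have h1 : 3 * g ≤ ν * ν := mul_le_mul (by linarith) g2 g0.le ν0.le
    calc 3 * ν ^ 2 * g * ν ^ 46 = 3 * g * ν ^ 48 := by ring
      _ ≤ ν * ν * ν ^ 48 := mul_le_mul_of_nonneg_right h1 (by positivity)
      _ = ν ^ 50 := by ring
      _ ≤ s := hs
  · have e1 : j * (3 * (ν ^ 2 * g / s)) ^ 2 + j ^ 3 / s ^ 2 =
        (9 * (j * g) * ν ^ 4 * g + j ^ 3) / s ^ 2 := by
      field_simp
      ring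
    have e2 : (1 / ν) ^ 2 * (ν ^ 9 * g / s ^ 2) = ν * (ν ^ 6 * g) / s ^ 2 := by
      field_simp
    rw [e1, e2, ← mul_div_assoc]
    refine div_le_div_of_nonneg_right ?_ (by positivity)
    have h1 : j * g ≤ ν * ν := mul_le_mul j1 g2 g0.le ν0.le
    have h2 : 9 * (j * g) * ν ^ 4 * g ≤ 9 * (ν * ν) * ν ^ 4 * g := by gcongr
    have h3 : j ^ 3 ≤ ν ^ 6 * g :=
      (pow_le_pow_left₀ j0 j1 3).trans ((pw (by norm_num)).trans
        (le_mul_of_one_le_right (by positivity) g1))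
    have h4 : 9 * (j * g) * ν ^ 4 * g + j ^ 3 ≤ 10 * (ν ^ 6 * g) := by
      have : 9 * (ν * ν) * ν ^ 4 * g = 9 * (ν ^ 6 * g) := by ring
      linarith
    calc C0 * (9 * (j * g) * ν ^ 4 * g + j ^ 3) ≤ |C0| * (10 * (ν ^ 6 * g)) :=
          mul_le_mul hC' h4 (by positivity) hC
      _ = 10 * |C0| * (ν ^ 6 * g) := by ring
      _ ≤ ν * (ν ^ 6 * g) := mul_le_mul_of_nonneg_right (by linarith) (by positivity)
  · have e2 : (1 / ν) ^ 2 * (ν ^ 2 * g / s) ^ 2 = ν * (ν * g ^ 2) / s ^ 2 := by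
      field_simp
    rw [e2]
    refine div_le_div_of_nonneg_right ?_ (by positivity)
    have : 1 ≤ ν * g ^ 2 := one_le_mul_of_one_le_of_one_le ν1 (one_le_pow₀ g1)
    nlinarith
  · have e1 : j ^ 2 * (3 * (ν ^ 2 * g / s)) ^ 2 / s ^ 2 + j / (s ^ 2) ^ 2 =
        (9 * j ^ 2 * ν ^ 4 * g ^ 2 + j) / s ^ 4 := by
      field_simp
      ring
    have e2 : (1 / ν) ^ 2 * (ν ^ 9 * g / s ^ 2) ^ 2 = ν * (ν ^ 15 * g ^ 2) / s ^ 4 := by
      field_simp
    rw [e1, e2, ← mul_div_assoc]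
    refine div_le_div_of_nonneg_right ?_ (by positivity)
    have h2 : 9 * j ^ 2 * ν ^ 4 * g ^ 2 ≤ 9 * ν ^ 2 * ν ^ 4 * g ^ 2 := by gcongr
    have h3 : j ≤ ν ^ 15 * g ^ 2 :=
      j1.trans ((le_self_pow₀ ν1 (by norm_num)).trans
        (le_mul_of_one_le_right (by positivity) (one_le_pow₀ g1)))
    have h5 : ν ^ 6 * g ^ 2 ≤ ν ^ 15 * g ^ 2 :=
      mul_le_mul_of_nonneg_right (pw (by norm_num)) (by positivity)
    have h4 : 9 * j ^ 2 * ν ^ 4 * g ^ 2 + j ≤ 10 * (ν ^ 15 * g ^ 2) := by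
      have : 9 * ν ^ 2 * ν ^ 4 * g ^ 2 = 9 * (ν ^ 6 * g ^ 2) := by ring
      linarith
    calc C0 * (9 * j ^ 2 * ν ^ 4 * g ^ 2 + j) ≤ |C0| * (10 * (ν ^ 15 * g ^ 2)) :=
          mul_le_mul hC' h4 (by positivity) hC
      _ = 10 * |C0| * (ν ^ 15 * g ^ 2) := by ring
      _ ≤ ν * (ν ^ 15 * g ^ 2) := mul_le_mul_of_nonneg_right (by linarith) (by positivity)
  · have e2 : 1 / ν * (ν ^ 9 * g / s ^ 2) = ν * (ν ^ 7 * g) / s ^ 2 := by
      field_simp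
    rw [e2]
    refine div_le_div_of_nonneg_right ?_ (by positivity)
    have : 1 ≤ ν ^ 7 * g := one_le_mul_of_one_le_of_one_le (p1 7) g1
    nlinarith

lemma gg_bounds_bar {ν n D : ℝ} (hν : 1 ≤ ν) (hn : ν ^ 4000 = n) (hD : 1 ≤ D) (hD' : D ≤ n - 2) :
    1 ≤ gg n D ∧ gg n D ≤ ν := by
  have hD0 : 0 < D := by linarith
  have h1 : 1 ≤ (n - 2) / D := (one_le_div hD0).2 hD'
  have h2 : (n - 2) / D ≤ n := (div_le_self (by linarith) hD).trans (by linarith)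
  refine ⟨Real.one_le_rpow h1 (by norm_num), ?_⟩
  have h3 : n ^ ((1 : ℝ) / 4000) = ν := by
    have := Real.pow_rpow_inv_natCast (x := ν) (n := 4000) (by linarith) (by norm_num)
    rw [hn] at this
    rw [← this]
    norm_num
  rw [← h3]
  exact Real.rpow_le_rpow (by linarith) h2 (by norm_num)

lemma tail_bar {ν n D g w : ℝ} (hν : 4 ≤ ν) (hD : 1 ≤ D) (hD' : D ≤ n - 2) (hg : 0 ≤ g)
    (hw : n ^ 5 ≤ w) : 1 / w * (4 * ν * g * ((n - 2) / D) ^ 2) ≤ ν ^ 2 * g / Real.sqrt D := by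
  have hD0 : 0 < D := by linarith
  have n1 : 1 ≤ n := by linarith
  have hs : 0 < Real.sqrt D := Real.sqrt_pos.2 hD0
  have h0 : 0 ≤ (n - 2) / D := div_nonneg (by linarith) hD0.le
  have h2 : (n - 2) / D ≤ n := (div_le_self (by linarith) hD).trans (by linarith)
  have h3 : Real.sqrt D ≤ n := by
    rw [Real.sqrt_le_left (by linarith)]
    nlinarith
  have w0 : 0 < w := lt_of_lt_of_le (by positivity) hw
  rw [one_div_mul_eq_div, div_le_div_iff₀ w0 hs]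
  have h4 : ((n - 2) / D) ^ 2 * Real.sqrt D ≤ w :=
    calc ((n - 2) / D) ^ 2 * Real.sqrt D ≤ n ^ 2 * n := by gcongr
      _ = n ^ 3 := by ring
      _ ≤ n ^ 5 := pow_le_pow_right₀ n1 (by norm_num)
      _ ≤ w := hw
  calc 4 * ν * g * ((n - 2) / D) ^ 2 * Real.sqrt D
      = 4 * (ν * g) * (((n - 2) / D) ^ 2 * Real.sqrt D) := by ring
    _ ≤ ν * (ν * g) * w := by gcongr
    _ = ν ^ 2 * g * w := by ring

theorem bar_ok : BarS := by
  intro C0
  refine ⟨16000 + 10 * |C0|, fun ν n D a j π hν hn hD hD' a0 a1 hj hjν => ?_⟩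
  have hC := abs_nonneg C0
  have ν1 : 1 ≤ ν := by linarith
  have ν0 : 0 < ν := by linarith
  have D1 : 1 ≤ D := (one_le_pow₀ ν1).trans hD
  have D0 : 0 < D := by linarith
  have a2 : a ≤ 1 / 16000 := a1.trans (one_div_le_one_div_of_le (by norm_num) (by linarith))
  obtain ⟨g1, g2⟩ := gg_bounds_bar ν1 hn D1 hD'
  have hs : ν ^ 50 ≤ Real.sqrt D := by
    apply Real.le_sqrt_of_sq_le
    rw [← pow_mul]
    exact hD
  obtain ⟨q1, q2, q3, q4, q5, q6⟩ := static_bar hν g1 g2 hs (Nat.cast_nonneg j) hjν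
  rw [Real.sq_sqrt D0.le] at q1 q3 q4 q5 q6
  obtain ⟨s1, s2, s3⟩ := step_bar ν0.le D0 hD' a0 a2
  have tl := tail_bar (ν := ν) (by linarith) D1 hD' (zero_le_one.trans g1) hj
  have hx : 1 ≤ (n - 2) / D := (one_le_div D0).2 hD'
  have hT : 4 * ν ≤ bT ν n D := by
    unfold bT
    rw [mul_assoc (4 * ν)]
    exact le_mul_of_one_le_right (by linarith)
      (one_le_mul_of_one_le_of_one_le g1 (one_le_pow₀ hx))
  have hF : 0 < bF ν n D := by
    unfold bF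
    have : 0 < gg n D := by linarith
    positivity
  change 16000 * bF ν n D ≤ bS ν n D at q1
  change 3 * bS ν n D ≤ _ at q2
  change C0 * (j * (3 * bS ν n D) ^ 2 + j ^ 3 / D) ≤ (1 / ν) ^ 2 * bF ν n D at q3
  change C0 / D ≤ (1 / ν) ^ 2 * bS ν n D ^ 2 at q4
  change C0 * (j ^ 2 * (3 * bS ν n D) ^ 2 / D + j / D ^ 2) ≤ (1 / ν) ^ 2 * bF ν n D ^ 2 at q5
  change C0 / D ≤ 1 / ν * bF ν n D at q6
  change 1 / 2 ^ j * bT ν n D ≤ bS ν n D at tl
  have t0 : (0 : ℝ) ≤ 2 ^ π.length / 2 ^ j := by positivity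
  have hu : 0 ≤ 2 ^ π.length / 2 ^ j * bT ν n D := mul_nonneg t0 (by linarith)
  have s4 := mul_le_mul_of_nonneg_left s3 t0
  have hc := cases_bar ν n j π
  have hFb : bF ν n D + 2 ^ π.length / 2 ^ j * bT ν n D ≤ bar ν n D j π := by
    rcases hc with ⟨e, -⟩ | ⟨e, -⟩ | ⟨e, -⟩ <;> rw [e] <;> linarith
  have hSb : ¬ Free π → bS ν n D ≤ bar ν n D j π := fun hf => by
    rcases hc with ⟨e, -⟩ | ⟨e, -⟩ | ⟨-, e, -⟩
    · rw [e]; linarith
    · rw [e]; linarith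
    · exact (hf e).elim
  have hν2 : (0 : ℝ) ≤ (1 / ν) ^ 2 := sq_nonneg _
  refine ⟨by linarith, fun β => ?_, ?_, ?_, by linarith, q2, ?_, fun hf => ?_, fun _ => ?_, ?_,
    fun hl => ?_⟩
  · rcases hc with ⟨e, -, e'⟩ | ⟨e, -, e', e''⟩ | ⟨e, -, e'⟩
    · rw [e, e']; linarith
    · cases β
      · rw [e, e']; linarith
      · rw [e, e'']; linarith
    · rw [e, e']; linarith
  · have aS : 0 ≤ a * bS ν n D := mul_nonneg a0 (by linarith)
    have aF : a * (16000 * bF ν n D) ≤ a * bS ν n D := mul_le_mul_of_nonneg_left q1 a0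
    rcases hc with ⟨e, -, e'⟩ | ⟨e, -, e', e''⟩ | ⟨e, -, e'⟩
    · rw [e, e, e', e']; linarith
    · rw [e, e, e', e'']; linarith
    · rw [e, e, e', e']; linarith
  · rw [bar, if_pos rfl, List.length_nil, pow_zero]
    linarith
  · exact q3.trans (mul_le_mul_of_nonneg_left (by linarith) hν2)
  · exact q4.trans (mul_le_mul_of_nonneg_left (pow_le_pow_left₀ (by linarith) (hSb hf) 2) hν2)
  · exact q5.trans (mul_le_mul_of_nonneg_left (pow_le_pow_left₀ hF.le (by linarith) 2) hν2)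
  · exact q6.trans (mul_le_mul_of_nonneg_left (by linarith) (by positivity))
  · have e : (2 : ℝ) ^ π.length / 2 ^ j = 2 := by
      rw [hl, pow_succ]
      field_simp
    rw [e] at hFb
    linarith

end Vale.Agent.P046
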