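import Vale.Agent.P046.Walk

/-! # P046: the expected weight of conflicts -/

namespace Vale.Agent.P046

open Finset Vale.Agent.P015

lemma wt_nonneg_conf {κ : ℝ} (hκ : 0 ≤ κ) (m : ℕ) : 0 ≤ wt κ m := by
  unfold wt; positivity

lemma sum_wt_conf {κ t : ℝ} (hκ : 0 ≤ κ) (ht : 1 ≤ t) {c : ℕ} (hc : c ≤ 2) (N : ℕ) :
    ∑ i ∈ range N, wt κ (i - c) * t ^ i ≤ 3 * t ^ 2 * Real.exp (t * κ) := by
  have h0 : 0 ≤ t * κ := by positivity
  have h1 : ∀ i, wt κ (i - c) * t ^ i ≤ t ^ 2 * wt (t * κ) (i - c) := by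
    intro i
    have h2 : t ^ i ≤ t ^ 2 * t ^ (i - c) := by
      rw [← pow_add]; exact pow_le_pow_right₀ ht (by omega)
    have h3 : t ^ 2 * wt (t * κ) (i - c) = wt κ (i - c) * (t ^ 2 * t ^ (i - c)) := by
      unfold wt; rw [mul_pow]; ring
    rw [h3]
    exact mul_le_mul_of_nonneg_left h2 (wt_nonneg_conf hκ _)
  have h2 : ∑ i ∈ range N, wt (t * κ) (i - c) ≤ 3 * Real.exp (t * κ) := by
    have h3 : ∑ i ∈ range N, wt (t * κ) (i - c) ≤ ∑ i ∈ range (c + N), wt (t * κ) (i - c) :=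
      sum_le_sum_of_subset_of_nonneg (range_mono (by omega)) fun i _ _ => wt_nonneg_conf h0 _
    rw [sum_range_add] at h3
    have h4 : ∑ i ∈ range c, wt (t * κ) (i - c) ≤ 2 := by
      have : ∀ i ∈ range c, wt (t * κ) (i - c) = 1 := fun i hi => by
        rw [Nat.sub_eq_zero_of_le (mem_range.mp hi).le]; simp [wt]
      rw [sum_congr rfl this]
      simp only [sum_const, card_range, nsmul_eq_mul, mul_one]
      exact_mod_cast hc
    have h5 : ∑ i ∈ range N, wt (t * κ) (c + i - c) ≤ Real.exp (t * κ) := by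
      simp only [Nat.add_sub_cancel_left, wt]
      exact Real.sum_le_exp_of_nonneg h0 N
    have h6 := Real.one_le_exp h0
    linarith
  calc ∑ i ∈ range N, wt κ (i - c) * t ^ i ≤ ∑ i ∈ range N, t ^ 2 * wt (t * κ) (i - c) :=
        sum_le_sum fun i _ => h1 i
    _ = t ^ 2 * ∑ i ∈ range N, wt (t * κ) (i - c) := by rw [mul_sum]
    _ ≤ t ^ 2 * (3 * Real.exp (t * κ)) := mul_le_mul_of_nonneg_left h2 (by positivity)
    _ = _ := by ring

lemma sum3_wt_conf {κ t : ℝ} (hκ : 0 ≤ κ) (ht : 1 ≤ t) (N : ℕ) :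
    ∑ i ∈ range N, ∑ k ∈ range N, ∑ m ∈ range N,
      wt κ (i - 1) * wt κ (k - 2) * wt κ (m - 2) * t ^ (i + k + m)
      ≤ 27 * t ^ 6 * Real.exp (3 * (t * κ)) := by
  have e : ∑ i ∈ range N, ∑ k ∈ range N, ∑ m ∈ range N,
      wt κ (i - 1) * wt κ (k - 2) * wt κ (m - 2) * t ^ (i + k + m)
      = (∑ i ∈ range N, wt κ (i - 1) * t ^ i) * ((∑ k ∈ range N, wt κ (k - 2) * t ^ k) *
        ∑ m ∈ range N, wt κ (m - 2) * t ^ m) := by
    rw [sum_mul_sum, sum_mul]
    refine sum_congr rfl fun i _ => ?_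
    rw [mul_sum]
    refine sum_congr rfl fun k _ => ?_
    rw [mul_sum]
    refine sum_congr rfl fun m _ => ?_
    rw [pow_add, pow_add]; ring
  have h1 := sum_wt_conf hκ ht (c := 1) (by norm_num) N
  have h2 := sum_wt_conf hκ ht (c := 2) le_rfl N
  have h0 : 0 ≤ ∑ k ∈ range N, wt κ (k - 2) * t ^ k :=
    sum_nonneg fun k _ => mul_nonneg (wt_nonneg_conf hκ _) (by positivity)
  have e2 : Real.exp (3 * (t * κ)) = Real.exp (t * κ) ^ 3 := by
    rw [← Real.exp_nat_mul]; norm_num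
  rw [e, e2]
  calc _ ≤ (3 * t ^ 2 * Real.exp (t * κ)) * ((3 * t ^ 2 * Real.exp (t * κ)) *
        (3 * t ^ 2 * Real.exp (t * κ))) :=
        mul_le_mul h1 (mul_le_mul h2 h2 h0 (by positivity)) (mul_nonneg h0 h0) (by positivity)
    _ = _ := by ring

lemma two_pow_conf {ν : ℝ} (hν : 10 ≤ ν) : ν ^ 3000 ≤ 2 ^ ⌊ν ^ 12⌋₊ := by
  have h0 : 0 < ν := by linarith
  have h1 : ν ^ 12 - 1 ≤ ⌊ν ^ 12⌋₊ := by have := Nat.lt_floor_add_one (ν ^ 12); linarith
  have h2 : (10 : ℝ) ^ 11 ≤ ν ^ 11 := pow_le_pow_left₀ (by norm_num) hν 11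
  have h3 : ν ^ 12 = ν ^ 11 * ν := pow_succ ν 11
  have h4 : 1 / 2 ≤ Real.log 2 := by have := Real.log_two_gt_d9; linarith
  have h5 : Real.log ν ≤ ν := (Real.log_le_sub_one_of_pos h0).trans (by linarith)
  rw [← Real.exp_log (pow_pos h0 3000), ← Real.exp_log (x := 2 ^ ⌊ν ^ 12⌋₊) (by positivity),
    Real.exp_le_exp, Real.log_pow, Real.log_pow]
  have h6 : 6000 * ν ≤ (⌊ν ^ 12⌋₊ : ℝ) := by nlinarith
  push_cast
  nlinarith

lemma final_conf {ν p q A s t u v w : ℝ} (hν : 10 ≤ ν) (hq0 : 0 ≤ q) (hq : q ^ 2 ≤ 4 * p ^ 2)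
    (hq2 : q * ν ^ 1900 ≤ 1) (hA : A ≤ ν ^ 25) (hs0 : 0 ≤ s) (hs : s ≤ ν ^ 101)
    (ht0 : 0 ≤ t) (ht : t ≤ ν ^ 101) (hu0 : 0 ≤ u) (hu : u ≤ (ν ^ 101) ^ 8) (hv0 : 0 ≤ v)
    (hv : v ≤ (ν ^ 101) ^ 16) (hw : ν ^ 3000 ≤ w) :
    A * q ^ 3 * (27 * s ^ 6 * u) + q ^ 2 / w * (27 * t ^ 6 * v) ≤ p ^ 2 / ν ^ 200 := by
  have h0 : 0 < ν := by linarith
  have h1 : 1 ≤ ν := by linarith
  have h27 : 27 * 8 ≤ ν ^ 3 := by
    have : (10 : ℝ) ^ 3 ≤ ν ^ 3 := pow_le_pow_left₀ (by norm_num) hν 3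
    linarith
  have hw0 : 0 < w := (pow_pos h0 3000).trans_le hw
  have e1 : A * q * (27 * s ^ 6 * u) * ν ^ 200 * 8 ≤ 1 := by
    calc A * q * (27 * s ^ 6 * u) * ν ^ 200 * 8 = q * (A * (27 * 8) * s ^ 6 * u * ν ^ 200) := by ring
      _ ≤ q * (ν ^ 25 * ν ^ 3 * (ν ^ 101) ^ 6 * (ν ^ 101) ^ 8 * ν ^ 200) := by gcongr
      _ = q * ν ^ 1642 := by simp only [← pow_mul, ← pow_add]
      _ ≤ q * ν ^ 1900 := mul_le_mul_of_nonneg_left (pow_le_pow_right₀ h1 (by norm_num)) hq0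
      _ ≤ 1 := hq2
  have e2 : 1 / w * (27 * t ^ 6 * v) * ν ^ 200 * 8 ≤ 1 := by
    calc 1 / w * (27 * t ^ 6 * v) * ν ^ 200 * 8 = ((27 * 8) * t ^ 6 * v * ν ^ 200) / w := by ring
      _ ≤ (ν ^ 3 * (ν ^ 101) ^ 6 * (ν ^ 101) ^ 16 * ν ^ 200) / w := by gcongr
      _ = ν ^ 2425 / w := by simp only [← pow_mul, ← pow_add]
      _ ≤ 1 := (div_le_one hw0).mpr ((pow_le_pow_right₀ h1 (by norm_num)).trans hw)
  rw [le_div_iff₀ (pow_pos h0 200)]
  generalize ν ^ 200 = z at e1 e2 ⊢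
  have e3 : (A * q ^ 3 * (27 * s ^ 6 * u) + q ^ 2 / w * (27 * t ^ 6 * v)) * z
      = q ^ 2 * (A * q * (27 * s ^ 6 * u) * z * 8 + 1 / w * (27 * t ^ 6 * v) * z * 8) / 8 := by
    ring
  rw [e3]
  have : q ^ 2 * (A * q * (27 * s ^ 6 * u) * z * 8 + 1 / w * (27 * t ^ 6 * v) * z * 8)
      ≤ q ^ 2 * 2 := mul_le_mul_of_nonneg_left (by linarith) (sq_nonneg q)
  linarith

lemma cnt_conf (h : TwoTreeS) {V : Type} [Fintype V] [DecidableEq V]
    (μ : FP (Option (SimpleGraph V))) {B q hm : ℝ} {L0 : ℕ} (hdom : Dom μ q hm) (hq : 0 ≤ q)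
    (hn : Fintype.card V * q ^ 2 ≤ B) (hB : 1 ≤ 2 * B)
    (hae : μ.Ae fun o => ∀ G, o = some G → ∀ a b, G.Adj a b → cod G a b ≤ B)
    (hL : 2 + 2 * (L0 : ℝ) ≤ hm) {a b c d : V} (hd : Dis a b c d) (i k m : ℕ) :
    (μ.E fun o => o.elim 0 fun G => ind {s(a, b), s(c, d)} G * cnt G a b c d i k m)
      ≤ 2 * L0 * (4 + L0) * q ^ 3 * (2 * B) ^ (i + k + m)
        + q ^ 2 / 2 ^ L0 * (4 * B) ^ (i + k + m) := by
  obtain ⟨h1, h2⟩ := h V B
  have hne : s(a, b) ≠ s(c, d) := by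
    intro he
    rcases Sym2.eq_iff.mp he with he | he
    · exact hd.1 he.1
    · exact hd.2.1 he.1
  have hcard : ({s(a, b), s(c, d)} : Finset (Sym2 V)).card = 2 := card_pair hne
  have hB0 : 0 ≤ B := by linarith
  have hL0 : (0 : ℝ) ≤ L0 := Nat.cast_nonneg _
  set L := i + k + m with hLdef
  by_cases hL' : L ≤ L0
  · have hLr : (L : ℝ) ≤ L0 := by exact_mod_cast hL'
    have h3 := h2 μ q hm (st0 a b c d, st0 a b c d, i, k) {a, b, c, d} {s(a, b), s(c, d)} L hdom hq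
      hn hae (by intro β; cases β <;> simp [st0])
      (by
        intro e he v hv
        simp only [mem_insert, mem_singleton] at he ⊢
        rcases he with rfl | rfl <;> rcases Sym2.mem_iff.mp hv with rfl | rfl <;> simp)
      (by rw [hcard]; push_cast; linarith)
    rw [hcard] at h3
    have hU : ((({a, b, c, d} : Finset V).card : ℕ) : ℝ) ≤ 4 := by exact_mod_cast card_le_four
    have h4 : (2 * B) ^ (L - 1) ≤ (2 * B) ^ L := pow_le_pow_right₀ hB (Nat.sub_le _ _)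
    have h5 : 2 * (L : ℝ) * ((({a, b, c, d} : Finset V).card : ℕ) + L) * q ^ (2 + 1) *
        (2 * B) ^ (L - 1) ≤ 2 * L0 * (4 + L0) * q ^ 3 * (2 * B) ^ L := by gcongr
    have h6 : 0 ≤ q ^ 2 / 2 ^ L0 * (4 * B) ^ L := by positivity
    exact (h3.trans h5).trans (le_add_of_nonneg_right h6)
  · have h3 : (μ.E fun o => o.elim 0 fun G => ind {s(a, b), s(c, d)} G * cnt G a b c d i k m)
        ≤ μ.E fun o => o.elim 0 (ind {s(a, b), s(c, d)}) * (2 * B) ^ L := by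
      refine μ.E_mono_ae (hae.mono fun o ho => ?_)
      cases o with
      | none => simp
      | some G =>
        simp only [Option.elim]
        rcases ind_cases {s(a, b), s(c, d)} G with hi | hi
        · have hst : StAdj G (st0 a b c d) := by
            intro β
            cases β
            · exact hi.2 s(a, b) (by simp)
            · exact hi.2 s(c, d) (by simp)
          refine mul_le_mul_of_nonneg_left ?_ (ind_nonneg _ _)
          refine le_trans ?_ (h1 G (st0 a b c d, st0 a b c d, i, k) L (ho G rfl) hst hst)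
          refine sumL_mono L fun l _ => ?_
          split_ifs with h4 h5
          · exact le_rfl
          · exact absurd h4.1 h5
          · norm_num
          · exact le_rfl
        · rw [hi.1]; simp
    rw [FP.E_mul_right] at h3
    have h4 := hdom {s(a, b), s(c, d)} (by rw [hcard]; push_cast; linarith)
    rw [hcard] at h4
    have h5 : (2 * B) ^ L ≤ 1 / 2 ^ L0 * (4 * B) ^ L := by
      have e : (4 * B) ^ L = 2 ^ L * (2 * B) ^ L := by rw [← mul_pow]; congr 1; ring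
      have h6 : (2 : ℝ) ^ L0 ≤ 2 ^ L := pow_le_pow_right₀ (by norm_num) (by omega)
      rw [e, one_div_mul_eq_div, le_div_iff₀ (by positivity), mul_comm]
      exact mul_le_mul_of_nonneg_right h6 (by positivity)
    have h6 : 0 ≤ 2 * (L0 : ℝ) * (4 + L0) * q ^ 3 * (2 * B) ^ L := by positivity
    refine h3.trans (le_add_of_nonneg_of_le h6 ?_)
    calc _ ≤ q ^ 2 * (1 / 2 ^ L0 * (4 * B) ^ L) := mul_le_mul h4 h5 (by positivity) (by positivity)
      _ = _ := by ring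

theorem conf_ok (h : TwoTreeS) : ConfS := by
  refine ⟨10, fun V _ _ ν hν hn D p μ hS a b c d hd => ?_⟩
  have h0 : 0 < ν := by linarith
  have h1 : 1 ≤ ν := by linarith
  have hpw : ∀ {i j : ℕ}, i ≤ j → ν ^ i ≤ ν ^ j := fun hij => pow_le_pow_right₀ h1 hij
  have h3 : 1000 ≤ ν ^ 3 := by
    have : (10 : ℝ) ^ 3 ≤ ν ^ 3 := pow_le_pow_left₀ (by norm_num) hν 3
    linarith
  have h100 : 1000 ≤ ν ^ 100 := h3.trans (hpw (by norm_num))
  have h101 : 10 * ν ^ 100 ≤ ν ^ 101 := by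
    rw [pow_succ ν 100, mul_comm]; exact mul_le_mul_of_nonneg_left hν (by positivity)
  have hlo := hS.lo
  have hhi := hS.hi
  have hD : 1000 ≤ D := h100.trans hlo
  have hD0 : 0 < D := by linarith
  have hn1 : ν ^ 101 ≤ (Fintype.card V : ℝ) := hn ▸ hpw (by norm_num)
  have hε : ∀ j, 3 ≤ j → 0 ≤ 1 / ν ^ j ∧ 1 / ν ^ j ≤ 1 / 1000 := fun j hj =>
    ⟨by positivity, one_div_le_one_div_of_le (by norm_num) (h3.trans (hpw hj))⟩
  obtain ⟨hε0, hε1⟩ := hε 44 (by norm_num)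
  have hp := hS.p0
  have hpD := hS.pD
  have hdom := hS.dom
  set q := p * (1 + 1 / ν ^ 44) with hqdef
  have hq0 : 0 ≤ q := by positivity
  have hq1 : q ≤ p * (1001 / 1000) := mul_le_mul_of_nonneg_left (by linarith) hp.le
  have hq2 : q ^ 2 ≤ (p * (1001 / 1000)) ^ 2 := pow_le_pow_left₀ hq0 hq1 2
  have hnq : (Fintype.card V : ℝ) * q ^ 2 ≤ 101 / 100 * D := by
    have e1 : (Fintype.card V : ℝ) * q ^ 2 ≤ Fintype.card V * (p * (1001 / 1000)) ^ 2 :=
      mul_le_mul_of_nonneg_left hq2 (Nat.cast_nonneg _)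
    have e2 : 10000 * p ^ 2 ≤ Fintype.card V * p ^ 2 :=
      mul_le_mul_of_nonneg_right (by linarith) (sq_nonneg p)
    nlinarith
  have hae : μ.Ae fun o => ∀ G, o = some G → ∀ a b, G.Adj a b → cod G a b ≤ 101 / 100 * D := by
    refine hS.reg.mono fun o ho G hG a b hab => ((ho G hG).le hab).trans ?_
    have := (hε 46 (by norm_num)).2
    nlinarith
  have hL0 : (⌊ν ^ 12⌋₊ : ℝ) ≤ ν ^ 12 := Nat.floor_le (by positivity)
  have h12 : 1000 ≤ ν ^ 12 := h3.trans (hpw (by norm_num))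
  have h13 : 10 * ν ^ 12 ≤ ν ^ 13 := by
    rw [pow_succ ν 12, mul_comm]; exact mul_le_mul_of_nonneg_left hν (by positivity)
  have hcnt := cnt_conf h μ (B := 101 / 100 * D) (L0 := ⌊ν ^ 12⌋₊) hdom hq0 hnq (by linarith) hae
    (by linarith) hd
  set M := Fintype.card V ^ 8 with hM
  have hMn : (Fintype.card V : ℝ) ≤ M := by
    rw [hM]; push_cast
    exact le_self_pow₀ (by linarith) (by norm_num)
  have hM0 : (0 : ℝ) < M := by linarith
  set κ := kap (fun s => 11 / 10 * rbar D M s) M M with hκdef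
  have hκ0 : 0 ≤ κ := by rw [hκdef]; unfold kap; positivity
  have hκ : D * κ ≤ 121 / 100 * Real.log (1 + 2 * D) := by
    have e1 := sum_w_le (D := D) (M := M) hD0.le (by rw [div_le_iff₀ hM0]; linarith) M
    rw [mul_div_assoc, div_self hM0.ne', mul_one] at e1
    have e2 : D * κ = 121 / 100 * ∑ r ∈ range M, D * rbar D M r ^ 2 / M := by
      rw [hκdef]; unfold kap
      rw [sum_div, mul_sum, mul_sum]
      exact sum_congr rfl fun r _ => by ring
    rw [e2]; linarith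
  have hlog : 0 ≤ Real.log (1 + 2 * D) := Real.log_nonneg (by linarith)
  have hexp : ∀ (j : ℕ) (x : ℝ), x ≤ j * Real.log (1 + 2 * D) → Real.exp x ≤ (ν ^ 101) ^ j := by
    intro j x hx
    refine (Real.exp_le_exp.mpr hx).trans ?_
    rw [Real.exp_nat_mul, Real.exp_log (by linarith)]
    exact pow_le_pow_left₀ (by linarith) (by linarith) j
  have hs1 := sum3_wt_conf hκ0 (t := 2 * (101 / 100 * D)) (by linarith) (M + 1)
  have hs2 := sum3_wt_conf hκ0 (t := 4 * (101 / 100 * D)) (by linarith) (M + 1)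
  have e1 : (μ.E fun o => o.elim 0 fun G => ind {s(a, b), s(c, d)} G * conf G M κ a b c d)
      = ∑ i ∈ range (M + 1), ∑ k ∈ range (M + 1), ∑ m ∈ range (M + 1),
        wt κ (i - 1) * wt κ (k - 2) * wt κ (m - 2) *
          μ.E fun o => o.elim 0 fun G => ind {s(a, b), s(c, d)} G * cnt G a b c d i k m := by
    simp only [← FP.E_mul_left, ← FP.E_sum]
    congr 1
    funext o
    cases o with
    | none => simp
    | some G =>
      simp only [Option.elim, conf, mul_sum]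
      refine sum_congr rfl fun i _ => sum_congr rfl fun k _ => sum_congr rfl fun m _ => ?_
      ring
  rw [e1]
  set A := 2 * (⌊ν ^ 12⌋₊ : ℝ) * (4 + ⌊ν ^ 12⌋₊) with hA
  have hA0 : 0 ≤ A := by positivity
  have hA1 : A ≤ ν ^ 25 := by
    have e2 : ν ^ 25 = ν ^ 13 * ν ^ 12 := by rw [← pow_add]
    have e3 : A ≤ 2 * ν ^ 12 * (4 + ν ^ 12) := by rw [hA]; gcongr
    have e4 : 10 * ν ^ 12 * ν ^ 12 ≤ ν ^ 13 * ν ^ 12 :=
      mul_le_mul_of_nonneg_right h13 (by positivity)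
    nlinarith
  calc _ ≤ ∑ i ∈ range (M + 1), ∑ k ∈ range (M + 1), ∑ m ∈ range (M + 1),
        (A * q ^ 3 * (wt κ (i - 1) * wt κ (k - 2) * wt κ (m - 2) *
          (2 * (101 / 100 * D)) ^ (i + k + m)) + q ^ 2 / 2 ^ ⌊ν ^ 12⌋₊ *
          (wt κ (i - 1) * wt κ (k - 2) * wt κ (m - 2) * (4 * (101 / 100 * D)) ^ (i + k + m))) := by
        refine sum_le_sum fun i _ => sum_le_sum fun k _ => sum_le_sum fun m _ => ?_
        refine (mul_le_mul_of_nonneg_left (hcnt i k m) (mul_nonneg (mul_nonneg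
          (wt_nonneg_conf hκ0 _) (wt_nonneg_conf hκ0 _)) (wt_nonneg_conf hκ0 _))).trans_eq ?_
        ring
    _ ≤ A * q ^ 3 * (27 * (2 * (101 / 100 * D)) ^ 6 * Real.exp (3 * (2 * (101 / 100 * D) * κ)))
        + q ^ 2 / 2 ^ ⌊ν ^ 12⌋₊ *
          (27 * (4 * (101 / 100 * D)) ^ 6 * Real.exp (3 * (4 * (101 / 100 * D) * κ))) := by
        simp only [sum_add_distrib, ← mul_sum]
        exact add_le_add (mul_le_mul_of_nonneg_left hs1 (by positivity))
          (mul_le_mul_of_nonneg_left hs2 (by positivity))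
    _ ≤ p ^ 2 / ν ^ 200 := by
        refine final_conf hν hq0 (by nlinarith) ?_ hA1 (by linarith) (by linarith)
          (by linarith) (by linarith) (Real.exp_pos _).le (hexp 8 _ (by push_cast; linarith))
          (Real.exp_pos _).le (hexp 16 _ (by push_cast; linarith)) (two_pow_conf hν)
        have e2 : ν ^ 4000 * q ^ 2 ≤ ν ^ 200 := by
          rw [hn]
          have := hpw (show 101 ≤ 200 by norm_num)
          linarith
        have e3 : ν ^ 4000 * q ^ 2 = (q * ν ^ 1900) ^ 2 * ν ^ 200 := by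
          rw [mul_pow q, ← pow_mul, mul_assoc, ← pow_add, mul_comm]
        rw [e3] at e2
        have e4 : (q * ν ^ 1900) ^ 2 ≤ 1 := by
          have := le_of_mul_le_mul_right (e2.trans_eq (one_mul _).symm) (pow_pos h0 200)
          exact this
        exact (pow_le_one_iff_of_nonneg (by positivity) (by norm_num)).mp e4

end Vale.Agent.P046
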