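import Vale.Agent.P046.Walk

/-! # P046: coupling the ranked process with the cover -/

namespace Vale.Agent.P046

open Finset Vale.Agent.P015

variable {V : Type} [Fintype V] [DecidableEq V]

lemma main_couple (h2 : StopS) (h3 : QuerS) (G : SimpleGraph V) (M : ℕ) (a b c d : V)
    (S : Finset Bool) :
    |((tlaw V M M).Pr fun ω => ∀ β ∈ S, alive G M (st0 a b c d) β ω M)
      - (rlaw V M).Pr fun σ => ∀ β ∈ S,
          aliveF G σ M (st0 a b c d β).1 (st0 a b c d β).2.1 M| ≤ confP G M (st0 a b c d) := by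
  set st := st0 a b c d with hst
  obtain ⟨q1, q2, q3⟩ := h3 V G M st
  have H := h2 (Addr V M) (Finset V) ℕ (FP.unif (range M)) (fun x => tri st x.1)
    (fun ω => {x | querT G M st (ext ω) x.1}) (fun ω => ∀ β ∈ S, alive G M st β (ext ω) M) (by
      intro ω ω' hω
      obtain ⟨e1, e2⟩ := q2 (ext ω) (ext ω') fun l hl => by
        have h4 := (q1 _ _ hl).2.1
        simp only [ext, dif_pos h4]
        exact hω ⟨l, h4⟩ hl
      exact ⟨Set.ext fun x => e1 x.1, by simp only [e2]⟩)
  have e1 : ((rlaw V M).Pr fun σ => ∀ β ∈ S, aliveF G σ M (st β).1 (st β).2.1 M)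
      = (FP.iid (Finset V) (FP.unif (range M))).Pr fun σ =>
        ∀ β ∈ S, alive G M st β (ext (σ ∘ fun x : Addr V M => tri st x.1)) M := by
    refine FP.Pr_congr _ fun σ => forall₂_congr fun β _ => (q3 σ _ β M (fun l _ hl => ?_) ?_).symm
    · simp only [ext, dif_pos hl, Function.comp_apply]
    · intro hmem
      exfalso
      have := (mem_nb.1 hmem).1
      cases β <;> exact this.ne rfl
  rw [e1, tlaw, FP.Pr_map]
  refine H.trans ?_
  rw [confP, tlaw, FP.Pr_map]
  refine FP.Pr_mono _ fun ω hω hinj => hω fun x hx y hy e => Subtype.ext (hinj hx hy e)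

theorem couple_ok (h1 : AliveS) (h2 : StopS) (h3 : QuerS) : CoupleS := by
  intro V _ _ G M a b c d hM
  obtain ⟨A1, A2⟩ := (h1 V G M M (st0 a b c d) hM).1 M le_rfl le_rfl
  have B1 := main_couple h2 h3 G M a b c d univ
  have B2 := main_couple h2 h3 G M a b c d {false}
  have B3 := main_couple h2 h3 G M a b c d {true}
  simp only [mem_univ, true_imp_iff, Bool.forall_bool] at B1
  simp only [mem_singleton, forall_eq] at B2 B3
  rw [A1, abs_sub_comm] at B1
  rw [A2, abs_sub_comm] at B2 B3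
  refine ⟨B1, B2, B3, ?_, ?_⟩
  · exact (FP.Pr_nonneg _ _).trans_eq (A2 false)
  · exact (A2 false).symm.trans_le (FP.Pr_le_one _ _)

lemma aliveF_comm_couple (G : SimpleGraph V) (ω : Finset V → ℕ) (h : ℕ) (a b : V) (s : ℕ) :
    aliveF G ω h a b s → aliveF G ω h b a s := by
  cases h with
  | zero => exact id
  | succ h =>
    intro H v hv hc
    rw [nb_comm] at hv
    rw [Finset.insert_comm] at hc
    exact H v hv ⟨hc.1, hc.2.2, hc.2.1⟩

open Classical in
lemma ind_finG_couple (G : SimpleGraph V) (M : ℕ) (ω : Finset V → ℕ) (a b : V) :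
    ind {s(a, b)} (finG G M ω) = ind {s(a, b)} G * if aliveF G ω M a b M then 1 else 0 := by
  rw [ind_single, ind_single]
  have : (finG G M ω).Adj a b ↔ G.Adj a b ∧ aliveF G ω M a b M :=
    ⟨fun h => ⟨h.1, h.2.1⟩, fun h => ⟨h.1, h.2, aliveF_comm_couple G ω M a b M h.2⟩⟩
  by_cases h1 : G.Adj a b <;> by_cases h2 : aliveF G ω M a b M <;> simp [this, h1, h2]

theorem var_ok (h1 : CoupleS) (h2 : UnionS) : VarS := by
  classical
  intro V _ _ G M u hM hu
  set X : (Finset V → ℕ) → V → V → ℝ := fun ω a b => if aliveF G ω M a b M then 1 else 0 with hX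
  set ρ : V → V → ℝ := fun a b => rho G (II G M M) a b a with hρ
  have e1 : ∀ ω, (mE (finG G M ω) - yE G M) ^ 2 = ∑ a, ∑ b, ∑ c, ∑ d,
      ind {s(a, b), s(c, d)} G * ((X ω a b - ρ a b) * (X ω c d - ρ c d)) := by
    intro ω
    have : mE (finG G M ω) - yE G M = ∑ a, ∑ b, ind {s(a, b)} G * (X ω a b - ρ a b) := by
      simp only [mE, yE, ind_finG_couple, mul_sub, Finset.sum_sub_distrib, hX, hρ]
    rw [this, sq, Finset.sum_mul]
    refine Finset.sum_congr rfl fun a _ => ?_
    rw [Finset.sum_mul]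
    refine Finset.sum_congr rfl fun b _ => ?_
    rw [Finset.mul_sum]
    refine Finset.sum_congr rfl fun c _ => ?_
    rw [Finset.mul_sum]
    refine Finset.sum_congr rfl fun d _ => ?_
    rw [ind_insert]
    ring
  simp only [e1, FP.E_sum, FP.E_mul_left]
  refine Finset.sum_le_sum fun a _ => Finset.sum_le_sum fun b _ => Finset.sum_le_sum fun c _ =>
    Finset.sum_le_sum fun d _ => ?_
  rcases ind_cases {s(a, b), s(c, d)} G with h | h
  swap
  · rw [h.1, zero_mul, zero_mul]
  rw [h.1, one_mul, one_mul]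
  have hab : G.Adj a b := h.2 s(a, b) (by simp)
  have hcd : G.Adj c d := h.2 s(c, d) (by simp)
  obtain ⟨C1, C2, C3, r0, r1⟩ := h1 V G M a b c d hM
  obtain ⟨-, -, -, r0', r1'⟩ := h1 V G M c d a b hM
  change 0 ≤ ρ a b at r0
  change ρ a b ≤ 1 at r1
  change 0 ≤ ρ c d at r0'
  change ρ c d ≤ 1 at r1'
  split_ifs with hD
  · have hc := h2 V G M u a b c d hM hu hab hcd hD
    have e2 : ((rlaw V M).E fun ω => (X ω a b - ρ a b) * (X ω c d - ρ c d))
        = ((rlaw V M).Pr fun ω => aliveF G ω M a b M ∧ aliveF G ω M c d M)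
          - ρ c d * ((rlaw V M).Pr fun ω => aliveF G ω M a b M)
          - ρ a b * ((rlaw V M).Pr fun ω => aliveF G ω M c d M) + ρ a b * ρ c d := by
      rw [FP.Pr_eq_E, FP.Pr_eq_E, FP.Pr_eq_E, ← FP.E_mul_left, ← FP.E_mul_left, ← FP.E_sub,
        ← FP.E_sub, ← (rlaw V M).E_const (ρ a b * ρ c d), ← FP.E_add]
      congr 1
      funext ω
      simp only [hX]
      by_cases p1 : aliveF G ω M a b M <;> by_cases p2 : aliveF G ω M c d M <;>
        simp only [p1, p2, if_true, if_false, and_self, and_true, and_false] <;> ring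
    rw [e2]
    change |_ - ρ a b * ρ c d| ≤ _ at C1
    change |_ - ρ a b| ≤ _ at C2
    change |_ - ρ c d| ≤ _ at C3
    have d1 := (abs_le.1 C1).2
    have d2 := (abs_le.1 C2).1
    have d3 := (abs_le.1 C3).1
    have c0 : 0 ≤ confP G M (st0 a b c d) := FP.Pr_nonneg _ _
    nlinarith [mul_le_mul_of_nonneg_left d2 r0', mul_le_mul_of_nonneg_left d3 r0,
      mul_le_mul_of_nonneg_right r1 c0, mul_le_mul_of_nonneg_right r1' c0]
  · refine FP.E_le_of_ae _ fun ω _ => ?_
    have p1 : |X ω a b - ρ a b| ≤ 1 := by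
      simp only [hX]; split_ifs <;> rw [abs_le] <;> constructor <;> linarith
    have p2 : |X ω c d - ρ c d| ≤ 1 := by
      simp only [hX]; split_ifs <;> rw [abs_le] <;> constructor <;> linarith
    refine (le_abs_self _).trans ?_
    rw [abs_mul]
    exact mul_le_one₀ p1 (abs_nonneg _) p2

end Vale.Agent.P046
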