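import Vale.Agent.P046.Walk

/-! # P046: the drift of the walk averages -/

set_option linter.unusedSectionVars false

namespace Vale.Agent.P046

open Finset Vale.Agent.P015

lemma real_drift {A X D D' c a s m δ j i : ℝ} (hA : |A - ((X - D') * (1 - c) - 2 * a * X - s)|
      ≤ 48 * (a * j ^ 2)) (hX : |X - D| ≤ δ * D) (hs : |s| ≤ 4 * δ * a * D)
    (hD' : D' * (1 + 2 * a) = D) (hD'0 : 0 ≤ D') (hc0 : 0 ≤ c) (hc : c ≤ 4 * j * a)
    (hm : |m - 1 - 2 * a * (i + 1)| ≤ 16 * (a * j) ^ 2) (hm1 : 1 ≤ m) (hm2 : m - 1 ≤ 8 * a * j)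
    (hm3 : m ≤ 2) (hj : 1 ≤ j) (ha : 0 ≤ a) (haj : a * j ^ 2 * D ≤ 1) (hδ0 : 0 ≤ δ) (hδ : δ ≤ 1)
    (hD : 0 ≤ D) :
    |m * A - (X - D) + s| ≤ |2 * i * a - c| * (δ * D) + 216 * (a * j ^ 2) := by
  have haD : 0 ≤ a * D := mul_nonneg ha hD
  have hj2 : j ≤ j ^ 2 := by nlinarith
  have h1 : a * j * D ≤ 1 := by nlinarith [mul_le_mul_of_nonneg_left hj2 haD]
  have h2 : a * D ≤ a * j * D := by nlinarith [mul_le_mul_of_nonneg_left hj haD]
  have haa : a ≤ a * j ^ 2 := le_mul_of_one_le_right ha (hj.trans hj2)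
  have hD1 : D' ≤ D := by nlinarith [mul_nonneg ha hD'0]
  obtain ⟨e1, he1⟩ : ∃ e1, e1 = 2 * a * (2 * a * D') + 2 * a * D' * c := ⟨_, rfl⟩
  have he0 : 0 ≤ e1 := by rw [he1]; positivity
  have he2 : e1 ≤ 12 * a := by
    have h3 : a * D' ≤ a * D := mul_le_mul_of_nonneg_left hD1 ha
    have h4 : a * D' * c ≤ a * D * (4 * j * a) := mul_le_mul h3 hc hc0 haD
    have h5 : a * (a * j * D) ≤ a * 1 := mul_le_mul_of_nonneg_left h1 ha
    have h6 : a * (a * D') ≤ a * 1 := mul_le_mul_of_nonneg_left (h3.trans (h2.trans h1)) ha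
    rw [he1]; linarith
  have key : m * A - (X - D) + s = m * (A - ((X - D') * (1 - c) - 2 * a * X - s))
      + (X - D) * ((m - 1 - 2 * a * (i + 1)) + (2 * i * a - c) - (m - 1) * (c + 2 * a))
      - m * e1 - (m - 1) * s := by
    rw [he1, ← hD']; ring
  have b1 : |m * (A - ((X - D') * (1 - c) - 2 * a * X - s))| ≤ 2 * (48 * (a * j ^ 2)) := by
    rw [abs_mul, abs_of_nonneg (by linarith : 0 ≤ m)]
    exact mul_le_mul hm3 hA (abs_nonneg _) (by norm_num)
  have b2 : |(m - 1) * (c + 2 * a)| ≤ 48 * (a * j) ^ 2 := by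
    rw [abs_of_nonneg (mul_nonneg (by linarith) (by linarith))]
    have : c + 2 * a ≤ 6 * (a * j) := by nlinarith [mul_le_mul_of_nonneg_left hj ha]
    have := mul_le_mul hm2 this (by linarith) (by positivity)
    linarith
  have b3 : |(m - 1 - 2 * a * (i + 1)) + (2 * i * a - c) - (m - 1) * (c + 2 * a)|
      ≤ |2 * i * a - c| + 64 * (a * j) ^ 2 := by
    refine (abs_sub _ _).trans ?_
    linarith [abs_add_le (m - 1 - 2 * a * (i + 1)) (2 * i * a - c)]
  have b4 : |(X - D) * ((m - 1 - 2 * a * (i + 1)) + (2 * i * a - c) - (m - 1) * (c + 2 * a))|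
      ≤ |2 * i * a - c| * (δ * D) + 64 * a := by
    rw [abs_mul]
    refine (mul_le_mul hX b3 (abs_nonneg _) (by positivity)).trans ?_
    have h3 : δ * D ≤ D := mul_le_of_le_one_left hD hδ
    have h4 : δ * D * (a * j) ^ 2 ≤ D * (a * j) ^ 2 := mul_le_mul_of_nonneg_right h3 (by positivity)
    have h5 : a * (a * j ^ 2 * D) ≤ a * 1 := mul_le_mul_of_nonneg_left haj ha
    nlinarith
  have b5 : |m * e1| ≤ 2 * (12 * a) := by
    rw [abs_of_nonneg (mul_nonneg (by linarith) he0)]
    exact mul_le_mul hm3 he2 he0 (by norm_num)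
  have b6 : |(m - 1) * s| ≤ 32 * a := by
    rw [abs_mul, abs_of_nonneg (by linarith : 0 ≤ m - 1)]
    refine (mul_le_mul hm2 hs (abs_nonneg _) (by positivity)).trans ?_
    have h3 : a * j * D * δ ≤ 1 := (mul_le_of_le_one_right (by positivity) hδ).trans h1
    have h5 := mul_le_mul_of_nonneg_left h3 ha
    linarith
  rw [key]
  refine (abs_sub _ _).trans ?_
  refine (add_le_add (abs_sub _ _) le_rfl).trans ?_
  linarith [abs_add_le (m * (A - ((X - D') * (1 - c) - 2 * a * X - s)))
    ((X - D) * ((m - 1 - 2 * a * (i + 1)) + (2 * i * a - c) - (m - 1) * (c + 2 * a)))]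

lemma comb_drift {S X c a s D' r t : ℝ} (h1 : |S - (X * (1 - c) - 2 * a * X - s)| ≤ 44 * t)
    (h2 : |D' * (r - (1 - c))| ≤ 4 * t) :
    |S - D' * r - ((X - D') * (1 - c) - 2 * a * X - s)| ≤ 48 * t := by
  rw [abs_le] at h1 h2 ⊢
  constructor <;> linarith [h1.1, h1.2, h2.1, h2.2]

lemma alg_drift {D a : ℝ} (hD : D ≠ 0) (ha : 1 + 2 * a ≠ 0) (i : ℕ) (A B S1 S2 : ℝ) :
    A / (D ^ (i + 1) / (1 + 2 * a) ^ (i + 1)) - B / D ^ (i + 1)
      + (a * (S1 / D ^ (i + 1 + 1)) + a * (S2 / D ^ (i + 1 + 1)))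
    = ((1 + 2 * a) ^ (i + 1) * A - B + (a / D * S1 + a / D * S2)) / (D ^ i * D) := by
  field_simp
  ring

lemma pow_facts_drift {a j D : ℝ} {i : ℕ} (ha : 0 ≤ a) (hj : 1 ≤ j) (hi : (i : ℝ) ≤ j)
    (haj : a * j ^ 2 * D ≤ 1) (hD : 10 ≤ D) :
    |(1 + 2 * a) ^ (i + 1) - 1 - 2 * a * (i + 1)| ≤ 16 * (a * j) ^ 2 ∧ 1 ≤ (1 + 2 * a) ^ (i + 1) ∧
    (1 + 2 * a) ^ (i + 1) - 1 ≤ 8 * a * j ∧ (1 + 2 * a) ^ (i + 1) ≤ 2 := by
  have hi0 : (0 : ℝ) ≤ i := Nat.cast_nonneg i
  have h1 : a * j ≤ 1 / 10 := by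
    have : a * j ≤ a * j ^ 2 := mul_le_mul_of_nonneg_left (by nlinarith) ha
    have h2 : 0 ≤ a * j ^ 2 := by positivity
    nlinarith
  obtain ⟨u, hu⟩ : ∃ u, u = 2 * a * (i + 1) := ⟨_, rfl⟩
  have hu0 : 0 ≤ u := by rw [hu]; positivity
  have hu1 : u ≤ 4 * (a * j) := by
    rw [hu]; nlinarith [mul_le_mul_of_nonneg_left (show (i : ℝ) + 1 ≤ 2 * j by linarith) ha]
  have h2 : 1 + u ≤ (1 + 2 * a) ^ (i + 1) := by
    have := one_add_mul_le_pow (show (-2 : ℝ) ≤ 2 * a by linarith) (i + 1)
    rw [hu]; push_cast at this; linarith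
  have h3 : (1 + 2 * a) ^ (i + 1) ≤ 1 + u + u ^ 2 := by
    calc (1 + 2 * a) ^ (i + 1) ≤ Real.exp (2 * a) ^ (i + 1) :=
          pow_le_pow_left₀ (by linarith) (by linarith [Real.add_one_le_exp (2 * a)]) _
      _ = Real.exp u := by rw [← Real.exp_nat_mul, hu]; push_cast; ring_nf
      _ ≤ 1 + u + u ^ 2 := by
        have := Real.abs_exp_sub_one_sub_id_le (x := u) (by rw [abs_of_nonneg hu0]; linarith)
        linarith [(abs_le.mp this).2]
  have h4 : u ^ 2 ≤ (4 * (a * j)) ^ 2 := pow_le_pow_left₀ hu0 hu1 2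
  have h5 : u ^ 2 ≤ u := by nlinarith
  rw [← hu]
  refine ⟨abs_le.mpr ⟨by nlinarith [sq_nonneg (a * j)], by linarith⟩, by linarith, by linarith,
    by linarith⟩

variable {V : Type} [Fintype V] [DecidableEq V]

lemma rate_abs_drift (hR : RateS) {G : SimpleGraph V} {D δ a : ℝ} {j : ℕ} {e : V × V}
    {π : List Bool} (h : StepHyp G D δ a j e π) {H : Finset (Sym2 V)}
    (hH : ∀ w ∈ H, w ∈ G.edgeSet) {k : ℝ} (hk : (H.card : ℝ) ≤ k) :
    |((FP.unif (triples V)).E fun T => ind H (lz G T)) - (1 - (∑ w ∈ H, codS G w) * (a / D))|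
      ≤ k ^ 2 * (a / D) := by
  obtain ⟨h1, h2⟩ := hR V G H h.nonempty hH
  have hN : (0 : ℝ) < (triples V).card := by exact_mod_cast h.nonempty.card_pos
  have hD : 0 < D := by linarith [h.D1]
  have h3 : a / D = 1 / (triples V).card := by
    rw [div_eq_div_iff hD.ne' hN.ne', h.ha, one_mul]
  have h4 : (H.card : ℝ) ^ 2 / (triples V).card ≤ k ^ 2 / (triples V).card :=
    div_le_div_of_nonneg_right (pow_le_pow_left₀ (Nat.cast_nonneg _) hk 2) hN.le
  have h5 : 0 ≤ k ^ 2 / (triples V).card := by positivity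
  rw [h3, mul_one_div, mul_one_div, abs_le]
  rw [sub_div] at h2
  constructor <;> linarith

open Classical in
lemma vertex_drift (hR : RateS) {G : SimpleGraph V} {D δ a : ℝ} {j : ℕ} {e : V × V}
    {π : List Bool} (h : StepHyp G D δ a j e π) {l : List (Bool × V)} (hl : l.length ≤ j)
    (hW : ∀ w ∈ wedges e l, w ∈ G.edgeSet) {v : V} (hv : v ∈ nb G (node e l).1 (node e l).2) :
    |((FP.unif (triples V)).E fun T =>
        ind (insert s((node e l).1, v) (insert s((node e l).2, v) (wedges e l))) (lz G T))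
      - (1 - (∑ w ∈ wedges e l, codS G w) * (a / D)
        - (cod G (node e l).1 v + cod G (node e l).2 v) * (a / D))|
      ≤ (4 * j) ^ 2 * (a / D) + if v ∈ wv e l then 4 * a else 0 := by
  have hD : 0 < D := by linarith [h.D1]
  have ha := h.a_pos
  have hv' := mem_nb.mp hv
  have hxy := (node_adj h.adj hW).ne
  have hj : (1 : ℝ) ≤ j := by exact_mod_cast h.j1
  have h1 := rate_abs_drift hR h
    (H := insert s((node e l).1, v) (insert s((node e l).2, v) (wedges e l))) (k := 4 * j)
    (by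
      intro w hw
      simp only [Finset.mem_insert] at hw
      rcases hw with rfl | rfl | hw
      · exact hv'.1
      · exact hv'.2
      · exact hW w hw)
    (by
      have := card_wedges e ((true, v) :: l)
      have h2 : ((wedges e ((true, v) :: l)).card : ℝ) ≤ 2 * (j + 1) := by
        exact_mod_cast this.trans (by simp; omega)
      exact h2.trans (by linarith))
  generalize ((FP.unif (triples V)).E fun T =>
    ind (insert s((node e l).1, v) (insert s((node e l).2, v) (wedges e l))) (lz G T)) = r at *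
  generalize (node e l).1 = x at *
  generalize (node e l).2 = y at *
  by_cases hm : v ∈ wv e l
  · rw [if_pos hm]
    have h2 : ∑ w ∈ wedges e l, codS G w
        ≤ ∑ w ∈ insert s(x, v) (insert s(y, v) (wedges e l)), codS G w :=
      Finset.sum_le_sum_of_subset_of_nonneg
        ((Finset.subset_insert _ _).trans (Finset.subset_insert _ _)) fun w _ _ => codS_nonneg G w
    have ins : ∀ (w : Sym2 V) (H : Finset (Sym2 V)),
        ∑ u ∈ insert w H, codS G u ≤ codS G w + ∑ u ∈ H, codS G u := by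
      intro w H
      by_cases hw : w ∈ H
      · rw [Finset.insert_eq_of_mem hw]; linarith [codS_nonneg G w]
      · rw [Finset.sum_insert hw]
    have h3 := ins s(x, v) (insert s(y, v) (wedges e l))
    have h4 := ins s(y, v) (wedges e l)
    rw [codS_mk] at h3 h4
    have hδ : δ ≤ 1 := by have := h.jδ; have := h.δ0; nlinarith
    have h5 : cod G x v + cod G y v ≤ 4 * D := by
      have := h.reg.le hv'.1; have := h.reg.le hv'.2; nlinarith
    have h6 : 0 ≤ a / D := by positivity
    have h7 := mul_le_mul_of_nonneg_right h5 h6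
    have h8 : 4 * D * (a / D) = 4 * a := by field_simp
    have h9 := mul_le_mul_of_nonneg_right h2 h6
    have h10 := mul_le_mul_of_nonneg_right (h3.trans (add_le_add le_rfl h4)) h6
    rw [abs_le] at h1 ⊢
    constructor <;> nlinarith
  · rw [if_neg hm, add_zero]
    rw [Finset.sum_insert, Finset.sum_insert (not_mem_wedges hm _), codS_mk, codS_mk] at h1
    · convert h1 using 2; ring
    · rw [Finset.mem_insert, not_or]
      refine ⟨fun h5 => ?_, not_mem_wedges hm _⟩
      rcases Sym2.eq_iff.mp h5 with h6 | h6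
      · exact hxy h6.1
      · exact hv'.1.ne h6.1

open Classical in
lemma walk_drift (hR : RateS) {G : SimpleGraph V} {D δ a : ℝ} {j : ℕ} {e : V × V}
    {π : List Bool} (h : StepHyp G D δ a j e π) {l : List (Bool × V)}
    (hl0 : l.map Prod.fst = π) :
    |(1 + 2 * a) ^ (π.length + 1) * ((FP.unif (triples V)).E fun T => ind (wedges e l) (lz G T)
        * (cod (lz G T) (node e l).1 (node e l).2 - D / (1 + 2 * a)))
      - ind (wedges e l) G * (cod G (node e l).1 (node e l).2 - D)
      + a / D * ∑ v, ind (insert s((node e l).1, v) (insert s((node e l).2, v) (wedges e l))) G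
        * ((cod G (node e l).1 v - D) + (cod G (node e l).2 v - D))|
      ≤ (2 * j * a * δ * (δ * D) + 216 * (a * j ^ 2)) * ind (wedges e l) G
        + 4 * j * a * (δ * D) * if hit (wv e) l then ind (wedges e l) G else 0 := by
  have hl1 : π.length = l.length := by rw [← hl0, List.length_map]
  have hl : l.length ≤ j := hl1 ▸ h.len
  rw [hl1]
  have hD : 0 < D := by linarith [h.D1]
  have ha := h.a_pos
  have hj : (1 : ℝ) ≤ j := by exact_mod_cast h.j1
  have hi : (l.length : ℝ) ≤ j := by exact_mod_cast hl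
  have hδ0 := h.δ0
  have hδ : δ ≤ 1 := by have := h.jδ; nlinarith
  rcases ind_cases (wedges e l) G with ⟨hI, hW⟩ | ⟨hI, -⟩
  swap
  · have h1 : ∀ T, ind (wedges e l) (lz G T) = 0 := fun T =>
      le_antisymm (hI ▸ ind_mono (lz_le G T) _) (ind_nonneg _ _)
    simp [hI, h1, ind_two]
  have hxy := node_adj h.adj hW
  obtain ⟨c, hc⟩ : ∃ c, c = (∑ w ∈ wedges e l, codS G w) * (a / D) := ⟨_, rfl⟩
  have haD : 0 ≤ a / D := by positivity
  have hcard : ((wedges e l).card : ℝ) ≤ 2 * l.length := by exact_mod_cast card_wedges e l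
  have hc1 : |c - (wedges e l).card * a| ≤ (wedges e l).card * a * δ := by
    have h1 : |∑ w ∈ wedges e l, (codS G w - D)| ≤ ∑ _w ∈ wedges e l, δ * D :=
      (Finset.abs_sum_le_sum_abs _ _).trans (Finset.sum_le_sum fun w hw => h.reg.absS (hW w hw))
    rw [Finset.sum_sub_distrib, Finset.sum_const, Finset.sum_const, nsmul_eq_mul, nsmul_eq_mul] at h1
    have h2 : c - (wedges e l).card * a
        = (∑ w ∈ wedges e l, codS G w - (wedges e l).card * D) * (a / D) := by
      rw [hc]; field_simp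
    rw [h2, abs_mul, abs_of_nonneg haD]
    refine (mul_le_mul_of_nonneg_right h1 haD).trans (le_of_eq ?_)
    field_simp
  have hca : ((wedges e l).card : ℝ) * a ≤ 2 * j * a :=
    mul_le_mul_of_nonneg_right (by linarith) ha.le
  have hca0 : 0 ≤ ((wedges e l).card : ℝ) * a := by positivity
  have hcδ : ((wedges e l).card : ℝ) * a * δ ≤ (wedges e l).card * a :=
    mul_le_of_le_one_right hca0 hδ
  have hc0 : 0 ≤ c := by linarith [(abs_le.mp hc1).1]
  have hc2 : c ≤ 4 * j * a := by linarith [(abs_le.mp hc1).2]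
  have hX := h.reg _ _ hxy
  have hX2 : cod G (node e l).1 (node e l).2 ≤ 2 * D := by have := h.reg.le hxy; nlinarith
  have hD' : D / (1 + 2 * a) * (1 + 2 * a) = D := div_mul_cancel₀ _ (by positivity)
  have hD'1 : D / (1 + 2 * a) ≤ D := div_le_self hD.le (by linarith)
  obtain ⟨m1, m2, m3, m4⟩ := pow_facts_drift ha.le hj hi h.aj h.D1
  have hv := fun v hv => vertex_drift hR h hl hW (v := v) hv
  have hw := rate_abs_drift hR h hW (k := 2 * j) (by linarith)
  rw [← hc] at hv hw
  have e1 : ((FP.unif (triples V)).E fun T => ind (wedges e l) (lz G T)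
        * (cod (lz G T) (node e l).1 (node e l).2 - D / (1 + 2 * a)))
      = (∑ v ∈ nb G (node e l).1 (node e l).2, (FP.unif (triples V)).E fun T =>
        ind (insert s((node e l).1, v) (insert s((node e l).2, v) (wedges e l))) (lz G T))
        - D / (1 + 2 * a) * (FP.unif (triples V)).E fun T => ind (wedges e l) (lz G T) := by
    rw [← FP.E_sum, ← FP.E_mul_left, ← FP.E_sub]
    congr 1; funext T
    rw [mul_sub, mul_comm (ind _ _), ← sum_ind_two, mul_comm (ind _ _)]
    congr 1
    refine (Finset.sum_subset (Finset.subset_univ _) fun v _ hv => ?_).symm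
    refine le_antisymm ((ind_mono (lz_le G T) _).trans ?_) (ind_nonneg _ _)
    rw [ind_two, if_neg hv]
  have e2 : ∑ v, ind (insert s((node e l).1, v) (insert s((node e l).2, v) (wedges e l))) G
        * ((cod G (node e l).1 v - D) + (cod G (node e l).2 v - D))
      = ∑ v ∈ nb G (node e l).1 (node e l).2,
        ((cod G (node e l).1 v - D) + (cod G (node e l).2 v - D)) := by
    simp only [ind_two, hI, ite_mul, one_mul, zero_mul]
    rw [← Finset.sum_filter, Finset.filter_mem_eq_inter, Finset.univ_inter]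
  have hwv : ((wv e l).card : ℝ) ≤ 3 * j := by
    have : ((wv e l).card : ℝ) ≤ l.length + 2 := by exact_mod_cast card_wv e l
    linarith
  rw [e1, e2, hI, one_mul, mul_one]
  generalize (node e l).1 = x at *
  generalize (node e l).2 = y at *
  have hs : |a / D * ∑ v ∈ nb G x y, ((cod G x v - D) + (cod G y v - D))| ≤ 4 * δ * a * D := by
    have h1 : |∑ v ∈ nb G x y, ((cod G x v - D) + (cod G y v - D))|
        ≤ ∑ _v ∈ nb G x y, 2 * (δ * D) :=
      (Finset.abs_sum_le_sum_abs _ _).trans (Finset.sum_le_sum fun v hv => by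
        linarith [abs_add_le (cod G x v - D) (cod G y v - D), h.reg _ _ (mem_nb.mp hv).1,
          h.reg _ _ (mem_nb.mp hv).2])
    rw [Finset.sum_const, nsmul_eq_mul] at h1
    have h2 : ((nb G x y).card : ℝ) * (2 * (δ * D)) ≤ 2 * D * (2 * (δ * D)) :=
      mul_le_mul_of_nonneg_right hX2 (by positivity)
    rw [abs_mul, abs_of_nonneg haD]
    refine (mul_le_mul_of_nonneg_left (h1.trans h2) haD).trans (le_of_eq ?_)
    field_simp; ring
  have hsum := (Finset.abs_sum_le_sum_abs _ _).trans (Finset.sum_le_sum hv)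
  have e3 : ∑ v ∈ nb G x y, (1 - c - (cod G x v + cod G y v) * (a / D))
      = cod G x y * (1 - c) - 2 * a * cod G x y
        - a / D * ∑ v ∈ nb G x y, ((cod G x v - D) + (cod G y v - D)) := by
    have : ∀ v, 1 - c - (cod G x v + cod G y v) * (a / D)
        = (1 - c - 2 * a) - a / D * ((cod G x v - D) + (cod G y v - D)) := fun v => by
      field_simp; ring
    simp only [this]
    rw [Finset.sum_sub_distrib, Finset.sum_const, nsmul_eq_mul, ← Finset.mul_sum, cod]; ring
  have e4 : ∑ v ∈ nb G x y, ((4 * j : ℝ) ^ 2 * (a / D) + if v ∈ wv e l then 4 * a else 0)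
      ≤ 44 * (a * j ^ 2) := by
    rw [Finset.sum_add_distrib, Finset.sum_const, nsmul_eq_mul, ← Finset.sum_filter,
      Finset.sum_const, nsmul_eq_mul]
    have h1 : (((nb G x y).filter fun v => v ∈ wv e l).card : ℝ) ≤ 3 * j := le_trans (by
      exact_mod_cast Finset.card_le_card fun v hv => (Finset.mem_filter.mp hv).2) hwv
    have h2 := mul_le_mul_of_nonneg_right h1 (show 0 ≤ 4 * a by positivity)
    have h3 : ((nb G x y).card : ℝ) * ((4 * j) ^ 2 * (a / D)) ≤ 2 * D * ((4 * j) ^ 2 * (a / D)) :=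
      mul_le_mul_of_nonneg_right hX2 (by positivity)
    have h4 : 2 * D * ((4 * j) ^ 2 * (a / D)) = 32 * (a * j ^ 2) := by field_simp; ring
    have h5 : a * j ≤ a * j ^ 2 := mul_le_mul_of_nonneg_left (by nlinarith) ha.le
    linarith
  rw [Finset.sum_sub_distrib, e3] at hsum
  have hw2 : |D / (1 + 2 * a) * (((FP.unif (triples V)).E fun T => ind (wedges e l) (lz G T))
      - (1 - c))| ≤ 4 * (a * j ^ 2) := by
    rw [abs_mul, abs_of_nonneg (by positivity)]
    refine (mul_le_mul hD'1 hw (abs_nonneg _) hD.le).trans (le_of_eq ?_)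
    field_simp; ring
  refine (real_drift (c := c) (D' := D / (1 + 2 * a)) (i := l.length) ?_ hX hs hD' (by positivity)
    hc0 hc2 m1 m2 m3 m4 hj ha.le h.aj hδ0 hδ hD.le).trans ?_
  · exact comb_drift (hsum.trans e4) hw2
  · have hδD : 0 ≤ δ * D := by positivity
    have hia : (l.length : ℝ) * a ≤ j * a := mul_le_mul_of_nonneg_right hi ha.le
    have hia0 : 0 ≤ (l.length : ℝ) * a := by positivity
    split_ifs with hh
    · have h1 : |2 * l.length * a - c| ≤ 4 * j * a := abs_le.mpr ⟨by linarith, by linarith⟩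
      have h2 := mul_le_mul_of_nonneg_right h1 hδD
      have h3 : 0 ≤ 2 * j * a * δ * (δ * D) := by positivity
      linarith
    · have h0 : ((wedges e l).card : ℝ) = 2 * l.length := by
        exact_mod_cast card_wedges_eq h.adj.ne hh
      have h1 : |2 * l.length * a - c| ≤ 2 * j * a * δ := by
        rw [abs_sub_comm, ← h0]
        exact hc1.trans (mul_le_mul_of_nonneg_right hca hδ0)
      have h2 := mul_le_mul_of_nonneg_right h1 hδD
      linarith

theorem drift_ok (hR : RateS) : ∃ C, 0 ≤ C ∧ DriftS C := by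
  classical
  refine ⟨436, by norm_num, fun V _ _ G D δ a j e π h => ?_⟩
  have hD : 0 < D := by linarith [h.D1]
  have ha := h.a_pos
  have hδ0 := h.δ0
  have hj : (1 : ℝ) ≤ j := by exact_mod_cast h.j1
  have hi : (π.length : ℝ) ≤ j := by exact_mod_cast h.len
  have h1 := abs_sumW_le π fun l (hl : l.map Prod.fst = π) => walk_drift hR h hl
  have h2 := (walk_count (fun a b hab => h.reg.le hab) h.adj π).trans
    (h.pow_le (h.len.trans (by omega)))
  have h3 := hit_count (fun a b hab => h.reg.le hab) h.adj (wv e) (z := j + 2) (by positivity) π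
    fun l hl => by
      have := (card_wv e l).trans (show l.length + 2 ≤ j + 2 by have := h.len; omega)
      exact_mod_cast this
  have h4 : (π.length : ℝ) * (j + 2) * (D * (1 + δ)) ^ (π.length - 1) * D
      ≤ j * (j + 2) * (2 * D ^ π.length) := by
    rcases hπ : π.length with _ | k
    · simp; positivity
    · rw [Nat.add_sub_cancel, pow_succ, mul_assoc, ← mul_assoc 2]
      rw [hπ] at hi
      refine mul_le_mul (mul_le_mul_of_nonneg_right hi (by positivity))
        (mul_le_mul_of_nonneg_right (h.pow_le (by have := h.len; omega)) hD.le) (by positivity)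
        (by positivity)
  rw [sumW_add, sumW_add, sumW_sub, sumW_mul_left, sumW_mul_left, sumW_mul_left, sumW_mul_left,
    ← E_sumW] at h1
  have hP : 0 < D ^ π.length := pow_pos hD _
  have key : (FP.unif (triples V)).E (dz G D a e π)
      + a * (zz G D e (false :: π) + zz G D e (true :: π))
      = ((1 + 2 * a) ^ (π.length + 1) * ((FP.unif (triples V)).E fun T => sumW π fun l =>
          ind (wedges e l) (lz G T) * (cod (lz G T) (node e l).1 (node e l).2 - D / (1 + 2 * a)))
        - (sumW π fun l => ind (wedges e l) G * (cod G (node e l).1 (node e l).2 - D))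
        + a / D * sumW π fun l => ∑ v,
          ind (insert s((node e l).1, v) (insert s((node e l).2, v) (wedges e l))) G
          * ((cod G (node e l).1 v - D) + (cod G (node e l).2 v - D))) / (D ^ π.length * D) := by
    unfold dz
    rw [FP.E_sub, FP.E_const]
    unfold zz
    rw [FP.E_div]
    simp only [mul_add, Finset.sum_add_distrib, sumW_add, sumW, wedges, node, sel, if_true,
      Bool.false_eq_true, if_false, List.length_cons, div_pow]
    exact alg_drift hD.ne' (by positivity) _ _ _ _ _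
  rw [key, abs_div, abs_of_pos (mul_pos hP hD), div_le_iff₀ (mul_pos hP hD)]
  refine h1.trans ?_
  have b1 := mul_le_mul_of_nonneg_left h2
    (show 0 ≤ 2 * j * a * δ * (δ * D) + 216 * (a * j ^ 2) by positivity)
  have b2 := mul_le_mul_of_nonneg_left h3 (show 0 ≤ 4 * j * a * (δ * D) by positivity)
  have b3 := mul_le_mul_of_nonneg_left h4 (show 0 ≤ 4 * j * a * δ by positivity)
  have b4 := mul_le_mul_of_nonneg_left h.jδ (show 0 ≤ 8 * a * j ^ 2 * D ^ π.length by positivity)
  have b5 : a * (436 * (j * δ ^ 2 + j ^ 3 / D)) * (D ^ π.length * D)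
      = 436 * (a * j * δ ^ 2 * D * D ^ π.length) + 436 * (a * j ^ 2 * D ^ π.length * j) := by
    field_simp
  have b6 : a * j ^ 2 * D ^ π.length ≤ a * j ^ 2 * D ^ π.length * j :=
    le_mul_of_one_le_right (by positivity) hj
  have b7 : 0 ≤ a * j * δ ^ 2 * D * D ^ π.length := by positivity
  rw [b5]
  linarith

end Vale.Agent.P046
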