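import Vale.Agent.P046.Walk

/-! # P046: the number of edges after the first phase -/

namespace Vale.Agent.P046

open Finset Vale.Agent.P015

lemma x_edge {n D x η : ℝ} (hx2 : x ^ 2 * ((n - 2) * (1 + 2 * D)) = 2 * D * n) (hx0 : 0 < x)
    (h0 : 0 < η) (h1 : η ≤ 1 / 10) (hn : 1 ≤ η * n) (hD : 1 ≤ η * D) :
    x ^ 2 * (1 + η) ^ 2 ≤ 1 + 7 * η ∧ 1 - 3 * η ≤ x * (1 - 1 / n) * (1 - η) := by
  have hn10 : 10 ≤ n := by nlinarith
  have hD10 : 10 ≤ D := by nlinarith
  have hn0 : 0 < n := by linarith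
  have hW : 0 < (n - 2) * (1 + 2 * D) := mul_pos (by linarith) (by linarith)
  have hup : x ^ 2 ≤ 1 + 3 * η := by
    refine le_of_mul_le_mul_right ?_ hW
    rw [hx2, ← mul_assoc]
    have a1 : n ≤ (1 + 3 * η) * (n - 2) := by linarith
    calc 2 * D * n ≤ (1 + 2 * D) * n := by gcongr; linarith
      _ ≤ (1 + 2 * D) * ((1 + 3 * η) * (n - 2)) := by gcongr
      _ = _ := by ring
  have hlo : 1 - η ≤ x := by
    have a1 : 1 - η ≤ x ^ 2 := by
      refine le_of_mul_le_mul_right ?_ hW
      rw [hx2]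
      have a2 : (1 - η) * (1 + 2 * D) ≤ 2 * D := by linarith
      calc (1 - η) * ((n - 2) * (1 + 2 * D)) = (1 - η) * (1 + 2 * D) * (n - 2) := by ring
        _ ≤ 2 * D * (n - 2) := by gcongr; linarith
        _ ≤ _ := by gcongr; linarith
    by_contra hc
    nlinarith
  constructor
  · have a1 : (1 + η) ^ 2 ≤ 1 + 3 * η := by nlinarith
    have : x ^ 2 * (1 + η) ^ 2 ≤ (1 + 3 * η) * (1 + 3 * η) := by gcongr
    nlinarith
  · have a1 : 1 / n ≤ η := by rw [div_le_iff₀ hn0]; exact hn
    have a2 : (1 - η) * (1 - η) * (1 - η) ≤ x * (1 - 1 / n) * (1 - η) := by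
      have : 0 ≤ 1 - η := by linarith
      gcongr
    linarith [mul_nonneg (sq_nonneg η) (show 0 ≤ 3 - η by linarith)]

lemma real_edge {n p D s t η : ℝ} (hs : s ^ 2 = 1 + 2 * D) (hs0 : 0 < s) (ht : t ^ 2 = n ^ 3 / 2)
    (ht0 : 0 < t) (hp : p ^ 2 * (n - 2) = D) (hp0 : 0 < p) (h0 : 0 < η) (h1 : η ≤ 1 / 10)
    (hn : 1 ≤ η * n) (hD : 1 ≤ η * D) :
    (n ^ 4 * (p * (1 + η)) ^ 2 + 2 * n ^ 2) / s ^ 2 - 2 * t * (n * (n - 1) * (p * (1 - η))) / s
      + t ^ 2 ≤ 9 * η * n ^ 3 := by
  have hn0 : 0 < n := (pos_iff_pos_of_mul_pos (lt_of_lt_of_le one_pos hn)).1 h0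
  have hD0 : 0 < D := (pos_iff_pos_of_mul_pos (lt_of_lt_of_le one_pos hD)).1 h0
  obtain ⟨x, hx⟩ : ∃ x, x = p * n ^ 2 / (t * s) := ⟨_, rfl⟩
  have hx0 : 0 < x := by rw [hx]; positivity
  have hx2 : x ^ 2 * ((n - 2) * (1 + 2 * D)) = 2 * D * n := by
    rw [← hs, hx, div_pow, mul_pow t s, ht, ← hp]
    field_simp
  obtain ⟨b1, b2⟩ := x_edge hx2 hx0 h0 h1 hn hD
  have e1 : n ^ 4 * (p * (1 + η)) ^ 2 / s ^ 2 = t ^ 2 * (x ^ 2 * (1 + η) ^ 2) := by
    rw [hx]; field_simp
  have e2 : 2 * t * (n * (n - 1) * (p * (1 - η))) / s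
      = t ^ 2 * (2 * (x * (1 - 1 / n) * (1 - η))) := by
    rw [hx]; field_simp
  have b3 : 2 * n ^ 2 / s ^ 2 ≤ 2 * η * n ^ 3 := by
    rw [hs, div_le_iff₀ (by linarith)]
    have a1 := mul_le_mul_of_nonneg_right hn (sq_nonneg n)
    have a2 : 0 ≤ η * n ^ 3 * D := by positivity
    linarith
  rw [add_div, e1, e2, ht]
  have hn3 : 0 < n ^ 3 := by positivity
  have b4 := mul_le_mul_of_nonneg_left b1 hn3.le
  have b5 := mul_le_mul_of_nonneg_left b2 hn3.le
  have : 0 < η * n ^ 3 := by positivity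
  linarith

variable {V : Type} [Fintype V] [DecidableEq V]

lemma elim_sum_edge {ι : Type} (S : Finset ι) (f : ι → SimpleGraph V → ℝ)
    (o : Option (SimpleGraph V)) :
    (o.elim 0 fun G => ∑ i ∈ S, f i G) = ∑ i ∈ S, o.elim 0 (f i) := by
  cases o <;> simp

lemma pair_edge {μ : FP (Option (SimpleGraph V))} {q hm : ℝ} (h : Dom μ q hm) (h2 : 2 ≤ hm)
    (e e' : Sym2 V) :
    (μ.E fun o => o.elim 0 (ind {e, e'})) ≤ q ^ 2 + if e' = e then 1 else 0 := by
  split_ifs with he
  · refine le_trans (μ.E_le_of_ae (c := 1) fun o _ => ?_) (by nlinarith [sq_nonneg q])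
    cases o
    · simp
    · exact ind_le_one _ _
  · have hc : ({e, e'} : Finset (Sym2 V)).card = 2 := card_pair (Ne.symm he)
    have := h {e, e'} (by rw [hc]; exact_mod_cast h2)
    rw [hc] at this
    linarith

lemma count_edge (a b : V) : ∑ c, ∑ d, (if s(c, d) = s(a, b) then (1 : ℝ) else 0) ≤ 2 := by
  calc ∑ c, ∑ d, (if s(c, d) = s(a, b) then (1 : ℝ) else 0)
      ≤ ∑ c, ∑ d, ((if d = b then if c = a then (1 : ℝ) else 0 else 0) +
        if d = a then if c = b then (1 : ℝ) else 0 else 0) := by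
        refine sum_le_sum fun c _ => sum_le_sum fun d _ => ?_
        by_cases h : s(c, d) = s(a, b)
        · rw [if_pos h]
          rcases Sym2.eq_iff.1 h with ⟨rfl, rfl⟩ | ⟨rfl, rfl⟩
          · simp only [if_true]
            split_ifs <;> norm_num
          · simp only [if_true]
            split_ifs <;> norm_num
        · rw [if_neg h]
          split_ifs <;> norm_num
    _ = 2 := by
        simp only [sum_add_distrib, sum_ite_eq', mem_univ, if_true]
        norm_num

lemma count4_edge : ∑ a : V, ∑ b : V, ∑ c, ∑ d, (if s(c, d) = s(a, b) then (1 : ℝ) else 0)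
    ≤ 2 * (Fintype.card V : ℝ) ^ 2 := by
  refine (sum_le_sum fun a _ => sum_le_sum fun b _ => count_edge a b).trans (le_of_eq ?_)
  simp only [sum_const, card_univ, nsmul_eq_mul]
  ring

open Classical in
lemma dis_edge : ∑ a : V, ∑ b : V, ∑ c : V, ∑ d : V, (if Dis a b c d then (0 : ℝ) else 1)
    ≤ 4 * (Fintype.card V : ℝ) ^ 3 := by
  calc ∑ a : V, ∑ b : V, ∑ c : V, ∑ d : V, (if Dis a b c d then (0 : ℝ) else 1)
      ≤ ∑ a : V, ∑ b : V, ∑ c : V, ∑ d : V, ((if c = a then (1 : ℝ) else 0) +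
        (if d = a then (1 : ℝ) else 0) + (if c = b then (1 : ℝ) else 0) +
        (if d = b then (1 : ℝ) else 0)) := by
        refine sum_le_sum fun a _ => sum_le_sum fun b _ => sum_le_sum fun c _ =>
          sum_le_sum fun d _ => ?_
        unfold Dis
        split_ifs <;> first | (exfalso; simp_all [eq_comm]; done) | norm_num
    _ = _ := by
        simp only [sum_add_distrib, sum_ite_eq', mem_univ, if_true, sum_const, card_univ,
          nsmul_eq_mul, ← mul_sum]
        ring

theorem edge_ok : EdgeS := by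
  classical
  refine ⟨10, fun V _ _ ν hν hn D p μ h => ?_⟩
  set n : ℝ := (Fintype.card V : ℝ) with hnd
  have hν1 : (1 : ℝ) ≤ ν := by linarith
  have hν0 : (0 : ℝ) < ν := by linarith
  have hpw : ∀ {i j : ℕ}, i ≤ j → ν ^ i ≤ ν ^ j := fun hij => pow_le_pow_right₀ hν1 hij
  have h10 : ∀ {i : ℕ}, 1 ≤ i → 10 ≤ ν ^ i := fun hi => by
    have := hpw hi
    rw [pow_one] at this
    linarith
  set η := 1 / ν ^ 44 with hη
  have hη0 : 0 < η := by positivity
  have hη1 : η ≤ 1 / 10 := one_div_le_one_div_of_le (by norm_num) (h10 (by norm_num))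
  have hηn : 1 ≤ η * n := by
    rw [hη, ← hn, one_div, ← div_eq_inv_mul, one_le_div (by positivity)]
    exact hpw (by norm_num)
  have hηD : 1 ≤ η * D := by
    rw [hη, one_div, ← div_eq_inv_mul, one_le_div (by positivity)]
    exact (hpw (by norm_num)).trans h.lo
  have hn10 : 10 ≤ n := hn ▸ h10 (by norm_num)
  have hD0 : 0 ≤ D := le_trans (by positivity) h.lo
  have hpair := pair_edge h.dom (by linarith [h10 (i := 13) (by norm_num)])
  set q := p * (1 + η) with hq
  constructor
  · set s := Real.sqrt (1 + 2 * D) with hs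
    set t := n ^ ((3 : ℝ) / 2) / Real.sqrt 2 with ht
    have hs0 : 0 < s := Real.sqrt_pos.2 (by linarith)
    have hs2 : s ^ 2 = 1 + 2 * D := Real.sq_sqrt (by linarith)
    have ht0 : 0 < t := by positivity
    have ht2 : t ^ 2 = n ^ 3 / 2 := by
      rw [ht, div_pow, Real.sq_sqrt (by norm_num), ← Real.rpow_natCast,
        ← Real.rpow_mul (by linarith)]
      norm_num
    have m2 : (μ.E fun o => o.elim 0 fun G => mE G ^ 2) ≤ n ^ 4 * q ^ 2 + 2 * n ^ 2 := by
      have e : ∀ G : SimpleGraph V, mE G ^ 2 = ∑ a, ∑ b, ∑ c, ∑ d, ind {s(a, b), s(c, d)} G := by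
        intro G
        rw [sq, mE, sum_mul]
        refine sum_congr rfl fun a _ => ?_
        rw [sum_mul]
        refine sum_congr rfl fun b _ => ?_
        simp only [mul_sum, ind_insert s(a, b)]
      simp only [e, elim_sum_edge, FP.E_sum]
      refine (sum_le_sum fun a _ => sum_le_sum fun b _ => sum_le_sum fun c _ =>
        sum_le_sum fun d _ => hpair s(a, b) s(c, d)).trans ?_
      have := count4_edge (V := V)
      simp only [sum_add_distrib, sum_const, card_univ, nsmul_eq_mul]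
      linarith
    have m1 : n * (n - 1) * (p * (1 - η)) ≤ μ.E fun o => o.elim 0 mE := by
      have e : (mE : SimpleGraph V → ℝ) = fun G => ∑ a, ∑ b, ind {s(a, b)} G := rfl
      simp only [e, elim_sum_edge, FP.E_sum]
      have b : ∀ a b : V, p * (1 - η) - (if b = a then p * (1 - η) else 0)
          ≤ μ.E fun o => o.elim 0 (ind {s(a, b)}) := by
        intro a b
        split_ifs with hab
        · rw [sub_self]
          refine μ.E_nonneg fun o => ?_
          cases o
          · simp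
          · exact ind_nonneg _ _
        · rw [sub_zero]
          exact h.low a b (Ne.symm hab)
      refine le_trans (le_of_eq ?_) (sum_le_sum fun a _ => sum_le_sum fun c _ => b a c)
      simp only [sum_sub_distrib, sum_ite_eq', mem_univ, if_true, sum_const, card_univ,
        nsmul_eq_mul]
      ring
    have key := real_edge hs2 hs0 ht2 ht0 h.pD h.p0 hη0 hη1 hηn hηD
    calc (μ.E fun o => o.elim 0 fun G => (mE G / s - t) ^ 2)
        ≤ μ.E fun o => (o.elim 0 fun G => mE G ^ 2) / s ^ 2 - 2 * t * o.elim 0 mE / s + t ^ 2 := by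
          refine μ.E_mono fun o => ?_
          cases o
          · simp only [Option.elim_none, zero_div, mul_zero]
            positivity
          · simp only [Option.elim_some]
            refine le_of_eq ?_
            ring
      _ ≤ (n ^ 4 * q ^ 2 + 2 * n ^ 2) / s ^ 2 - 2 * t * (n * (n - 1) * (p * (1 - η))) / s
          + t ^ 2 := by
          rw [FP.E_add, FP.E_sub, FP.E_div, FP.E_div, FP.E_mul_left, FP.E_const]
          gcongr
      _ ≤ 9 * η * n ^ 3 := key
      _ ≤ _ := by
          rw [div_eq_inv_mul]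
          gcongr
          rw [hη, mul_one_div, div_le_iff₀ (by positivity), ← div_eq_inv_mul,
            le_div_iff₀ (by positivity)]
          have e : ν ^ 44 = ν ^ 42 * ν ^ 2 := by ring
          have := h10 (i := 42) (by norm_num)
          rw [e]
          gcongr
          linarith
  · have hq2 : q ^ 2 * n ≤ 16 * ν ^ 100 := by
      have a1 : q ^ 2 ≤ (p * 2) ^ 2 := by
        have := h.p0
        rw [hq]
        gcongr
        linarith
      have a2 : p ^ 2 * n ≤ 2 * D := by
        rw [← h.pD]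
        nlinarith [sq_nonneg p]
      have a3 : q ^ 2 * n ≤ (p * 2) ^ 2 * n := by gcongr
      nlinarith [h.hi]
    simp only [elim_sum_edge, FP.E_sum]
    have b : ∀ a b c d : V, (μ.E fun o => o.elim 0 fun G =>
        if Dis a b c d then 0 else ind {s(a, b), s(c, d)} G)
        ≤ q ^ 2 * (if Dis a b c d then (0 : ℝ) else 1) + if s(c, d) = s(a, b) then 1 else 0 := by
      intro a b c d
      by_cases hd : Dis a b c d
      · simp only [if_pos hd]
        refine μ.E_le_of_ae fun o _ => ?_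
        cases o <;> simp only [Option.elim_none, Option.elim_some] <;> split_ifs <;> norm_num
      · simp only [if_neg hd, mul_one]
        exact hpair _ _
    refine (sum_le_sum fun a _ => sum_le_sum fun c _ => sum_le_sum fun d _ =>
      sum_le_sum fun e _ => b a c d e).trans ?_
    have c1 := count4_edge (V := V)
    have c2 := mul_le_mul_of_nonneg_left (dis_edge (V := V)) (sq_nonneg q)
    simp only [sum_add_distrib, ← mul_sum]
    refine (add_le_add c2 c1).trans ?_
    rw [le_div_iff₀ (by positivity)]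
    have d1 : 66 * ν ^ 102 ≤ n := by
      have e : ν ^ 104 = ν ^ 2 * ν ^ 102 := by ring
      have a1 : 66 ≤ ν ^ 2 := by nlinarith
      have a2 : 66 * ν ^ 102 ≤ ν ^ 2 * ν ^ 102 := by gcongr
      rw [← e] at a2
      exact a2.trans (hn ▸ hpw (by norm_num))
    have d2 : 1 ≤ ν ^ 100 := one_le_pow₀ hν1
    have e : ν ^ 102 = ν ^ 100 * ν ^ 2 := by ring
    rw [e] at d1
    generalize ν ^ 100 = y at *
    have hw : 0 < ν ^ 2 := by positivity
    generalize ν ^ 2 = w at *
    rw [← hnd]
    have d3 : q ^ 2 * (4 * n ^ 3) + 2 * n ^ 2 ≤ 66 * y * n ^ 2 := by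
      have := mul_le_mul_of_nonneg_right hq2 (sq_nonneg n)
      have := mul_le_mul_of_nonneg_right d2 (sq_nonneg n)
      nlinarith
    calc (q ^ 2 * (4 * n ^ 3) + 2 * n ^ 2) * w ≤ 66 * y * n ^ 2 * w := by gcongr
      _ = 66 * (y * w) * n ^ 2 := by ring
      _ ≤ n * n ^ 2 := by gcongr
      _ = n ^ 3 := by ring

end Vale.Agent.P046
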