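import Vale.Agent.P046.Walk

/-! # P046: from the second moment bound to the limit theorems -/

namespace Vale.Agent.P046

open Finset Filter Topology

lemma expFinal_mono {n : ℕ} {f g : SimpleGraph (Fin n) → ℝ} (h : ∀ G, f G ≤ g G) :
    expFinal n f ≤ expFinal n g :=
  Finset.sum_le_sum fun G _ => mul_le_mul_of_nonneg_left (h G) ENNReal.toReal_nonneg

lemma expFinal_lin {n : ℕ} (f : SimpleGraph (Fin n) → ℝ) (a b : ℝ) :
    (expFinal n fun G => a * f G + b) = a * expFinal n f + b := by
  classical
  have h1 : ∑ G : SimpleGraph (Fin n), (final n G).toReal = 1 := by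
    rw [← ENNReal.toReal_sum fun G _ => PMF.apply_ne_top _ G, ← tsum_fintype (L := .unconditional _),
      PMF.tsum_coe]
    rfl
  have h2 : ∀ G, (final n G).toReal * (a * f G + b)
      = a * ((final n G).toReal * f G) + b * (final n G).toReal := fun G => by ring
  simp only [expFinal, h2, Finset.sum_add_distrib, ← Finset.mul_sum]
  rw [show (∑ G : SimpleGraph (Fin n), (final n G).toReal) = 1 from by convert h1, mul_one]

lemma l2_final (hP : ProcS) (hM : MainS) : Tendsto
    (fun n => expFinal n fun G => (normEdges G - 1 / (2 * Real.sqrt 2)) ^ 2) atTop (𝓝 0) := by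
  obtain ⟨C, hM⟩ := hM
  have ht : Tendsto (fun n : ℕ => (n : ℝ) ^ ((1 : ℝ) / 4000)) atTop atTop :=
    (tendsto_rpow_atTop (by norm_num)).comp tendsto_natCast_atTop_atTop
  refine tendsto_of_tendsto_of_tendsto_of_le_of_le' tendsto_const_nhds
    (tendsto_inv_atTop_zero.comp ht) (Eventually.of_forall fun n => ?_) ?_
  · have := expFinal_mono (n := n) (f := fun _ => 0 * 0 + 0)
      (g := fun G => (normEdges G - 1 / (2 * Real.sqrt 2)) ^ 2) fun G => by
        simpa using sq_nonneg _
    rw [expFinal_lin (fun _ => 0)] at this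
    simpa using this
  · filter_upwards [ht.eventually_ge_atTop C, eventually_gt_atTop 0] with n h1 h2
    have hn : (0 : ℝ) < n := by exact_mod_cast h2
    obtain ⟨h, hh, he⟩ := (hP n).1 dev
    have h3 := hM (Fin n) _ h1 (by
      rw [← Real.rpow_natCast, ← Real.rpow_mul hn.le, Fintype.card_fin]; norm_num) h hh
    rw [he, Fintype.card_fin] at h3
    have h4 : ((n : ℝ) ^ ((3 : ℝ) / 2)) ^ 2 = (n : ℝ) ^ 3 := by
      rw [← Real.rpow_natCast, ← Real.rpow_mul hn.le]; norm_num
    have h5 : (0 : ℝ) < (n : ℝ) ^ ((3 : ℝ) / 2) := by positivity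
    have h6 : (fun G : SimpleGraph (Fin n) => (normEdges G - 1 / (2 * Real.sqrt 2)) ^ 2)
        = fun G => 1 / (n : ℝ) ^ 3 * dev G + 0 := by
      funext G
      rw [dev, normEdges, Fintype.card_fin, ← h4]
      field_simp
      ring
    rw [h6, expFinal_lin, add_zero, Function.comp, one_div_mul_eq_div,
      div_le_iff₀ (by positivity), mul_comm, ← div_eq_mul_inv]
    exact h3

lemma mean_final (hP : ProcS) (hM : MainS) :
    Tendsto (fun n => expFinal n normEdges) atTop (𝓝 (1 / (2 * Real.sqrt 2))) := by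
  have h := l2_final hP hM
  generalize 1 / (2 * Real.sqrt 2) = c at *
  rw [Metric.tendsto_nhds] at h ⊢
  intro ε hε
  filter_upwards [h (ε ^ 2) (by positivity)] with n hn
  rw [Real.dist_eq, sub_zero] at hn
  have h0 := (abs_lt.mp hn).2
  have h1 := expFinal_mono (n := n) (f := fun G => 2 * ε * normEdges G + -(2 * ε * c))
    (g := fun G => 1 * (normEdges G - c) ^ 2 + ε ^ 2) fun G => by
      nlinarith [sq_nonneg (normEdges G - c - ε)]
  have h2 := expFinal_mono (n := n) (f := fun G => -(2 * ε) * normEdges G + 2 * ε * c)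
    (g := fun G => 1 * (normEdges G - c) ^ 2 + ε ^ 2) fun G => by
      nlinarith [sq_nonneg (normEdges G - c + ε)]
  rw [expFinal_lin, expFinal_lin fun G => (normEdges G - c) ^ 2] at h1 h2
  rw [Real.dist_eq, abs_lt]
  constructor <;> nlinarith

lemma prob_final (hP : ProcS) (hM : MainS) (ε : ℝ) (hε : 0 < ε) :
    Tendsto (fun n => (final n).toOuterMeasure {G | ε ≤ |normEdges G - 1 / (2 * Real.sqrt 2)|})
      atTop (𝓝 0) := by
  classical
  have h := (l2_final hP hM).const_mul (1 / ε ^ 2)
  generalize 1 / (2 * Real.sqrt 2) = c at *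
  have h1 := ENNReal.tendsto_ofReal h
  rw [mul_zero, ENNReal.ofReal_zero] at h1
  refine tendsto_of_tendsto_of_tendsto_of_le_of_le tendsto_const_nhds h1 (fun n => bot_le)
    fun n => ?_
  beta_reduce
  rw [PMF.toOuterMeasure_apply, tsum_fintype, expFinal, Finset.mul_sum,
    ENNReal.ofReal_sum_of_nonneg fun G _ => by positivity]
  refine Finset.sum_le_sum fun G _ => ?_
  by_cases hG : ε ≤ |normEdges G - c|
  · rw [Set.indicator_of_mem (by exact hG), ← ENNReal.ofReal_toReal (PMF.apply_ne_top _ G)]
    refine ENNReal.ofReal_le_ofReal ?_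
    rw [ENNReal.ofReal_toReal (PMF.apply_ne_top _ G), one_div_mul_eq_div,
      le_div_iff₀ (by positivity)]
    refine mul_le_mul_of_nonneg_left ?_ ENNReal.toReal_nonneg
    rw [← sq_abs (normEdges G - c)]
    exact pow_le_pow_left₀ hε.le hG 2
  · rw [Set.indicator_of_notMem (by exact hG)]
    exact bot_le

end Vale.Agent.P046
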