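import Vale.Agent.P046.Walk

/-! # P046: spectral gap of the link walks -/

set_option linter.unusedSectionVars false

namespace Vale.Agent.P046

open Finset

variable {V : Type} [Fintype V] [DecidableEq V]

/-- the walk operator in the link of `u`. -/
noncomputable def opGap (G : SimpleGraph V) (u : V) (f : V → ℝ) : V → ℝ :=
  fun v => (∑ x ∈ nb G u v, f x) / cod G u v

/-- the weighted scalar product on the star of `u`. -/
noncomputable def bilGap (G : SimpleGraph V) (u : V) (f g : V → ℝ) : ℝ :=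
  ∑ x ∈ nb G u u, cod G u x * f x * g x

variable {G : SimpleGraph V} {u : V}

lemma mem_star_gap {x : V} : x ∈ nb G u u ↔ G.Adj u x := by simp

lemma cod_mul_op_gap (f : V → ℝ) (x : V) : cod G u x * opGap G u f x = ∑ v ∈ nb G u x, f v := by
  unfold opGap
  by_cases h : cod G u x = 0
  · have : nb G u x = ∅ := by
      rw [← card_eq_zero]
      exact Nat.cast_eq_zero.1 h
    simp [h, this]
  · field_simp

lemma bil_op_gap (f g : V → ℝ) : bilGap G u (opGap G u f) g = bilGap G u f (opGap G u g) := by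
  unfold bilGap
  have e : ∀ x, cod G u x * f x * opGap G u g x = ∑ v ∈ nb G u x, f x * g v := fun x => by
    rw [mul_right_comm, cod_mul_op_gap, sum_mul]
    exact sum_congr rfl fun _ _ => mul_comm _ _
  simp only [cod_mul_op_gap, e, sum_mul]
  refine sum_comm' fun x v => ?_
  simp only [mem_nb, and_self]
  exact ⟨fun h => ⟨⟨h.1, h.2.2.symm⟩, h.2.1⟩, fun h => ⟨h.1.1, h.2, h.1.2.symm⟩⟩

lemma bil_iter_gap (k : ℕ) : ∀ f g : V → ℝ,
    bilGap G u ((opGap G u)^[k] f) g = bilGap G u f ((opGap G u)^[k] g) := by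
  induction k with
  | zero => intro f g; rfl
  | succ k ih =>
    intro f g
    rw [Function.iterate_succ_apply', bil_op_gap, ih, Function.iterate_succ_apply]

lemma bil_half_gap (k : ℕ) (g : V → ℝ) :
    bilGap G u ((opGap G u)^[k] g) ((opGap G u)^[k] g) = bilGap G u ((opGap G u)^[2 * k] g) g := by
  rw [← bil_iter_gap, ← Function.iterate_add_apply, two_mul]

lemma descend_gap {t : ℝ} (ht : 0 < t) (k : ℕ) (g : V → ℝ)
    (h : bilGap G u ((opGap G u)^[2 * k] g) ((opGap G u)^[2 * k] g) ≤ t ^ 2 * bilGap G u g g) :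
    bilGap G u ((opGap G u)^[k] g) ((opGap G u)^[k] g) ≤ t * bilGap G u g g := by
  rw [bil_half_gap]
  generalize (opGap G u)^[2 * k] g = a at h
  have h2 : 2 * t * bilGap G u a g ≤ bilGap G u a a + t ^ 2 * bilGap G u g g := by
    unfold bilGap
    rw [mul_sum, mul_sum, ← sum_add_distrib]
    refine sum_le_sum fun x _ => ?_
    nlinarith [mul_nonneg (cod_nonneg G u x) (sq_nonneg (a x - t * g x))]
  refine le_of_mul_le_mul_left ?_ ht
  nlinarith

/-- the transition kernel. -/
noncomputable def kerGap (G : SimpleGraph V) (u : V) (k : ℕ) (x y : V) : ℝ :=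
  (opGap G u)^[k] (fun v => if v = y then 1 else 0) x

lemma ker_succ_gap (k : ℕ) (x y : V) :
    kerGap G u (k + 1) x y = (∑ v ∈ nb G u x, kerGap G u k v y) / cod G u x := by
  unfold kerGap
  rw [Function.iterate_succ_apply']
  rfl

lemma iter_eq_gap (f : V → ℝ) (k : ℕ) : ∀ x ∈ nb G u u,
    (opGap G u)^[k] f x = ∑ y ∈ nb G u u, kerGap G u k x y * f y := by
  induction k with
  | zero =>
    intro x hx
    simp [kerGap, mem_star_gap.1 hx]
  | succ k ih =>
    intro x _
    rw [Function.iterate_succ_apply', opGap,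
      sum_congr rfl fun v hv => ih v (mem_star_gap.2 (mem_nb.1 hv).1), sum_comm, sum_div]
    refine sum_congr rfl fun y _ => ?_
    rw [ker_succ_gap, ← sum_mul]
    ring

lemma ker_symm_gap (k : ℕ) {x y : V} (hx : x ∈ nb G u u) (hy : y ∈ nb G u u) :
    cod G u x * kerGap G u k x y = cod G u y * kerGap G u k y x := by
  have h := bil_iter_gap (G := G) (u := u) k (fun v => if v = y then 1 else 0)
    fun v => if v = x then 1 else 0
  unfold bilGap at h
  simp only [mul_ite, mul_one, mul_zero, ite_mul, zero_mul, sum_ite_eq', hx, hy, if_true] at h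
  exact h

lemma ker_nonneg_gap (k : ℕ) : ∀ x y : V, 0 ≤ kerGap G u k x y := by
  induction k with
  | zero =>
    intro x y
    simp only [kerGap, Function.iterate_zero, id]
    split_ifs <;> norm_num
  | succ k ih =>
    intro x y
    rw [ker_succ_gap]
    exact div_nonneg (sum_nonneg fun v _ => ih v y) (cod_nonneg _ _ _)

lemma iter_const_gap (hc : ∀ x, G.Adj u x → 0 < cod G u x) (k : ℕ) : ∀ x ∈ nb G u u,
    (opGap G u)^[k] (fun _ => 1) x = 1 := by
  induction k with
  | zero => intro x _; rfl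
  | succ k ih =>
    intro x hx
    rw [Function.iterate_succ_apply', opGap,
      sum_congr rfl fun v hv => ih v (mem_star_gap.2 (mem_nb.1 hv).1), sum_const, nsmul_eq_mul,
      mul_one]
    exact div_self (hc x (mem_star_gap.1 hx)).ne'

lemma ker_le_link_gap {d : ℝ} (hd : 0 < d) (hc : ∀ x, G.Adj u x → d ≤ cod G u x) (k : ℕ) (y : V) :
    ∀ x, G.Adj u x → kerGap G u k x y ≤ linkW G u k x y / d ^ k := by
  induction k with
  | zero =>
    intro x _
    simp [kerGap, linkW]
  | succ k ih =>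
    intro x hx
    rw [ker_succ_gap, linkW, pow_succ, ← div_div, sum_div _ _ (d ^ k)]
    exact (div_le_div_of_nonneg_left (sum_nonneg fun v _ => ker_nonneg_gap k v y) hd
      (hc x hx)).trans (div_le_div_of_nonneg_right
        (sum_le_sum fun v hv => ih v (mem_nb.1 hv).1) hd.le)

lemma ker_le_inv_gap {d : ℝ} (hd : 0 < d) (hc : ∀ x, G.Adj u x → d ≤ cod G u x) (k : ℕ) (y : V) :
    ∀ x, G.Adj u x → kerGap G u (k + 1) x y ≤ 1 / d := by
  induction k with
  | zero =>
    intro x hx
    rw [ker_succ_gap]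
    refine div_le_div₀ zero_le_one ?_ hd (hc x hx)
    simp only [kerGap, Function.iterate_zero, id, sum_ite_eq']
    split_ifs <;> norm_num
  | succ k ih =>
    intro x hx
    rw [ker_succ_gap, div_le_iff₀ (hd.trans_le (hc x hx))]
    refine (sum_le_sum fun v hv => ih v (mem_nb.1 hv).1).trans_eq ?_
    rw [sum_const, nsmul_eq_mul, mul_comm]
    rfl

lemma schur_gap {X : Finset V} (K : V → V → ℝ) (g b : V → ℝ)
    (hs : ∀ x ∈ X, ∀ y ∈ X, K x y = K y x) (hb : ∀ x ∈ X, ∑ y ∈ X, |K x y| ≤ b x) :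
    ∑ x ∈ X, ∑ y ∈ X, K x y * g x * g y ≤ ∑ x ∈ X, b x * g x ^ 2 := by
  have h1 : ∑ x ∈ X, ∑ y ∈ X, K x y * g x * g y
      ≤ ∑ x ∈ X, ∑ y ∈ X, (|K x y| * g x ^ 2 / 2 + |K x y| * g y ^ 2 / 2) := by
    refine sum_le_sum fun x _ => sum_le_sum fun y _ => ?_
    rcases abs_cases (K x y) with h | h
    · rw [h.1]
      nlinarith [mul_nonneg h.2 (sq_nonneg (g x - g y))]
    · rw [h.1]
      nlinarith [mul_nonneg (neg_nonneg.2 h.2.le) (sq_nonneg (g x + g y))]
  have h2 : ∑ x ∈ X, ∑ y ∈ X, |K x y| * g y ^ 2 / 2 = ∑ x ∈ X, ∑ y ∈ X, |K x y| * g x ^ 2 / 2 := by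
    rw [sum_comm]
    exact sum_congr rfl fun x hx => sum_congr rfl fun y hy => by rw [hs x hx y hy]
  simp only [sum_add_distrib] at h1
  rw [h2, ← sum_add_distrib] at h1
  refine h1.trans (sum_le_sum fun x hx => ?_)
  rw [← sum_div, add_halves, ← sum_mul]
  exact mul_le_mul_of_nonneg_right (hb x hx) (sq_nonneg _)

lemma row_gap {D δ Δ w : ℝ} (hR : Reg G D δ) (h0 : 0 ≤ δ) (h1 : δ < 1) (hD : 0 < D)
    (hM : Mix G Δ w) (hw : 0 ≤ w) {x : V} (hx : x ∈ nb G u u) :
    ∑ y ∈ nb G u u, |kerGap G u 128 x y - cod G u y / ∑ v ∈ nb G u u, cod G u v|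
      ≤ 2 * (1 / (D * (1 - δ)) + max 0 (Δ * w / (D * (1 - δ)) ^ 128 - (1 - δ) / (1 + δ))) := by
  have hd : 0 < D * (1 - δ) := mul_pos hD (sub_pos.2 h1)
  have hc : ∀ x, G.Adj u x → D * (1 - δ) ≤ cod G u x := fun x hx => hR.ge hx
  have hn : (0 : ℝ) < (nb G u u).card := by exact_mod_cast card_pos.2 ⟨x, hx⟩
  have hnΔ : ((nb G u u).card : ℝ) ≤ Δ := hM.1 u
  have hZ : 0 < ∑ v ∈ nb G u u, cod G u v :=
    sum_pos (fun v hv => hd.trans_le (hc v (mem_star_gap.1 hv))) ⟨x, hx⟩
  have hZ' : ∑ v ∈ nb G u u, cod G u v ≤ (nb G u u).card * (D * (1 + δ)) := by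
    rw [← nsmul_eq_mul]
    exact sum_le_card_nsmul _ _ _ fun v hv => hR.le (mem_star_gap.1 hv)
  have hrow : ∑ y ∈ nb G u u, kerGap G u 128 x y = 1 := by
    have := iter_eq_gap (G := G) (u := u) (fun _ => 1) 128 x hx
    rw [iter_const_gap (fun x hx => hd.trans_le (hc x hx)) 128 x hx] at this
    simpa using this.symm
  have hinv := ker_le_inv_gap hd hc 127 x x (mem_star_gap.1 hx)
  have hlink := fun y => ker_le_link_gap hd hc 128 y x (mem_star_gap.1 hx)
  have hW : 0 < (D * (1 - δ)) ^ 128 := pow_pos hd _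
  generalize (D * (1 - δ)) ^ 128 = W at hlink hW
  generalize hm : max 0 (Δ * w / W - (1 - δ) / (1 + δ)) = m
  have hm0 : 0 ≤ m := hm ▸ le_max_left _ _
  have hm1 : Δ * w / W - (1 - δ) / (1 + δ) ≤ m := hm ▸ le_max_right _ _
  generalize hZe : ∑ v ∈ nb G u u, cod G u v = Z at hZ hZ'
  generalize hne : ((nb G u u).card : ℝ) = n at hn hnΔ hZ'
  have key : ∀ y ∈ nb G u u, |kerGap G u 128 x y - cod G u y / Z|
      ≤ 2 * (m / n + if y = x then 1 / (D * (1 - δ)) else 0)
        - (kerGap G u 128 x y - cod G u y / Z) := by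
    intro y hy
    have hb0 : 0 ≤ m / n + if y = x then 1 / (D * (1 - δ)) else 0 := by
      refine add_nonneg (div_nonneg hm0 hn.le) ?_
      split_ifs
      · exact (one_div_pos.2 hd).le
      · exact le_rfl
    have hb1 : kerGap G u 128 x y - cod G u y / Z
        ≤ m / n + if y = x then 1 / (D * (1 - δ)) else 0 := by
      split_ifs with h
      · have a1 : 0 ≤ cod G u y / Z := div_nonneg (cod_nonneg _ _ _) hZ.le
        have a2 : 0 ≤ m / n := div_nonneg hm0 hn.le
        rw [h] at a1 ⊢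
        linarith
      · have a1 : kerGap G u 128 x y ≤ w / W := (hlink y).trans (div_le_div_of_nonneg_right
          (hM.2 u x y (Ne.symm h) (mem_star_gap.1 hx) (mem_star_gap.1 hy)) hW.le)
        have a2 : w / W * n ≤ Δ * w / W := by
          rw [mul_div_assoc, mul_comm Δ]
          exact mul_le_mul_of_nonneg_left hnΔ (div_nonneg hw hW.le)
        have a3 : (1 - δ) / (1 + δ) ≤ cod G u y / Z * n := by
          rw [div_mul_eq_mul_div, div_le_div_iff₀ (by linarith) hZ]
          have b1 := mul_le_mul_of_nonneg_left hZ' (sub_pos.2 h1).le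
          have b2 := mul_le_mul_of_nonneg_right (hc y (mem_star_gap.1 hy))
            (mul_nonneg hn.le (show 0 ≤ 1 + δ by linarith))
          nlinarith
        rw [add_zero, le_div_iff₀ hn]
        have a4 := mul_le_mul_of_nonneg_right a1 hn.le
        nlinarith
    rcases abs_cases (kerGap G u 128 x y - cod G u y / Z) with h | h <;> linarith [h.1, h.2]
  refine (sum_le_sum key).trans_eq ?_
  rw [sum_sub_distrib, sum_sub_distrib, hrow, ← sum_div, hZe, div_self hZ.ne', ← mul_sum,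
    sum_add_distrib, sum_ite_eq', if_pos hx, sum_const, nsmul_eq_mul, hne]
  field_simp
  ring

lemma top_gap {β : ℝ} (g : V → ℝ) (hg : ∑ x ∈ nb G u u, cod G u x * g x = 0)
    (hβ : ∀ x ∈ nb G u u,
      ∑ y ∈ nb G u u, |kerGap G u 128 x y - cod G u y / ∑ v ∈ nb G u u, cod G u v| ≤ β) :
    bilGap G u ((opGap G u)^[128] g) g ≤ β * bilGap G u g g := by
  generalize ∑ v ∈ nb G u u, cod G u v = Z at hβ
  have h := schur_gap (X := nb G u u)
    (fun x y => cod G u x * (kerGap G u 128 x y - cod G u y / Z)) g (fun x => cod G u x * β)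
    (fun x hx y hy => by
      rw [mul_sub, mul_sub, ker_symm_gap 128 hx hy]
      ring)
    (fun x hx => by
      simp only [abs_mul, abs_of_nonneg (cod_nonneg G u x), ← mul_sum]
      exact mul_le_mul_of_nonneg_left (hβ x hx) (cod_nonneg G u x))
  unfold bilGap
  rw [mul_sum]
  refine le_trans (le_of_eq (sum_congr rfl fun x hx => ?_))
    (h.trans_eq (sum_congr rfl fun x _ => by ring))
  have e : ∀ y, cod G u x * (kerGap G u 128 x y - cod G u y / Z) * g x * g y
      = cod G u x * g x * (kerGap G u 128 x y * g y)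
        - cod G u x * g x / Z * (cod G u y * g y) := fun y => by ring
  simp only [e]
  rw [sum_sub_distrib, ← mul_sum, ← mul_sum, hg, iter_eq_gap g 128 x hx]
  ring

theorem gap_ok : GapS := by
  intro V _ _ G D δ Δ w γ hR h0 h1 hD hM hw hγ hβ φ
  have hd : 0 < D * (1 - δ) := mul_pos hD (sub_pos.2 h1)
  have hγ' : 0 < γ := by
    refine lt_of_le_of_ne hγ fun e => ?_
    rw [← e, zero_pow (by norm_num)] at hβ
    have a1 := one_div_pos.2 hd
    have a2 := le_max_left 0 (Δ * w / (D * (1 - δ)) ^ 128 - (1 - δ) / (1 + δ))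
    linarith
  unfold sq2
  rw [mul_sum]
  refine sum_le_sum fun u _ => ?_
  rcases (nb G u u).eq_empty_or_nonempty with he | hne
  · simp [he]
  have hc : ∀ x, G.Adj u x → 0 < cod G u x := fun x hx => hd.trans_le (hR.ge hx)
  have hZ : 0 < ∑ v ∈ nb G u u, cod G u v := sum_pos (fun v hv => hc v (mem_star_gap.1 hv)) hne
  obtain ⟨m, hm⟩ : ∃ m, m = (∑ x ∈ nb G u u, cod G u x * φ u x) / ∑ x ∈ nb G u u, cod G u x :=
    ⟨_, rfl⟩
  have hg : ∑ x ∈ nb G u u, cod G u x * (φ u x - m) = 0 := by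
    simp only [mul_sub]
    rw [sum_sub_distrib, ← sum_mul, hm, mul_div_cancel₀ _ hZ.ne', sub_self]
  have t7 := top_gap (β := γ ^ 128) (fun x => φ u x - m) hg
    fun x hx => (row_gap hR h0 h1 hD hM hw hx).trans hβ
  rw [show 128 = 2 * 64 from rfl, ← bil_half_gap, mul_comm 2 64, pow_mul] at t7
  have t6 := descend_gap (pow_pos hγ' 64) 32 _ t7
  rw [show 64 = 32 * 2 from rfl, pow_mul] at t6
  have t5 := descend_gap (pow_pos hγ' 32) 16 _ t6
  rw [show 32 = 16 * 2 from rfl, pow_mul] at t5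
  have t4 := descend_gap (pow_pos hγ' 16) 8 _ t5
  rw [show 16 = 8 * 2 from rfl, pow_mul] at t4
  have t3 := descend_gap (pow_pos hγ' 8) 4 _ t4
  rw [show 8 = 4 * 2 from rfl, pow_mul] at t3
  have t2 := descend_gap (pow_pos hγ' 4) 2 _ t3
  rw [show 4 = 2 * 2 from rfl, pow_mul] at t2
  have t1 := descend_gap (pow_pos hγ' 2) 1 _ t2
  rw [Function.iterate_one] at t1
  have e1 : ∑ v ∈ nb G u u, cod G u v * (opS G φ - opP G φ) u v ^ 2
      = bilGap G u (opGap G u fun x => φ u x - m) (opGap G u fun x => φ u x - m) := by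
    refine sum_congr rfl fun v hv => ?_
    have : (opS G φ - opP G φ) u v = opGap G u (fun x => φ u x - m) v := by
      have hv' := (hc v (mem_star_gap.1 hv)).ne'
      simp only [Pi.sub_apply, opS, opP, opGap, ← hm, sum_sub_distrib, sum_const, nsmul_eq_mul]
      rw [sub_div]
      congr 1
      exact (mul_div_cancel_left₀ m hv').symm
    rw [this]
    ring
  rw [e1]
  refine t1.trans (mul_le_mul_of_nonneg_left ?_ (sq_nonneg γ))
  have e2 : ∀ x, cod G u x * φ u x ^ 2 = cod G u x * (φ u x - m) * (φ u x - m)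
      + 2 * m * (cod G u x * (φ u x - m)) + m ^ 2 * cod G u x := fun x => by ring
  simp only [e2]
  rw [sum_add_distrib, sum_add_distrib, ← mul_sum, ← mul_sum, hg, mul_zero, add_zero]
  exact le_add_of_nonneg_right (mul_nonneg (sq_nonneg m) hZ.le)

end Vale.Agent.P046
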