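import Vale.Agent.P046.Walk

/-! # P046: the killed lazy chain survives -/

set_option linter.unusedSectionVars false

namespace Vale.Agent.P046

open Finset Vale.Agent.P015

variable {V : Type} [Fintype V] [DecidableEq V]

lemma ae_good_kill (good : ℕ → SimpleGraph V → Prop) (h0 : good 0 ⊤) :
    ∀ k, (klaw good k).Ae fun o => ∀ G, o = some G → good k G
  | 0 => FP.ae_pure fun G hG => by cases hG; exact h0
  | k + 1 => by
    refine FP.ae_bind (FP.ae_of_all _ fun o => ?_)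
    cases o with
    | none => exact FP.ae_pure fun G hG => by cases hG
    | some G =>
      refine FP.ae_map.mpr (FP.ae_of_all _ fun T G' hG' => ?_)
      split_ifs at hG' with h
      cases hG'; exact h

/-- supermartingale bound for the killing probability. -/
lemma super_kill (Φ : ℕ → SimpleGraph V → ℝ) (ε : ℕ → ℝ) (K : ℕ) (h0 : Φ 0 ⊤ = 0)
    (hnn : ∀ k G, 0 ≤ Φ k G) (hε : ∀ k, 0 ≤ ε k)
    (hstep : ∀ k < K, ∀ G, Φ k G ≤ 1 →
      ((FP.unif (triples V)).E fun T => Φ (k + 1) (lz G T)) ≤ Φ k G + ε k) :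
    ((klaw (fun k G => Φ k G ≤ 1) K).Pr fun o => o = none) ≤ ∑ k ∈ range K, ε k := by
  classical
  have key : ∀ k ≤ K, ((klaw (fun k G => Φ k G ≤ 1) k).E fun o => o.elim 1 (Φ k))
      ≤ ∑ i ∈ range k, ε i := by
    intro k
    induction k with
    | zero => intro _; simp [klaw, h0]
    | succ k ih =>
      intro hk
      have h1 := ih (by omega)
      rw [klaw, FP.E_bind, Finset.sum_range_succ]
      refine le_trans (FP.E_mono_ae _ (g := fun o => o.elim 1 (Φ k) + ε k) ?_) ?_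
      · refine (ae_good_kill (fun k G => Φ k G ≤ 1) (by simp [h0]) k).mono fun o ho => ?_
        cases o with
        | none => simp [kstep, hε k]
        | some G =>
          refine le_trans ?_ (hstep k (by omega) G (ho G rfl))
          rw [kstep, FP.E_map]
          refine FP.E_mono _ fun T => ?_
          split_ifs with h
          · exact le_rfl
          · exact (not_le.mp h).le
      · rw [FP.E_add, FP.E_const]; linarith
  refine le_trans ?_ (key K le_rfl)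
  rw [FP.Pr_eq_E]
  refine FP.E_mono _ fun o => ?_
  cases o with
  | none => simp
  | some G => simpa using hnn K G

/-- summation over the patterns. -/
lemma tele_kill {α : Type} (μ : FP α) (x : List Bool → ℝ) (y : α → List Bool → ℝ) (a b c : ℝ)
    (j : ℕ) (ha : 0 ≤ a) (hb : 0 ≤ b) (hx : ∀ π, 0 ≤ x π)
    (hy : ∀ π : List Bool, π.length ≤ j → (μ.E fun t => y t π)
      ≤ (1 - 2 * a) * x π + 2 * a * (x (false :: π) + x (true :: π)) + b)
    (hc : ∀ π : List Bool, π.length = j + 1 → x π ≤ c) :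
    (μ.E fun t => ∑ i ∈ range (j + 1), sumL i (y t))
      ≤ ∑ i ∈ range (j + 1), sumL i x + 2 ^ (j + 1) * (2 * a * c + b) := by
  rw [FP.E_sum]
  have h1 : ∀ i ∈ range (j + 1), (μ.E fun t => sumL i (y t))
      ≤ sumL i x + 2 * a * (sumL (i + 1) x - sumL i x) + 2 ^ i * b := by
    intro i hi
    have hi' : i ≤ j := by simpa [Nat.lt_succ_iff] using hi
    rw [E_sumL]
    refine (sumL_mono i fun π hπ => hy π (by omega)).trans (le_of_eq ?_)
    rw [sumL_add, sumL_add, sumL_mul_left, sumL_mul_left, sumL_add, sumL_const]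
    simp only [sumL, Fintype.sum_bool, Fintype.card_bool]
    push_cast
    ring
  refine (Finset.sum_le_sum h1).trans ?_
  rw [Finset.sum_add_distrib, Finset.sum_add_distrib, ← Finset.mul_sum,
    Finset.sum_range_sub (fun i => sumL i x), ← Finset.sum_mul]
  have h2 : sumL (j + 1) x ≤ 2 ^ (j + 1) * c := by
    have := sumL_mono (j + 1) (F := x) (F' := fun _ => c) hc
    rw [sumL_const] at this
    simpa using this
  have h3 : 0 ≤ sumL 0 x := hx []
  have h4 : ∑ i ∈ range (j + 1), (2 : ℝ) ^ i ≤ 2 ^ (j + 1) := by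
    rw [geom_sum_eq (by norm_num)]; norm_num
  have h5 := mul_le_mul_of_nonneg_right h4 hb
  have h6 : 2 * a * (sumL (j + 1) x - sumL 0 x) ≤ 2 * a * (2 ^ (j + 1) * c) :=
    mul_le_mul_of_nonneg_left (by linarith) (by linarith)
  linarith

open Classical in
/-- the potential. -/
noncomputable def Phi_kill (m : ℕ) (ν n : ℝ) (j : ℕ) (D : ℝ) (G : SimpleGraph V) : ℝ :=
  ∑ e : V × V, if G.Adj e.1 e.2 then
    ∑ i ∈ range (j + 1), sumL i (fun π => (zz G D e π / bar ν n D j π) ^ (2 * m)) else 0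

lemma pow_nonneg_kill (m : ℕ) (x : ℝ) : 0 ≤ x ^ (2 * m) := by
  rw [pow_mul]; positivity

lemma inner_nonneg_kill (m : ℕ) (ν n : ℝ) (j : ℕ) (D : ℝ) (G : SimpleGraph V) (e : V × V) :
    0 ≤ ∑ i ∈ range (j + 1), sumL i (fun π => (zz G D e π / bar ν n D j π) ^ (2 * m)) :=
  Finset.sum_nonneg fun i _ => sumL_nonneg i fun _ _ => pow_nonneg_kill _ _

lemma Phi_nonneg_kill (m : ℕ) (ν n : ℝ) (j : ℕ) (D : ℝ) (G : SimpleGraph V) :
    0 ≤ Phi_kill m ν n j D G := by
  refine Finset.sum_nonneg fun e _ => ?_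
  split_ifs
  · exact inner_nonneg_kill _ _ _ _ _ _ _
  · exact le_rfl

lemma Phi_top_kill {m : ℕ} (hm : 1 ≤ m) (ν n : ℝ) (j : ℕ) :
    Phi_kill m ν n j (Fintype.card V - 2) (⊤ : SimpleGraph V) = 0 := by
  refine Finset.sum_eq_zero fun e _ => ?_
  split_ifs with h
  · refine Finset.sum_eq_zero fun i _ => ?_
    simp only [zz_top h.ne, zero_div, zero_pow (show 2 * m ≠ 0 by omega), sumL_zero]
  · rfl

lemma reg_kill {m : ℕ} (hm : 1 ≤ m) {ν n : ℝ} {j : ℕ} {D δ : ℝ} {G : SimpleGraph V}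
    (h : Phi_kill m ν n j D G ≤ 1) (hD : 0 < D) (hb : 0 < bar ν n D j [])
    (hδ : bar ν n D j [] ≤ δ) : Reg G D δ := by
  classical
  intro a b hab
  have h1 : (∑ i ∈ range (j + 1), sumL i
      (fun π => (zz G D (a, b) π / bar ν n D j π) ^ (2 * m))) ≤ Phi_kill m ν n j D G := by
    refine le_trans ?_ (Finset.single_le_sum (f := fun e : V × V => if G.Adj e.1 e.2 then
      ∑ i ∈ range (j + 1), sumL i (fun π => (zz G D e π / bar ν n D j π) ^ (2 * m)) else 0)
      (fun e _ => ?_) (Finset.mem_univ (a, b)))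
    · rw [if_pos hab]
    · split_ifs
      · exact inner_nonneg_kill _ _ _ _ _ _ _
      · exact le_rfl
  have h2 : (zz G D (a, b) [] / bar ν n D j []) ^ (2 * m) ≤ ∑ i ∈ range (j + 1), sumL i
      (fun π => (zz G D (a, b) π / bar ν n D j π) ^ (2 * m)) :=
    Finset.single_le_sum (f := fun i => sumL i
      (fun π => (zz G D (a, b) π / bar ν n D j π) ^ (2 * m)))
      (fun i _ => sumL_nonneg i fun _ _ => pow_nonneg_kill _ _) (Finset.mem_range.mpr j.succ_pos)
  have h3 : |zz G D (a, b) [] / bar ν n D j []| ≤ 1 := by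
    rw [← pow_le_one_iff_of_nonneg (abs_nonneg _) (show 2 * m ≠ 0 by omega),
      (even_two_mul m).pow_abs]
    linarith
  rw [abs_div, abs_of_pos hb, div_le_one hb, zz_nil, abs_div, abs_of_pos hD,
    div_le_iff₀ hD] at h3
  exact h3.trans (mul_le_mul_of_nonneg_right hδ hD.le)

/-- from the edgewise bound to the potential. -/
lemma Phi_step_kill (m : ℕ) (ν n : ℝ) (j : ℕ) (D D' b : ℝ) (G : SimpleGraph V) (hb : 0 ≤ b)
    (h : ∀ e : V × V, G.Adj e.1 e.2 → ((FP.unif (triples V)).E fun T =>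
      ∑ i ∈ range (j + 1), sumL i (fun π => (zz (lz G T) D' e π / bar ν n D' j π) ^ (2 * m)))
      ≤ ∑ i ∈ range (j + 1), sumL i (fun π => (zz G D e π / bar ν n D j π) ^ (2 * m)) + b) :
    ((FP.unif (triples V)).E fun T => Phi_kill m ν n j D' (lz G T))
      ≤ Phi_kill m ν n j D G + (Fintype.card V : ℝ) ^ 2 * b := by
  classical
  unfold Phi_kill
  rw [FP.E_sum]
  have h1 : (Fintype.card V : ℝ) ^ 2 * b = ∑ _e : V × V, b := by
    simp [sq]
  rw [h1, ← Finset.sum_add_distrib]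
  refine Finset.sum_le_sum fun e _ => ?_
  by_cases he : G.Adj e.1 e.2
  · rw [if_pos he]
    refine le_trans (FP.E_mono _ fun T => ?_) (h e he)
    split_ifs
    · exact le_rfl
    · exact inner_nonneg_kill _ _ _ _ _ _ _
  · rw [if_neg he, zero_add]
    refine FP.E_le_of_ae _ (FP.ae_of_all _ fun T => ?_)
    rw [if_neg fun h' => he (lz_le G T h')]
    exact hb

/-- numerical facts on the parameters. -/
lemma num_kill {ν : ℝ} {n : ℕ} (h10 : 10 ≤ ν) (hn : ν ^ 4000 = n)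
    (hl : 80000 * Real.log ν ^ 1 ≤ ν) :
    ν ^ 2 * 10 ≤ n ∧ 4 ≤ n ∧ 1 ≤ Nat.clog 2 (n ^ 5) ∧ ((Nat.clog 2 (n ^ 5) : ℕ) : ℝ) ≤ ν ∧
    (n : ℝ) ^ 5 ≤ 2 ^ Nat.clog 2 (n ^ 5) ∧ (2 : ℝ) ^ Nat.clog 2 (n ^ 5) ≤ 2 * (n : ℝ) ^ 5 ∧
    Real.log n ≤ ν ∧ 10 ≤ ν ^ 100 ∧ (ν + 2) * (1 / ν ^ 46) ≤ 1 / 2 := by
  have h1 : (1 : ℝ) ≤ ν := by linarith
  have h0 : (0 : ℝ) < ν := by linarith
  have a1 : ν ^ 2 * 10 ≤ n := by
    rw [← hn]
    calc ν ^ 2 * 10 ≤ ν ^ 2 * ν := mul_le_mul_of_nonneg_left h10 (sq_nonneg _)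
      _ = ν ^ 3 := by ring
      _ ≤ ν ^ 4000 := pow_le_pow_right₀ h1 (by norm_num)
  have a2 : (4 : ℝ) ≤ n := by nlinarith
  have a3 : 4 ≤ n := by exact_mod_cast a2
  have a4 : 1 < n ^ 5 := Nat.one_lt_pow (by norm_num) (by omega)
  have a5 : 1 ≤ Nat.clog 2 (n ^ 5) := Nat.clog_pos (by norm_num) a4
  have a6 : 2 ^ (Nat.clog 2 (n ^ 5) - 1) < n ^ 5 := Nat.pow_pred_clog_lt_self (by norm_num) a4
  have a7 : n ^ 5 ≤ 2 ^ Nat.clog 2 (n ^ 5) := Nat.le_pow_clog (by norm_num) _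
  have hlog : Real.log n = 4000 * Real.log ν := by rw [← hn, Real.log_pow]; norm_num
  generalize Nat.clog 2 (n ^ 5) = j at *
  obtain ⟨i, rfl⟩ : ∃ i, j = i + 1 := ⟨j - 1, by omega⟩
  rw [Nat.add_sub_cancel] at a6
  have a8 : (2 : ℝ) ^ i ≤ (n : ℝ) ^ 5 := by exact_mod_cast a6.le
  have a9 : (i : ℝ) * Real.log 2 ≤ 5 * Real.log n := by
    have := Real.log_le_log (by positivity) a8
    rwa [Real.log_pow, Real.log_pow] at this
  have b1 : (1 : ℝ) / 2 ≤ Real.log 2 := by linarith [Real.log_two_gt_d9]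
  have b2 : (i : ℝ) * (1 / 2) ≤ i * Real.log 2 := mul_le_mul_of_nonneg_left b1 (Nat.cast_nonneg _)
  have b3 : 0 ≤ Real.log ν := Real.log_nonneg h1
  rw [pow_one] at hl
  refine ⟨a1, a3, a5, ?_, by exact_mod_cast a7, ?_, by linarith, ?_, ?_⟩
  · push_cast; linarith
  · rw [pow_succ]; linarith
  · calc (10 : ℝ) ≤ ν ^ 1 := by linarith
      _ ≤ ν ^ 100 := pow_le_pow_right₀ h1 (by norm_num)
  · have b4 : ν ^ 2 ≤ ν ^ 46 := pow_le_pow_right₀ h1 (by norm_num)
    rw [mul_one_div, div_le_iff₀ (pow_pos h0 _)]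
    nlinarith

lemma a_facts_kill {n : ℕ} (hn : 4 ≤ n) (k : ℕ) :
    0 ≤ Dk n k / (n.choose 3 : ℝ) ∧ Dk n k / (n.choose 3 : ℝ) * n ≤ 2 ∧
    Dk n k / (n.choose 3 : ℝ) * Dk n k * n ≤ 6 ∧ Dk n k / (n.choose 3 : ℝ) * Dk n k ^ 2 ≤ 6 := by
  have h : (4 : ℝ) ≤ n := by exact_mod_cast hn
  have h1 := Dk_pos hn k
  have h2 := Dk_le hn k
  have h3 := a_le hn k
  have h4 : 0 ≤ Dk n k / (n.choose 3 : ℝ) := by positivity
  rw [le_div_iff₀ (by nlinarith)] at h3
  generalize Dk n k / (n.choose 3 : ℝ) = a at *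
  generalize Dk n k = D at *
  have h5 : 0 ≤ a * n := by positivity
  have h6 : a * D * n ≤ 6 := by nlinarith
  refine ⟨h4, by nlinarith, h6, ?_⟩
  have h7 : a * D * D ≤ a * D * n := mul_le_mul_of_nonneg_left (by linarith) (by positivity)
  nlinarith

theorem kill_ok {C1 C2 : ℝ} (h1 : DriftS C1) (h2 : QVS C2) (hP : PowS) (hB : BarS) : KillS := by
  obtain ⟨c, C, hc, hC, hP⟩ := hP 64000 (by norm_num)
  obtain ⟨CB, hB⟩ := hB (max C1 C2)
  obtain ⟨CL, -, hL⟩ := polylog 80000 1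
  refine ⟨max (max CB CL) (max (max 10 (1 / c)) (4 * (2 + C))), fun V _ _ ν hν hn K hK => ?_⟩
  simp only [max_le_iff] at hν
  obtain ⟨⟨hν1, hν2⟩, ⟨h10, hν3⟩, hν4⟩ := hν
  obtain ⟨n1, n2, j1, j2, j3, j4, n3, n4, n5⟩ := num_kill h10 hn (hL ν hν2)
  have hνc : 1 / ν ≤ c := by
    rw [div_le_iff₀ hc] at hν3
    rw [div_le_iff₀ (by linarith)]; linarith
  have hpow : (1 / ν) ^ 64000 = 1 / (Fintype.card V : ℝ) ^ 16 := by
    rw [← hn, ← pow_mul, div_pow, one_pow]
  have hm : 1 ≤ 64000 := by norm_num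
  have hm' : ((64000 : ℕ) : ℝ) = 64000 := by norm_num
  generalize 64000 = m at hP hpow hm hm'
  rw [hm'] at hP
  set n := Fintype.card V with hnV
  generalize Nat.clog 2 (n ^ 5) = j at *
  have h0 : (0 : ℝ) < ν := by linarith
  have hϖ : 0 ≤ 1 / ν := by positivity
  have hϖ1 : 1 / ν ≤ 1 := by rw [div_le_one h0]; linarith
  have hn0 : (0 : ℝ) < n := by nlinarith
  have hD : ∀ k ≤ K, ν ^ 100 ≤ Dk n k := fun k hk => hK.trans (Dk_anti n2 hk)
  have ha : ∀ k, Dk n k / (n.choose 3 : ℝ) ≤ 1 / ν := by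
    intro k
    obtain ⟨a1, a2, -, -⟩ := a_facts_kill n2 k
    rw [le_div_iff₀ h0]
    have : ν ≤ n / 2 := by nlinarith
    nlinarith
  have hBk := fun k (hk : k ≤ K) (π : List Bool) => hB ν n (Dk n k) _ j π hν1 hn (hD k hk)
    (Dk_le n2 k) (a_facts_kill n2 k).1 (ha k) j3 j2
  have hreg : ∀ k ≤ K, ∀ G : SimpleGraph V, Phi_kill m ν n j (Dk n k) G ≤ 1 →
      Reg G (Dk n k) (3 * bS ν n (Dk n k)) := fun k hk G hG =>
    reg_kill hm hG (Dk_pos n2 k) (hBk k hk []).1 (hBk k hk []).2.2.2.1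
  have hΦ0 : Phi_kill m ν n j (Dk n 0) (⊤ : SimpleGraph V) = 0 := by
    rw [Dk_zero]; exact Phi_top_kill hm _ _ _
  refine ⟨fun k G => Phi_kill m ν n j (Dk n k) G ≤ 1, by simp [hΦ0], fun k hk G hG a b hab => ?_,
    ?_⟩
  · exact (hreg k hk G hG a b hab).trans
      (mul_le_mul_of_nonneg_right (hBk k hk []).2.2.2.2.2.1 (Dk_pos n2 k).le)
  refine (super_kill (fun k G => Phi_kill m ν n j (Dk n k) G)
    (fun k => Dk n k / (n.choose 3 : ℝ) * ((n : ℝ) ^ 2 * 2 ^ (j + 1) * ((2 + C) * (1 / ν) ^ m))) K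
    hΦ0 (fun k G => Phi_nonneg_kill _ _ _ _ _ _)
    (fun k => mul_nonneg (a_facts_kill n2 k).1 (by positivity)) ?_).trans ?_
  · intro k hk G hG
    obtain ⟨a1, a2, a3, a4⟩ := a_facts_kill n2 k
    have hBk' := hBk k hk.le
    have hak := ha k
    have hDk := hD k hk.le
    have hRk := hreg k hk.le G hG
    have hNa : Dk n k / (n.choose 3 : ℝ) * (triples V).card = Dk n k := by
      rw [card_triples, div_mul_cancel₀]
      exact_mod_cast (Nat.choose_pos (by omega)).ne'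
    rw [Dk_succ n2]
    generalize Dk n k / (n.choose 3 : ℝ) = a at *
    generalize Dk n k = D at *
    have hD0 : 0 < D := by linarith
    refine (Phi_step_kill m ν n j D _ (2 ^ (j + 1) * (2 * a * (1 / ν) ^ m + a * C * (1 / ν) ^ m))
      G (by positivity) fun e he => ?_).trans (le_of_eq (by ring))
    have hS : ∀ π : List Bool, π.length ≤ j → StepHyp G D (3 * bS ν n D) a j e π := by
      intro π hπ
      obtain ⟨-, -, -, -, b1, b2, -⟩ := hBk' π
      refine ⟨hRk, he, hπ, j1, by linarith, by linarith, ?_, hNa, ?_, a4⟩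
      · refine le_trans ?_ n5
        exact mul_le_mul (by linarith) b2 (by linarith) (by linarith)
      · have c1 : (j : ℝ) ^ 2 ≤ ν ^ 2 := pow_le_pow_left₀ (Nat.cast_nonneg _) j2 2
        have c2 : 0 ≤ a * D := by positivity
        have c3 : a * D * (j : ℝ) ^ 2 ≤ a * D * (n / 10) :=
          mul_le_mul_of_nonneg_left (by linarith) c2
        linarith
    refine tele_kill _ (fun π => (zz G D e π / bar ν n D j π) ^ (2 * m))
      (fun T π => (zz (lz G T) (D / (1 + 2 * a)) e π / bar ν n (D / (1 + 2 * a)) j π) ^ (2 * m))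
      a _ _ j a1 (by positivity) (fun π => pow_nonneg_kill _ _) (fun π hπ => ?_) fun π hπ => ?_
    · have hs := hS π hπ
      obtain ⟨b1, b2, b3, -, b4, -, b5, b6, b7, b8, -⟩ := hBk' π
      obtain ⟨q1, q2, q3⟩ := h2 V G D _ a j e π hs
      have hz : ∀ T, zz (lz G T) (D / (1 + 2 * a)) e π = zz G D e π + dz G D a e π T :=
        fun T => by rw [dz]; ring
      simp only [hz]
      have m1 : C1 ≤ max C1 C2 := le_max_left _ _
      have m2 : C2 ≤ max C1 C2 := le_max_right _ _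
      have m3 : C2 / D ≤ max C1 C2 / D := div_le_div_of_nonneg_right m2 hD0.le
      refine hP _ _ (dz G D a e π) _ _ _ _ _ _ _ a _ b1 (hBk' _).1 (b2 _) (hBk' _).1 (b2 _) a1
        (hak.trans hνc) hϖ hνc b3 ?_ ?_ ?_
      · refine (h1 V G D _ a j e π hs).trans (mul_le_mul_of_nonneg_left (le_trans ?_ b5) a1)
        exact mul_le_mul_of_nonneg_right m1 (by positivity)
      · by_cases hF : Free π
        · refine (q3 hF).trans (mul_le_mul_of_nonneg_left (le_trans ?_ (b7 hF)) a1)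
          exact mul_le_mul_of_nonneg_right m2 (by positivity)
        · exact q2.trans (mul_le_mul_of_nonneg_left (m3.trans (b6 hF)) a1)
      · exact (FP.ae_unif hs.nonempty).mono fun T hT => (q1 T hT).trans (m3.trans b8)
    · obtain ⟨b1, -, -, -, b4, b5, -, -, -, -, b6⟩ := hBk' π
      have c1 := (hS [] (Nat.zero_le _)).zz_le π (by omega)
      have c2 : 1 / ν ^ 46 ≤ 1 / 2 := by
        refine le_trans ?_ n5
        exact le_mul_of_one_le_left (by positivity) (by linarith)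
      have c3 : |zz G D e π / bar ν n D j π| ≤ 1 / ν := by
        rw [abs_div, abs_of_pos b1]
        exact div_le_div₀ zero_le_one (by linarith) h0 (b6 hπ)
      calc (zz G D e π / bar ν n D j π) ^ (2 * m) = |zz G D e π / bar ν n D j π| ^ (2 * m) :=
            ((even_two_mul m).pow_abs _).symm
        _ ≤ (1 / ν) ^ (2 * m) := pow_le_pow_left₀ (abs_nonneg _) c3 _
        _ ≤ (1 / ν) ^ m := pow_le_pow_of_le_one hϖ hϖ1 (by omega)
  · rw [← Finset.sum_mul, hpow]
    have s1 := sum_a_le n2 K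
    have hn4 : (4 : ℝ) ≤ n := by exact_mod_cast n2
    have s2 : Real.log (((n : ℝ) - 2) / Dk n K) ≤ Real.log n := by
      refine Real.log_le_log (div_pos (by linarith) (Dk_pos n2 K)) ?_
      exact (div_le_self (by linarith) (by linarith)).trans (by linarith)
    have s3 : (n : ℝ) ^ 2 * 2 ^ (j + 1) * ((2 + C) * (1 / (n : ℝ) ^ 16))
        ≤ (n : ℝ) ^ 2 * (4 * (n : ℝ) ^ 5) * ((2 + C) * (1 / (n : ℝ) ^ 16)) := by
      refine mul_le_mul_of_nonneg_right (mul_le_mul_of_nonneg_left ?_ (by positivity))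
        (by positivity)
      rw [pow_succ]; linarith
    refine (mul_le_mul (s1.trans (s2.trans n3)) s3 (by positivity) h0.le).trans ?_
    have s4 : ν * (4 * (2 + C)) ≤ (n : ℝ) ^ 7 :=
      calc ν * (4 * (2 + C)) ≤ ν * ν := mul_le_mul_of_nonneg_left hν4 h0.le
        _ ≤ (n : ℝ) ^ 1 := by nlinarith
        _ ≤ (n : ℝ) ^ 7 := pow_le_pow_right₀ (by linarith) (by norm_num)
    calc ν * ((n : ℝ) ^ 2 * (4 * (n : ℝ) ^ 5) * ((2 + C) * (1 / (n : ℝ) ^ 16)))
        = ν * (4 * (2 + C)) / (n : ℝ) ^ 9 := by field_simp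
      _ ≤ (n : ℝ) ^ 7 / (n : ℝ) ^ 9 := div_le_div_of_nonneg_right s4 (by positivity)
      _ = 1 / (n : ℝ) ^ 2 := by field_simp

end Vale.Agent.P046
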