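import Vale.Agent.P046.Walk

/-! # P046: the law of the labels of the cover -/

namespace Vale.Agent.P046

open Finset Vale.Agent.P015

section iid

variable {α : Type}

lemma ext_w_law {p q : FP α} (h : ∀ a, p.w a = q.w a) : p = q :=
  FP.ext_E fun f => by unfold FP.E; rw [Finsupp.ext h]

open Classical in
lemma E_ind_law (p : FP α) (b : α) : (p.E fun a => if a = b then (1 : ℝ) else 0) = p.w b := by
  rw [FP.w_eq_Pr, FP.Pr_eq_E]

lemma iid_w_law {ι : Type} [Fintype ι] [DecidableEq ι] (p : FP α) (η : ι → α) :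
    (FP.iid ι p).w η = ∏ i, p.w (η i) := by
  classical
  rw [FP.w_eq_Pr, FP.Pr_eq_E]
  have h2 : (fun ω : ι → α => if ω = η then (1 : ℝ) else 0)
      = fun ω => ∏ j, if ω j = η j then (1 : ℝ) else 0 := by
    funext ω
    rw [Finset.prod_boole]; simp [funext_iff]
  rw [h2, FP.E_iid_prod ι p (fun j a => if a = η j then (1 : ℝ) else 0)]
  exact Finset.prod_congr rfl fun i _ => E_ind_law p _

lemma iid_curry_law {I K : Type} [Fintype I] [DecidableEq I] [Fintype K] [DecidableEq K]
    (p : FP α) : ((FP.iid (I × K) p).map Function.curry) = FP.iid I (FP.iid K p) := by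
  refine ext_w_law fun ζ => ?_
  rw [FP.w_eq_Pr, FP.Pr_map, FP.Pr_congr _ (Q := fun η => η = Function.uncurry ζ) fun η =>
    ⟨fun h => by rw [← h]; rfl, fun h => by rw [h]; rfl⟩, ← FP.w_eq_Pr, iid_w_law, iid_w_law,
    Fintype.prod_prod_type]
  exact Finset.prod_congr rfl fun i _ => (iid_w_law p (ζ i)).symm

lemma iid_update_law {ι : Type} [Fintype ι] [DecidableEq ι] (p : FP α) (i0 : ι) :
    (p.bind fun r => (FP.iid ι p).map fun ω => Function.update ω i0 r) = FP.iid ι p := by
  classical
  refine ext_w_law fun η => ?_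
  rw [FP.w_eq_Pr, FP.Pr_bind, iid_w_law, ← Finset.mul_prod_erase _ _ (Finset.mem_univ i0),
    ← E_ind_law p (η i0), ← FP.E_mul_right]
  congr 1
  funext r
  rw [FP.Pr_map, FP.Pr_eq_E]
  have h2 : (fun ω : ι → α => if Function.update ω i0 r = η then (1 : ℝ) else 0)
      = fun ω => ∏ j, if Function.update ω i0 r j = η j then (1 : ℝ) else 0 := by
    funext ω
    rw [Finset.prod_boole]; simp [funext_iff]
  have h3 : ∀ (ω : ι → α) j, (if Function.update ω i0 r j = η j then (1 : ℝ) else 0)
      = if j = i0 then (if r = η i0 then 1 else 0) else if ω j = η j then 1 else 0 := by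
    intro ω j
    by_cases hj : j = i0
    · subst hj; simp
    · simp [hj]
  rw [h2]
  simp only [h3]
  rw [FP.E_iid_prod ι p (fun j a => if j = i0 then (if r = η i0 then (1 : ℝ) else 0)
    else if a = η j then 1 else 0), ← Finset.mul_prod_erase _ _ (Finset.mem_univ i0)]
  simp only [if_true, FP.E_const]
  congr 1
  refine Finset.prod_congr rfl fun j hj => ?_
  simp only [if_neg (Finset.ne_of_mem_erase hj)]
  exact E_ind_law p _

end iid

variable {V : Type} [Fintype V] [DecidableEq V]

/-- prepending a step to an address. -/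
def consA_law (h : ℕ) (q : (Bool × V) × Addr V h) : Addr V (h + 1) :=
  ⟨q.1 :: q.2.1, by simpa using q.2.2⟩

omit [Fintype V] [DecidableEq V] in
lemma consA_inj_law (h : ℕ) : Function.Injective (consA_law (V := V) h) := by
  intro q q' e
  have := congrArg Subtype.val e
  simp only [consA_law, List.cons.injEq] at this
  exact Prod.ext this.1 (Subtype.ext this.2)

omit [Fintype V] [DecidableEq V] in
lemma sub_ext_law (h : ℕ) (ω : Addr V (h + 1) → ℕ) (x : Bool × V) :
    sub (ext ω) x = ext (Function.curry (ω ∘ consA_law h) x) := by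
  funext l
  simp only [sub, ext, List.length_cons, Nat.add_le_add_iff_right]
  split_ifs <;> rfl

theorem law_ok : LawS := by
  intro V _ _ M h
  refine ⟨fun F => ?_, fun hM F hF => ?_⟩
  · simp only [tlaw, FP.E_map, sub_ext_law]
    have h1 := congrArg (fun q : FP (Bool × V → Addr V h → ℕ) =>
      q.E fun ζ => ∏ x, F x (ext (ζ x))) (iid_curry_law (I := Bool × V) (K := Addr V h)
        (FP.unif (range M)))
    rw [← FP.iid_map_comp _ (consA_law h) (consA_inj_law h)] at h1
    simp only [FP.E_map] at h1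
    rw [h1, FP.E_iid_prod (Bool × V) _ fun x ζ => F x (ext ζ)]
  · simp only [tlaw, FP.E_map]
    let i0 : Addr V h := ⟨[], by simp⟩
    conv_lhs => rw [← iid_update_law (FP.unif (range M)) i0]
    rw [FP.E_bind, FP.E_unif ⟨0, Finset.mem_range.2 hM⟩, Finset.card_range]
    congr 1
    refine Finset.sum_congr rfl fun r _ => ?_
    rw [FP.E_map]
    congr 1
    funext ω
    have e1 : ext (Function.update ω i0 r) [] = r := by
      simp only [ext, List.length_nil, Nat.zero_le, dite_true]
      exact Function.update_self ..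
    rw [e1]
    refine hF r _ _ fun l hl => ?_
    simp only [ext]
    split_ifs with h1
    · exact Function.update_of_ne (fun e => hl (congrArg Subtype.val e)) _ _
    · rfl

lemma alive_congr_law (G : SimpleGraph V) (h : ℕ) (st : St V) (β : Bool) {η η' : Lab V}
    (e : ∀ l, l ≠ [] → η l = η' l) (s : ℕ) : alive G h st β η s ↔ alive G h st β η' s := by
  cases h with
  | zero => exact Iff.rfl
  | succ h =>
    have e1 : ∀ x, sub η x = sub η' x := fun x => funext fun l => e _ (by simp)
    have e2 : ∀ x, η [x] = η' [x] := fun x => e _ (by simp)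
    simp only [alive, e1, e2]

lemma alive_two_law (G : SimpleGraph V) {M h : ℕ} (hM : 0 < M)
    (hA : ∀ (st : St V) s, s ≤ h → s ≤ M →
      ((tlaw V M h).Pr fun ω => alive G h st false ω s ∧ alive G h st true ω s)
      = rho G (II G M s) (st false).1 (st false).2.1 (st false).2.2
        * rho G (II G M s) (st true).1 (st true).2.1 (st true).2.2)
    (st : St V) (x : Bool × V) (r : ℕ) (hr : r ≤ h + 1) (hrM : r ≤ M) :
    ((tlaw V M h).Pr fun η => η [] < r ∧ alive G h (nxt st x) false η (η []) ∧
      alive G h (nxt st x) true η (η [])) = II G M r (st x.1).1 (st x.1).2.1 x.2 := by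
  classical
  have h2 := (law_ok V M h).2 hM (fun r' η => if r' < r ∧ alive G h (nxt st x) false η r' ∧
    alive G h (nxt st x) true η r' then 1 else 0) fun r' η η' e => by
      simp only [alive_congr_law G h _ _ e]
  rw [FP.Pr_eq_E, h2, II_eq_sum, ← Finset.sum_div]
  congr 1
  symm
  refine (Finset.sum_congr rfl fun r' hr' => ?_).trans
    (Finset.sum_subset (Finset.range_subset_range.2 hrM) fun r' _ hr' => ?_)
  · have h3 := Finset.mem_range.1 hr'
    simp only [h3, true_and]
    rw [← FP.Pr_eq_E, hA (nxt st x) r' (by omega) (by omega)]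
    simp [nxt]
  · have h3 : ¬ r' < r := fun h => hr' (Finset.mem_range.2 h)
    simp [h3]

lemma Pr_all_law (M h : ℕ) (P : Bool × V → Lab V → Prop) :
    ((tlaw V M (h + 1)).Pr fun ω => ∀ x, P x (sub ω x)) = ∏ x, (tlaw V M h).Pr (P x) := by
  classical
  have h1 := (law_ok V M h).1 fun x η => if P x η then 1 else 0
  simp only [← FP.Pr_eq_E] at h1
  rw [← h1, FP.Pr_eq_E]
  congr 1
  funext ω
  rw [Finset.prod_boole]
  simp

lemma alive_step_law (G : SimpleGraph V) {M h : ℕ} (st : St V) (s : ℕ)
    (hB : ∀ x : Bool × V,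
      ((tlaw V M h).Pr fun η => η [] < s ∧ alive G h (nxt st x) false η (η []) ∧
      alive G h (nxt st x) true η (η [])) = II G M s (st x.1).1 (st x.1).2.1 x.2)
    (S : Finset Bool) :
    ((tlaw V M (h + 1)).Pr fun ω => ∀ β ∈ S, alive G (h + 1) st β ω s)
      = ∏ β ∈ S, rho G (II G M s) (st β).1 (st β).2.1 (st β).2.2 := by
  classical
  have h1 := Pr_all_law M h fun x η => (x.1 ∈ S ∧ ok G st x) → ¬ (η [] < s ∧
    alive G h (nxt st x) false η (η []) ∧ alive G h (nxt st x) true η (η []))
  have h2 : ∀ ω : Lab V, (∀ β ∈ S, alive G (h + 1) st β ω s) ↔ ∀ x : Bool × V,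
      (x.1 ∈ S ∧ ok G st x) → ¬ (sub ω x [] < s ∧ alive G h (nxt st x) false (sub ω x) (sub ω x []) ∧
        alive G h (nxt st x) true (sub ω x) (sub ω x [])) := fun ω =>
    ⟨fun H x hx => H x.1 hx.1 x.2 hx.2, fun H β hβ v hv => H (β, v) ⟨hβ, hv⟩⟩
  rw [FP.Pr_congr _ h2, h1]
  have h3 : ∀ x : Bool × V, ((tlaw V M h).Pr fun η => (x.1 ∈ S ∧ ok G st x) → ¬ (η [] < s ∧
      alive G h (nxt st x) false η (η []) ∧ alive G h (nxt st x) true η (η [])))
      = if x.1 ∈ S then (if x.2 ∈ (nb G (st x.1).1 (st x.1).2.1).erase (st x.1).2.2 then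
        1 - II G M s (st x.1).1 (st x.1).2.1 x.2 else 1) else 1 := by
    intro x
    have hok : x.2 ∈ (nb G (st x.1).1 (st x.1).2.1).erase (st x.1).2.2 ↔ ok G st x := by
      rw [Finset.mem_erase, ok, and_comm]
    by_cases h4 : x.1 ∈ S ∧ ok G st x
    · rw [if_pos h4.1, if_pos (hok.2 h4.2), ← hB x, ← Pr_not]
      simp only [h4, and_self, true_imp_iff]
    · simp only [h4, false_imp_iff, FP.Pr, if_true, FP.E_const]
      by_cases h5 : x.1 ∈ S
      · rw [if_pos h5, if_neg fun h6 => h4 ⟨h5, hok.1 h6⟩]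
      · rw [if_neg h5]
  simp only [h3]
  rw [Fintype.prod_prod_type]
  simp only [Finset.prod_ite_irrel, Finset.prod_const_one, Finset.prod_ite_mem, Finset.univ_inter]
  rfl

theorem alive_ok : AliveS := by
  intro V _ _ G M h st hM
  have key : ∀ h (st : St V) s, s ≤ h → s ≤ M → ∀ S : Finset Bool,
      ((tlaw V M h).Pr fun ω => ∀ β ∈ S, alive G h st β ω s)
        = ∏ β ∈ S, rho G (II G M s) (st β).1 (st β).2.1 (st β).2.2 := by
    intro h
    induction h with
    | zero =>
      intro st s hs _ S
      obtain rfl : s = 0 := by omega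
      simp [alive, FP.Pr, rho, II]
    | succ h ih =>
      intro st s hs hsM S
      refine alive_step_law G st s (fun x => alive_two_law G hM (fun st s h1 h2 => ?_) st x s hs
        hsM) S
      have := ih st s h1 h2 univ
      rw [Fintype.prod_bool, mul_comm] at this
      rw [← this]
      exact FP.Pr_congr _ fun ω => by simp [and_comm]
  have key2 : ∀ (st : St V) s, s ≤ h → s ≤ M →
      ((tlaw V M h).Pr fun ω => alive G h st false ω s ∧ alive G h st true ω s)
      = rho G (II G M s) (st false).1 (st false).2.1 (st false).2.2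
        * rho G (II G M s) (st true).1 (st true).2.1 (st true).2.2 := by
    intro st s h1 h2
    have := key h st s h1 h2 univ
    rw [Fintype.prod_bool, mul_comm] at this
    rw [← this]
    exact FP.Pr_congr _ fun ω => by simp [and_comm]
  refine ⟨fun s h1 h2 => ⟨key2 st s h1 h2, fun β => ?_⟩, alive_two_law G hM key2 st⟩
  have := key h st s h1 h2 {β}
  rw [Finset.prod_singleton] at this
  rw [← this]
  exact FP.Pr_congr _ fun ω => by simp

end Vale.Agent.P046
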