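import Vale.Agent.P046.Walk

/-! # P046: the linear recursion -/

namespace Vale.Agent.P046

open Finset

section lin

variable {E : Type} [AddCommGroup E] [Module ℝ E]

/-- solution operator of the averaged recursion. -/
def solLin (R P : E →ₗ[ℝ] E) (w : ℕ → ℝ) (F : ℕ → E) : ℕ → E
  | 0 => 0
  | r + 1 => solLin R P w F r - w r • (P (solLin R P w F r) + R (P (solLin R P w F r))) + w r • F r

lemma sol_add_lin (R P : E →ₗ[ℝ] E) (w : ℕ → ℝ) {F F1 F2 : ℕ → E} {s : ℕ}
    (h : ∀ r < s, F r = F1 r + F2 r) :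
    ∀ r ≤ s, solLin R P w F r = solLin R P w F1 r + solLin R P w F2 r := by
  intro r
  induction r with
  | zero => intro _; simp [solLin]
  | succ r ih =>
    intro hr
    simp only [solLin]
    rw [ih (by omega), h r (by omega)]
    simp only [map_add, smul_add]
    abel

lemma sol_bound_lin (t : Seminorm ℝ E) {R P : E →ₗ[ℝ] E} {w : ℕ → ℝ} {F : ℕ → E} {s : ℕ}
    {τ g : ℝ} (hR : ∀ φ, t (R φ) ≤ t φ) (hP : ∀ φ, t (P φ) ≤ t φ) (hPP : ∀ φ, P (P φ) = P φ)
    (hw : ∀ r, 0 ≤ w r ∧ w r ≤ 1) (hτ : ∑ r ∈ range s, w r ≤ τ) (hg : 0 ≤ g)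
    (hF : ∀ r < s, t (F r) ≤ g) : ∀ r ≤ s, t (solLin R P w F r) ≤ (τ + 2 * τ ^ 2) * g := by
  have hsum : ∀ r ≤ s, ∑ i ∈ range r, w i ≤ τ := fun r hr =>
    (sum_le_sum_of_subset_of_nonneg (range_mono hr) fun i _ _ => (hw i).1).trans hτ
  have hτ0 : 0 ≤ τ := by simpa using hsum 0 (Nat.zero_le s)
  have hsm : ∀ (c : ℝ) (φ : E), 0 ≤ c → t (c • φ) = c * t φ := fun c φ hc => by
    rw [map_smul_eq_mul, Real.norm_of_nonneg hc]
  have h1 : ∀ r ≤ s, t (P (solLin R P w F r)) ≤ (∑ i ∈ range r, w i) * g := by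
    intro r
    induction r with
    | zero => intro _; simp [solLin]
    | succ r ih =>
      intro hr
      have ih' := ih (by omega)
      have e : P (solLin R P w F (r + 1)) = (1 - w r) • P (solLin R P w F r)
          - w r • P (R (P (solLin R P w F r))) + w r • P (F r) := by
        simp only [solLin, map_add, map_sub, map_smul, hPP, sub_smul, one_smul, smul_add]
        abel
      have a1 := (hP _).trans (hR (P (solLin R P w F r)))
      have a2 := (hP _).trans (hF r (by omega))
      have a3 := map_add_le_add t ((1 - w r) • P (solLin R P w F r)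
        - w r • P (R (P (solLin R P w F r)))) (w r • P (F r))
      have a4 := map_sub_le_add t ((1 - w r) • P (solLin R P w F r))
        (w r • P (R (P (solLin R P w F r))))
      rw [hsm _ _ (hw r).1] at a3 a4
      rw [hsm _ _ (sub_nonneg.2 (hw r).2)] at a4
      rw [e, sum_range_succ]
      have a5 := mul_le_mul_of_nonneg_left a1 (hw r).1
      have a6 := mul_le_mul_of_nonneg_left a2 (hw r).1
      nlinarith
  have h2 : ∀ r ≤ s, t (solLin R P w F r) ≤ (∑ i ∈ range r, w i) * ((1 + 2 * τ) * g) := by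
    intro r
    induction r with
    | zero => intro _; simp [solLin]
    | succ r ih =>
      intro hr
      have ih' := ih (by omega)
      have a0 := (h1 r (by omega)).trans (mul_le_mul_of_nonneg_right (hsum r (by omega)) hg)
      have a1 := (hR _).trans a0
      have a2 := hF r (by omega)
      have a3 := map_add_le_add t (solLin R P w F r
        - w r • (P (solLin R P w F r) + R (P (solLin R P w F r)))) (w r • F r)
      have a4 := map_sub_le_add t (solLin R P w F r)
        (w r • (P (solLin R P w F r) + R (P (solLin R P w F r))))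
      have a5 := map_add_le_add t (P (solLin R P w F r)) (R (P (solLin R P w F r)))
      rw [hsm _ _ (hw r).1] at a3 a4
      rw [solLin, sum_range_succ]
      have a6 := mul_le_mul_of_nonneg_left (a5.trans (add_le_add a0 a1)) (hw r).1
      have a7 := mul_le_mul_of_nonneg_left a2 (hw r).1
      nlinarith
  intro r hr
  refine (h2 r hr).trans ((mul_le_mul_of_nonneg_right (hsum r hr) (by positivity)).trans_eq ?_)
  ring

/-- the feedback operator. -/
def fbLin (R P N : E →ₗ[ℝ] E) (w : ℕ → ℝ) (ξ : ℕ → E) : ℕ → E :=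
  solLin R P w fun r => -(N (ξ r) + R (N (ξ r)))

lemma fb_add_lin (R P N : E →ₗ[ℝ] E) (w : ℕ → ℝ) {a b c : ℕ → E} {s : ℕ}
    (h : ∀ r ≤ s, a r = b r + c r) :
    ∀ r ≤ s, fbLin R P N w a r = fbLin R P N w b r + fbLin R P N w c r := by
  refine sol_add_lin R P w fun r hr => ?_
  rw [h r hr.le]
  simp only [map_add]
  abel

lemma fb_iter_lin (t : Seminorm ℝ E) {R P N : E →ₗ[ℝ] E} {w : ℕ → ℝ} {a : ℕ → E} {s : ℕ}
    {τ g c : ℝ} (hR : ∀ φ, t (R φ) ≤ t φ) (hP : ∀ φ, t (P φ) ≤ t φ) (hPP : ∀ φ, P (P φ) = P φ)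
    (hN : ∀ φ, t (N φ) ≤ c * t φ) (hc : 0 ≤ c)
    (hw : ∀ r, 0 ≤ w r ∧ w r ≤ 1) (hτ : ∑ r ∈ range s, w r ≤ τ) (hg : 0 ≤ g)
    (ha : ∀ r ≤ s, t (a r) ≤ g) (i : ℕ) :
    ∀ r ≤ s, t ((fbLin R P N w)^[i] a r) ≤ (2 * c * (τ + 2 * τ ^ 2)) ^ i * g := by
  have hτ0 : 0 ≤ τ := (sum_nonneg fun i _ => (hw i).1).trans hτ
  induction i with
  | zero => simpa using ha
  | succ i ih =>
    intro r hr
    rw [Function.iterate_succ_apply']
    refine (sol_bound_lin t (g := 2 * c * ((2 * c * (τ + 2 * τ ^ 2)) ^ i * g)) hR hP hPP hw hτ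
      (by positivity) (fun r' hr' => ?_) r hr).trans_eq (by ring)
    have a1 := (hN _).trans (mul_le_mul_of_nonneg_left (ih r' hr'.le) hc)
    have a2 := (hR _).trans a1
    rw [map_neg_eq_map]
    exact (map_add_le_add t _ _).trans (by linarith)

end lin

theorem lin_ok : LinS := by
  intro E _ _ p q R P N γ C1 C2 τ g Ξ w ξ f s J pR qR pP qP hPP pN qN hγ hC1 hC2 hpq hqp hw hτ hg
    h0 hrec hf hΞ
  have hτ0 : 0 ≤ τ := (sum_nonneg fun i _ => (hw i).1).trans hτ
  have hΞ0 : 0 ≤ Ξ := (apply_nonneg p _).trans (hΞ 0 (Nat.zero_le s))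
  have base : ∀ r ≤ s, ξ r = solLin R P w f r + fbLin R P N w ξ r := by
    intro r
    induction r with
    | zero => intro _; simp [h0, fbLin, solLin]
    | succ r ih =>
      intro hr
      have ih' := ih (by omega)
      have e1 : P (ξ r) = P (solLin R P w f r) + P (fbLin R P N w ξ r) := by rw [← map_add, ← ih']
      have e2 : fbLin R P N w ξ (r + 1) = fbLin R P N w ξ r
          - w r • (P (fbLin R P N w ξ r) + R (P (fbLin R P N w ξ r)))
          + w r • -(N (ξ r) + R (N (ξ r))) := rfl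
      rw [hrec r (by omega), e2, solLin, e1]
      generalize N (ξ r) = y
      rw [ih']
      simp only [map_add, smul_add, smul_neg, neg_add]
      abel
  have step : ∀ i, ∀ r ≤ s, (fbLin R P N w)^[i] ξ r
      = (fbLin R P N w)^[i] (solLin R P w f) r + (fbLin R P N w)^[i + 1] ξ r := by
    intro i
    induction i with
    | zero => simpa using base
    | succ i ih =>
      rw [Function.iterate_succ_apply', Function.iterate_succ_apply',
        Function.iterate_succ_apply' _ (i + 1)]
      exact fb_add_lin R P N w ih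
  have b1 := fb_iter_lin p pR pP hPP pN (by norm_num) hw hτ (by positivity)
    (sol_bound_lin p pR pP hPP hw hτ hg hf)
  have b2 := fb_iter_lin q (g := C2 * Ξ) qR qP hPP qN hγ hw hτ (by positivity)
    (fun r hr => (hqp _).trans (mul_le_mul_of_nonneg_left (hΞ r hr) hC2)) J
  intro r hr
  have key : ∀ K, p (ξ r) ≤ (∑ i ∈ range K, (4 * (τ + 2 * τ ^ 2)) ^ i) * ((τ + 2 * τ ^ 2) * g)
      + p ((fbLin R P N w)^[K] ξ r) := by
    intro K
    induction K with
    | zero => simp
    | succ K ih =>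
      have a1 := map_add_le_add p ((fbLin R P N w)^[K] (solLin R P w f) r)
        ((fbLin R P N w)^[K + 1] ξ r)
      have a2 := b1 K r hr
      rw [← step K r hr] at a1
      rw [sum_range_succ, add_mul]
      norm_num at a2
      linarith
  refine (key J).trans (add_le_add_right ((hpq _).trans ?_) _)
  exact (mul_le_mul_of_nonneg_left (b2 r hr) hC1).trans_eq (by ring)

end Vale.Agent.P046
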