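import Vale.Agent.P046.Walk

/-! P046 task Link: weighted count of walks in a link. -/

namespace Vale.Agent.P046

open Finset Vale.Agent.P015

variable {V : Type} [Fintype V] [DecidableEq V]

/-- the weighted number of walks -/
noncomputable def S_link (q : ℝ) (u y : V) (L : ℕ) (x : V) (H : Finset (Sym2 V)) : ℝ :=
  sumL L (fun vs => if u ∈ vs then 0 else q ^ (lk u x vs y \ H).card)

lemma card_link {α : Type} [DecidableEq α] (a b : α) (T H : Finset α) :
    (insert a (insert b T) \ H).card =
      (({a, b} : Finset α) \ H).card + (T \ insert a (insert b H)).card := by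
  rw [← Finset.card_union_of_disjoint]
  · congr 1
    ext e
    simp only [mem_sdiff, mem_insert, mem_union, mem_singleton]
    tauto
  · rw [Finset.disjoint_left]
    intro e h1 h2
    simp only [mem_sdiff, mem_insert, mem_singleton] at h1 h2
    tauto

lemma succ_link (q : ℝ) (u y : V) (L : ℕ) (x : V) (H : Finset (Sym2 V)) :
    S_link q u y (L + 1) x H = ∑ v, if v = u then 0 else
      q ^ (({s(x, v), s(u, v)} : Finset (Sym2 V)) \ H).card *
        S_link q u y L v (insert s(x, v) (insert s(u, v) H)) := by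
  simp only [S_link, sumL]
  refine Finset.sum_congr rfl fun v _ => ?_
  split_ifs with h
  · subst h
    simp
  · rw [← sumL_mul_left]
    refine sumL_congr L fun l _ => ?_
    have h' : u ≠ v := fun e => h e.symm
    simp only [List.mem_cons, h', false_or, lk]
    split_ifs
    · simp
    · rw [card_link, pow_add]

lemma nonneg_link {q : ℝ} (hq : 0 ≤ q) (u y : V) (L : ℕ) (x : V) (H : Finset (Sym2 V)) :
    0 ≤ S_link q u y L x H :=
  sumL_nonneg L fun l _ => by
    split_ifs
    · exact le_rfl
    · positivity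

omit [Fintype V] in
lemma new_link {u x v : V} {H : Finset (Sym2 V)} {U : Finset V} (hx : x ≠ u) (hxU : x ∈ U)
    (hH : ∀ e ∈ H, ∀ v ∈ e, v ∈ U) (hv : v ∉ U) :
    (({s(x, v), s(u, v)} : Finset (Sym2 V)) \ H).card = 2 := by
  have h1 : s(x, v) ∉ H := fun h => hv (hH _ h v (by simp))
  have h2 : s(u, v) ∉ H := fun h => hv (hH _ h v (by simp))
  have h3 : s(x, v) ≠ s(u, v) := by
    intro h
    rcases Sym2.eq_iff.1 h with h | h
    · exact hx h.1
    · exact hv (h.1 ▸ hxU)
  rw [Finset.sdiff_eq_self_of_disjoint (by simp [h1, h2]), Finset.card_pair h3]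

omit [Fintype V] in
lemma vert_link {u x v : V} {H : Finset (Sym2 V)} {U : Finset V} (hu : u ∈ U) (hx : x ∈ U)
    (hv : v ∈ U) (hH : ∀ e ∈ H, ∀ v ∈ e, v ∈ U) :
    ∀ e ∈ insert s(x, v) (insert s(u, v) H), ∀ w ∈ e, w ∈ U := by
  intro e he w hw
  simp only [mem_insert] at he
  rcases he with rfl | rfl | he
  · rcases Sym2.mem_iff.1 hw with rfl | rfl <;> assumption
  · rcases Sym2.mem_iff.1 hw with rfl | rfl <;> assumption
  · exact hH e he w hw

lemma split_link {U : Finset V} {f : V → ℝ} {a b m : ℝ} (ha : 0 ≤ a) (hb : 0 ≤ b)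
    (hm : (U.card : ℝ) ≤ m) (h1 : ∀ v, v ∉ U → f v ≤ a) (h2 : ∀ v ∈ U, f v ≤ b) :
    ∑ v, f v ≤ Fintype.card V * a + m * b := by
  have h3 : ∑ v, f v ≤ ∑ v, (a + if v ∈ U then b else 0) := by
    refine Finset.sum_le_sum fun v _ => ?_
    split_ifs with h
    · linarith [h2 v h]
    · linarith [h1 v h]
  refine h3.trans ?_
  rw [Finset.sum_add_distrib, Finset.sum_ite_mem, Finset.univ_inter]
  simp only [sum_const, card_univ, nsmul_eq_mul]
  gcongr

lemma crude_link {q m : ℝ} (hq : 0 ≤ q) (hq1 : q ≤ 1) (u y : V) (L : ℕ) :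
    ∀ (x : V) (H : Finset (Sym2 V)) (U : Finset V), x ≠ u → u ∈ U → x ∈ U →
      (∀ e ∈ H, ∀ v ∈ e, v ∈ U) → (U.card : ℝ) + L ≤ m →
      S_link q u y L x H ≤ (Fintype.card V * q ^ 2 + m) ^ L := by
  induction L with
  | zero =>
    intro x H U _ _ _ _ _
    simp only [S_link, sumL, List.not_mem_nil, if_false, pow_zero]
    exact pow_le_one₀ hq hq1
  | succ L ih =>
    intro x H U hx hu hxU hH hm
    have hL : (0 : ℝ) ≤ L := Nat.cast_nonneg L
    have hU : (0 : ℝ) ≤ U.card := Nat.cast_nonneg _
    push_cast at hm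
    have hm0 : 0 ≤ m := by linarith
    have hB : 0 ≤ (Fintype.card V * q ^ 2 + m) ^ L := by positivity
    rw [succ_link]
    refine (split_link (U := U) (a := q ^ 2 * (Fintype.card V * q ^ 2 + m) ^ L)
      (b := (Fintype.card V * q ^ 2 + m) ^ L) (m := m) (by positivity) hB (by linarith)
      (fun v hv => ?_) fun v hv => ?_).trans (le_of_eq (by ring))
    · have hvu : v ≠ u := fun h => hv (h ▸ hu)
      rw [if_neg hvu, new_link hx hxU hH hv]
      refine mul_le_mul_of_nonneg_left (ih v _ (insert v U) hvu (mem_insert_of_mem hu)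
        (mem_insert_self _ _) (vert_link (mem_insert_of_mem hu) (mem_insert_of_mem hxU)
          (mem_insert_self _ _) fun e he w hw => mem_insert_of_mem (hH e he w hw)) ?_)
        (by positivity)
      rw [Finset.card_insert_of_notMem hv]
      push_cast
      linarith
    · split_ifs with hvu
      · exact hB
      · have h1 := ih v _ U hvu hu hv (vert_link hu hxU hv hH) (by linarith)
        exact (mul_le_of_le_one_left (nonneg_link hq _ _ _ _ _) (pow_le_one₀ hq hq1)).trans h1

lemma main_link {q m s : ℝ} (hq : 0 ≤ q) (hq1 : q ≤ 1) (hs : 1 ≤ s)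
    (hs2 : s ^ 2 = Fintype.card V * q ^ 2) (u y : V) (hy : y ≠ u) (L : ℕ) :
    ∀ (x : V) (H : Finset (Sym2 V)) (U : Finset V) (d : V → ℕ), x ≠ u → u ∈ U → x ∈ U →
      s(u, y) ∈ H → (∀ e ∈ H, ∀ v ∈ e, v ∈ U) → (U.card : ℝ) + L ≤ m → d y = 0 →
      (∀ a b, s(a, b) ∈ H → a ≠ u → b ≠ u → d a ≤ d b + 1) →
      S_link q u y L x H ≤ q * (Fintype.card V * q ^ 2 + m) ^ L +
        s ^ (L + 1) / s ^ d x * (1 + m) ^ (L + 1) := by
  have hs0 : 0 < s := by linarith
  induction L with
  | zero =>
    intro x H U d hx _ _ huy _ hm hd0 hd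
    have hU : (0 : ℝ) ≤ U.card := Nat.cast_nonneg _
    have hm0 : 0 ≤ m := by
      push_cast at hm
      linarith
    simp only [S_link, sumL, List.not_mem_nil, if_false, pow_zero, lk, zero_add, pow_one, mul_one]
    by_cases hxy : s(x, y) ∈ H
    · have h1 : d x ≤ 1 := by simpa [hd0] using hd x y hxy hx hy
      have h2 : 1 ≤ s / s ^ d x := by
        rw [le_div_iff₀ (by positivity), one_mul]
        simpa using pow_le_pow_right₀ hs h1
      have h3 : q ^ (({s(x, y), s(u, y)} : Finset (Sym2 V)) \ H).card ≤ 1 := pow_le_one₀ hq hq1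
      nlinarith
    · have h1 : 1 ≤ (({s(x, y), s(u, y)} : Finset (Sym2 V)) \ H).card :=
        Finset.card_pos.2 ⟨s(x, y), by simp [hxy]⟩
      have h2 := pow_le_pow_of_le_one hq hq1 h1
      have h3 : 0 ≤ s / s ^ d x * (1 + m) := by positivity
      rw [pow_one] at h2
      linarith
  | succ L ih =>
    intro x H U d hx hu hxU huy hH hm hd0 hd
    have hL : (0 : ℝ) ≤ L := Nat.cast_nonneg L
    have hU : (0 : ℝ) ≤ U.card := Nat.cast_nonneg _
    push_cast at hm
    have hm0 : 0 ≤ m := by linarith
    have hB : 0 ≤ q * (Fintype.card V * q ^ 2 + m) ^ L := by positivity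
    have hC : 0 ≤ s ^ (L + 2) / s ^ d x * (1 + m) ^ (L + 1) := by positivity
    rw [succ_link]
    refine (split_link (U := U) (a := q ^ 2 * (q * (Fintype.card V * q ^ 2 + m) ^ L +
        s ^ (L + 1) / s ^ (d x + 1) * (1 + m) ^ (L + 1)))
      (b := q * (Fintype.card V * q ^ 2 + m) ^ L + s ^ (L + 2) / s ^ d x * (1 + m) ^ (L + 1))
      (m := m) (by positivity) (by positivity) (by linarith)
      (fun v hv => ?_) fun v hv => ?_).trans (le_of_eq ?_)
    · have hvu : v ≠ u := fun h => hv (h ▸ hu)
      have hxv : x ≠ v := fun h => hv (h ▸ hxU)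
      have hyv : y ≠ v := fun h => hv (h ▸ hH _ huy y (by simp))
      rw [if_neg hvu, new_link hx hxU hH hv]
      refine mul_le_mul_of_nonneg_left ?_ (by positivity)
      have h1 := ih v (insert s(x, v) (insert s(u, v) H)) (insert v U)
        (Function.update d v (d x + 1)) hvu (mem_insert_of_mem hu)
        (mem_insert_self _ _) (mem_insert_of_mem (mem_insert_of_mem huy))
        (vert_link (mem_insert_of_mem hu) (mem_insert_of_mem hxU)
          (mem_insert_self _ _) fun e he w hw => mem_insert_of_mem (hH e he w hw)) ?_ ?_ ?_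
      · rwa [Function.update_self] at h1
      · rw [Finset.card_insert_of_notMem hv]
        push_cast
        linarith
      · rw [Function.update_of_ne hyv, hd0]
      · intro a b hab ha hb
        simp only [mem_insert] at hab
        rcases hab with hab | hab | hab
        · rcases Sym2.eq_iff.1 hab with ⟨rfl, rfl⟩ | ⟨rfl, rfl⟩
          · rw [Function.update_self, Function.update_of_ne hxv]
            omega
          · rw [Function.update_self, Function.update_of_ne hxv]
        · rcases Sym2.eq_iff.1 hab with ⟨h, -⟩ | ⟨-, h⟩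
          · exact absurd h ha
          · exact absurd h hb
        · have hav : a ≠ v := fun h => hv (h ▸ hH _ hab a (by simp))
          have hbv : b ≠ v := fun h => hv (h ▸ hH _ hab b (by simp))
          rw [Function.update_of_ne hav, Function.update_of_ne hbv]
          exact hd a b hab ha hb
    · split_ifs with hvu
      · positivity
      · by_cases hold : s(x, v) ∈ H ∧ s(u, v) ∈ H
        · rw [Finset.insert_eq_of_mem hold.2, Finset.insert_eq_of_mem hold.1]
          have h1 := ih v H U d hvu hu hv huy hH (by linarith) hd0 hd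
          have h2 : s ^ (L + 1) / s ^ d v ≤ s ^ (L + 2) / s ^ d x := by
            rw [div_le_div_iff₀ (by positivity) (by positivity), ← pow_add, ← pow_add]
            refine pow_le_pow_right₀ hs ?_
            have := hd x v hold.1 hx hvu
            omega
          refine (mul_le_of_le_one_left (nonneg_link hq _ _ _ _ _) (pow_le_one₀ hq hq1)).trans
            (h1.trans ?_)
          gcongr
        · have h1 : 1 ≤ (({s(x, v), s(u, v)} : Finset (Sym2 V)) \ H).card := by
            refine Finset.card_pos.2 ?_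
            rcases not_and_or.1 hold with h | h
            · exact ⟨s(x, v), by simp [h]⟩
            · exact ⟨s(u, v), by simp [h]⟩
          have h2 := pow_le_pow_of_le_one hq hq1 h1
          rw [pow_one] at h2
          have h3 := crude_link (m := m) hq hq1 u y L v _ U hvu hu hv (vert_link hu hxU hv hH)
            (by linarith)
          have h4 := mul_le_mul h2 h3 (nonneg_link hq _ _ _ _ _) hq
          linarith
    · have h1 : (Fintype.card V : ℝ) * q ^ 2 * (s ^ (L + 1) / s ^ (d x + 1)) =
          s ^ (L + 1 + 1) / s ^ d x := by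
        rw [← hs2]
        field_simp
        ring
      rw [← h1]
      ring

theorem link_ok : LinkS := by
  intro V _ _ q m u x y L H U hq hq1 hD hx hy hu hxU huy hH hm
  have h := main_link (m := m) hq hq1 (Real.one_le_sqrt.2 hD) (Real.sq_sqrt (by linarith)) u y hy L
    x H U (fun _ => 0) hx hu hxU huy hH hm rfl fun _ _ _ _ _ => Nat.zero_le _
  simpa only [pow_zero, div_one, S_link] using h

end Vale.Agent.P046
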