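import Vale.Agent.P046.Walk

/-! # P046: assembly of the second moment bound -/

set_option linter.unusedSectionVars false

namespace Vale.Agent.P046

open Finset Vale.Agent.P015

variable {V : Type} [Fintype V] [DecidableEq V]

lemma mE_eq_main (G : SimpleGraph V) : mE G = 2 * (G.edgeSet.ncard : ℝ) := by
  classical
  have h := G.sum_degrees_eq_twice_card_edges
  have h2 : G.edgeSet.ncard = G.edgeFinset.card := by
    rw [← SimpleGraph.coe_edgeFinset, Set.ncard_coe_finset]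
  have h3 : ∀ a, ∑ b, ind {s(a, b)} G = (G.degree a : ℝ) := by
    intro a
    simp only [ind_single]
    rw [Finset.sum_boole, ← SimpleGraph.card_neighborFinset_eq_degree,
      SimpleGraph.neighborFinset_eq_filter]
  rw [mE, h2]
  simp only [h3]
  exact_mod_cast h

lemma mE_le_main (G : SimpleGraph V) : mE G ≤ (Fintype.card V : ℝ) ^ 2 := by
  calc mE G ≤ ∑ _a : V, ∑ _b : V, (1 : ℝ) :=
        Finset.sum_le_sum fun a _ => Finset.sum_le_sum fun b _ => ind_le_one _ _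
    _ = _ := by simp [sq]

lemma mE_nonneg_main (G : SimpleGraph V) : 0 ≤ mE G :=
  Finset.sum_nonneg fun _ _ => Finset.sum_nonneg fun _ _ => ind_nonneg _ _

lemma tsq_main (n : ℝ) (hn : 0 ≤ n) : (n ^ ((3 : ℝ) / 2) / Real.sqrt 2) ^ 2 = n ^ 3 / 2 := by
  rw [div_pow, Real.sq_sqrt (by norm_num), ← Real.rpow_natCast, ← Real.rpow_mul hn]
  norm_num

lemma dev_eq_main (G : SimpleGraph V) :
    dev G = (mE G - (Fintype.card V : ℝ) ^ ((3 : ℝ) / 2) / Real.sqrt 2) ^ 2 / 4 := by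
  have : Real.sqrt 2 ≠ 0 := by positivity
  rw [dev, mE_eq_main]; field_simp; ring

lemma dev_le_main (hn : (1 : ℝ) ≤ Fintype.card V) (G : SimpleGraph V) :
    0 ≤ dev G ∧ dev G ≤ (Fintype.card V : ℝ) ^ 4 := by
  refine ⟨sq_nonneg _, ?_⟩
  have h1 := mE_le_main G
  have h2 := mE_nonneg_main G
  have h3 := tsq_main (Fintype.card V : ℝ) (by linarith)
  rw [dev_eq_main]
  generalize (Fintype.card V : ℝ) ^ ((3 : ℝ) / 2) / Real.sqrt 2 = t at *
  generalize (Fintype.card V : ℝ) = n at *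
  have h4 : n ^ 3 ≤ n ^ 4 := pow_le_pow_right₀ hn (by norm_num)
  have h5 : mE G ^ 2 ≤ (n ^ 2) ^ 2 := pow_le_pow_left₀ h2 h1 2
  have h6 : (n ^ 2) ^ 2 = n ^ 4 := by ring
  nlinarith [sq_nonneg (mE G + t)]

lemma yE_close_main {G : SimpleGraph V} {ν D : ℝ} {M : ℕ} (hM : 0 < M) (hO : Ode G ν D M) :
    |yE G M - mE G / Real.sqrt (1 + 2 * D)| ≤ mE G / Real.sqrt (1 + 2 * D) / ν ^ 19 := by
  have h1 : mE G / Real.sqrt (1 + 2 * D) = ∑ a, ∑ b, ind {s(a, b)} G * rbar D M M := by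
    rw [rbar_self D hM, mE]; simp only [← Finset.sum_mul]; ring
  rw [h1, yE, ← Finset.sum_sub_distrib, Finset.sum_div]
  refine (Finset.abs_sum_le_sum_abs _ _).trans (Finset.sum_le_sum fun a _ => ?_)
  rw [← Finset.sum_sub_distrib, Finset.sum_div]
  refine (Finset.abs_sum_le_sum_abs _ _).trans (Finset.sum_le_sum fun b _ => ?_)
  rw [ind_single]
  split_ifs with h
  · simpa using (hO M le_rfl a b h).1
  · simp

open Classical in
/-- the variance term. -/
noncomputable def WW (G : SimpleGraph V) (D : ℝ) (M : ℕ) : ℝ :=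
  ∑ a, ∑ b, ∑ c, ∑ d, ind {s(a, b), s(c, d)} G *
    if Dis a b c d then 3 * conf G M (kap (fun s => 11 / 10 * rbar D M s) M M) a b c d else 1

lemma good_bound_main (hR : RankS) (hV : VarS) {h : SimpleGraph V → ℝ} (hh : Harm dev h)
    (hn : (1 : ℝ) ≤ Fintype.card V) {G : SimpleGraph V} {ν D : ℝ} (hν : 1 ≤ ν)
    (hO : Ode G ν D (Fintype.card V ^ 8)) :
    h G ≤ WW G D (Fintype.card V ^ 8) + 3 * (mE G / Real.sqrt (1 + 2 * D)
      - (Fintype.card V : ℝ) ^ ((3 : ℝ) / 2) / Real.sqrt 2) ^ 2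
      + ((Fintype.card V : ℝ) ^ 3 / ν ^ 38 + (Fintype.card V : ℝ) ^ 2) := by
  have hn' : 0 < Fintype.card V := by exact_mod_cast (show (0 : ℝ) < Fintype.card V by linarith)
  have hM : 0 < Fintype.card V ^ 8 := pow_pos hn' 8
  have h1 := hR V dev h _ _ G hh (dev_le_main hn) hM
  have h2 := hV V G _ (fun s => 11 / 10 * rbar D (Fintype.card V ^ 8) s) hM
    fun s hs a b hab => (hO s hs a b hab).2
  have h3 := yE_close_main hM hO
  have h4 := tsq_main (Fintype.card V : ℝ) (by linarith)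
  have h5 : (Fintype.card V : ℝ) ^ 4 * (Fintype.card V : ℝ) ^ 6 / ((Fintype.card V ^ 8 : ℕ) : ℝ)
      = (Fintype.card V : ℝ) ^ 2 := by
    push_cast; field_simp
  rw [h5] at h1
  change _ ≤ WW G D (Fintype.card V ^ 8) at h2
  simp only [dev_eq_main] at h1
  generalize (Fintype.card V : ℝ) ^ ((3 : ℝ) / 2) / Real.sqrt 2 = t at *
  generalize mE G / Real.sqrt (1 + 2 * D) = m at *
  generalize yE G (Fintype.card V ^ 8) = Y at *
  have hp : 1 ≤ ν ^ 38 := one_le_pow₀ hν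
  have h6 : (Y - m) ^ 2 ≤ m ^ 2 / ν ^ 38 := by
    have := sq_le_sq' (abs_le.mp h3).1 (abs_le.mp h3).2
    rwa [div_pow, ← pow_mul] at this
  have h7 : m ^ 2 / ν ^ 38 ≤ (2 * (m - t) ^ 2 + 2 * t ^ 2) / ν ^ 38 :=
    div_le_div_of_nonneg_right (by nlinarith [sq_nonneg (m - 2 * t)]) (by linarith)
  have h8 : 2 * (m - t) ^ 2 / ν ^ 38 ≤ 2 * (m - t) ^ 2 := div_le_self (by positivity) hp
  have h9 : (Y - m) ^ 2 ≤ 2 * (m - t) ^ 2 + (Fintype.card V : ℝ) ^ 3 / ν ^ 38 := by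
    rw [add_div, h4, mul_div_cancel₀ _ (by norm_num : (2 : ℝ) ≠ 0)] at h7; linarith
  have h10 : ((rlaw V (Fintype.card V ^ 8)).E fun ω =>
      (mE (finG G (Fintype.card V ^ 8) ω) - t) ^ 2 / 4)
      ≤ (rlaw V (Fintype.card V ^ 8)).E fun ω =>
        (mE (finG G (Fintype.card V ^ 8) ω) - Y) ^ 2 + ((Y - m) ^ 2 + (m - t) ^ 2) := by
    refine FP.E_mono _ fun ω => ?_
    generalize mE (finG G (Fintype.card V ^ 8) ω) = F
    nlinarith [sq_nonneg (F - Y - (Y - m)), sq_nonneg (F - Y - (m - t)), sq_nonneg (Y - m - (m - t)),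
      sq_nonneg (F - Y), sq_nonneg (Y - m), sq_nonneg (m - t)]
  rw [FP.E_add, FP.E_const] at h10
  linarith

lemma conf_nonneg_main (G : SimpleGraph V) (M : ℕ) {κ : ℝ} (hκ : 0 ≤ κ) (a b c d : V) :
    0 ≤ conf G M κ a b c d := by
  refine Finset.sum_nonneg fun i _ => Finset.sum_nonneg fun k _ => Finset.sum_nonneg fun m _ => ?_
  have : 0 ≤ cnt G a b c d i k m := sumL_nonneg _ fun l _ => by split_ifs <;> norm_num
  unfold wt; positivity

lemma WW_nonneg_main (G : SimpleGraph V) (D : ℝ) (M : ℕ) : 0 ≤ WW G D M := by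
  refine Finset.sum_nonneg fun a _ => Finset.sum_nonneg fun b _ => Finset.sum_nonneg fun c _ =>
    Finset.sum_nonneg fun d _ => mul_nonneg (ind_nonneg _ _) ?_
  split_ifs
  · refine mul_nonneg (by norm_num) (conf_nonneg_main G M ?_ a b c d)
    unfold kap; positivity
  · norm_num

lemma elim_add_main {α : Type} (o : Option α) (f g : α → ℝ) :
    (o.elim 0 fun x => f x + g x) = o.elim 0 f + o.elim 0 g := by cases o <;> simp

lemma elim_sum_main {α ι : Type} [Fintype ι] (o : Option α) (f : ι → α → ℝ) :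
    (o.elim 0 fun x => ∑ i, f i x) = ∑ i, o.elim 0 (f i) := by cases o <;> simp

lemma elim_mul_main {α : Type} (o : Option α) (c : ℝ) (f : α → ℝ) :
    (o.elim 0 fun x => c * f x) = c * o.elim 0 f := by cases o <;> simp

open Classical in
lemma E_WW_main (μ : FP (Option (SimpleGraph V))) (D : ℝ) (M : ℕ) {x y : ℝ} (hx : 0 ≤ x)
    (h1 : ∀ a b c d : V, Dis a b c d → (μ.E fun o => o.elim 0 fun G => ind {s(a, b), s(c, d)} G *
      conf G M (kap (fun s => 11 / 10 * rbar D M s) M M) a b c d) ≤ x)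
    (h2 : (μ.E fun o => o.elim 0 fun G => ∑ a, ∑ b, ∑ c, ∑ d,
      if Dis a b c d then 0 else ind {s(a, b), s(c, d)} G) ≤ y) :
    (μ.E fun o => o.elim 0 fun G => WW G D M) ≤ (Fintype.card V : ℝ) ^ 4 * (3 * x) + y := by
  have h3 : ∀ G : SimpleGraph V, WW G D M = (∑ a, ∑ b, ∑ c, ∑ d, if Dis a b c d then
      3 * (ind {s(a, b), s(c, d)} G * conf G M (kap (fun s => 11 / 10 * rbar D M s) M M) a b c d)
      else 0) + ∑ a, ∑ b, ∑ c, ∑ d, if Dis a b c d then 0 else ind {s(a, b), s(c, d)} G := by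
    intro G
    simp only [WW, ← Finset.sum_add_distrib]
    refine Finset.sum_congr rfl fun a _ => Finset.sum_congr rfl fun b _ =>
      Finset.sum_congr rfl fun c _ => Finset.sum_congr rfl fun d _ => ?_
    split_ifs <;> ring
  simp only [h3, elim_add_main, FP.E_add]
  refine add_le_add ?_ h2
  simp only [elim_sum_main, FP.E_sum]
  calc _ ≤ ∑ _a : V, ∑ _b : V, ∑ _c : V, ∑ _d : V, 3 * x := by
        refine Finset.sum_le_sum fun a _ => Finset.sum_le_sum fun b _ =>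
          Finset.sum_le_sum fun c _ => Finset.sum_le_sum fun d _ => ?_
        by_cases hd : Dis a b c d
        · simp only [hd, if_true, elim_mul_main, FP.E_mul_left]
          linarith [h1 a b c d hd]
        · simp only [hd, if_false]
          refine FP.E_le_of_ae _ fun o _ => ?_
          cases o <;> simp <;> linarith
    _ = _ := by simp; ring

lemma num_main {ν n p D : ℝ} (hν : 10 ≤ ν) (hn : ν ^ 4000 = n) (hD : D ≤ 2 * ν ^ 100)
    (hp : p ^ 2 * (n - 2) = D) :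
    n ^ 4 * (1 / n ^ 2) + n ^ 4 * (1 / n ^ 2) + ((n ^ 4 * (3 * (p ^ 2 / ν ^ 200)) + n ^ 3 / ν ^ 2)
      + 3 * (n ^ 3 / ν ^ 2) + (n ^ 3 / ν ^ 38 + n ^ 2)) ≤ n ^ 3 / ν := by
  have h0 : 0 < ν := by linarith
  have h1 : 1 ≤ ν := by linarith
  have h2 : ν ^ 2 ≤ n := hn ▸ pow_le_pow_right₀ h1 (by norm_num)
  have h3 : 100 ≤ ν ^ 2 := by nlinarith
  have hn0 : 0 < n := by linarith
  have h4 : n ^ 4 * (1 / n ^ 2) = n ^ 2 := by field_simp
  have h5 : n ^ 2 ≤ n ^ 3 / ν ^ 2 := by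
    rw [le_div_iff₀ (by positivity), pow_succ n 2]
    exact mul_le_mul_of_nonneg_left h2 (by positivity)
  have h6 : n ^ 3 / ν ^ 38 ≤ n ^ 3 / ν ^ 2 :=
    div_le_div_of_nonneg_left (by positivity) (by positivity) (pow_le_pow_right₀ h1 (by norm_num))
  have h7 : n * p ^ 2 ≤ 4 * ν ^ 100 := by nlinarith [sq_nonneg p]
  have h8 : 12 * ν ^ 100 * ν ^ 2 ≤ ν ^ 200 := by
    have : ν ^ 200 = ν ^ 96 * ν ^ 2 * (ν ^ 100 * ν ^ 2) := by ring
    have h9 : 1 ≤ ν ^ 96 := one_le_pow₀ h1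
    have h10 : 12 ≤ ν ^ 96 * ν ^ 2 := by nlinarith
    rw [this, mul_assoc]
    exact mul_le_mul_of_nonneg_right h10 (by positivity)
  have h9 : n ^ 4 * (3 * (p ^ 2 / ν ^ 200)) ≤ n ^ 3 / ν ^ 2 := by
    have : n ^ 4 * (3 * (p ^ 2 / ν ^ 200)) = n ^ 3 * (3 * (n * p ^ 2)) / ν ^ 200 := by ring
    rw [this, div_le_div_iff₀ (by positivity) (by positivity), mul_assoc]
    refine mul_le_mul_of_nonneg_left (le_trans ?_ h8) (by positivity)
    exact mul_le_mul_of_nonneg_right (by linarith) (by positivity)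
  have h10 : 10 * (n ^ 3 / ν ^ 2) ≤ n ^ 3 / ν := by
    rw [← mul_div_assoc, div_le_div_iff₀ (by positivity) h0]
    have : 0 ≤ n ^ 3 * ν := by positivity
    nlinarith
  have h11 : 0 ≤ n ^ 3 / ν ^ 2 := by positivity
  rw [h4]; linarith

theorem main_ok (hH : HarmBdS) (hR : RankS) (h1 : St1S) (hG : GoodS) (hC : ConfS) (hV : VarS)
    (hE : EdgeS) : MainS := by
  classical
  obtain ⟨C1, h1⟩ := h1
  obtain ⟨C2, hG⟩ := hG
  obtain ⟨C3, hC⟩ := hC
  obtain ⟨C4, hE⟩ := hE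
  refine ⟨max (max C1 C2) (max (max C3 C4) 10), fun V _ _ ν hν hn h hh => ?_⟩
  simp only [max_le_iff] at hν
  obtain ⟨⟨c1, c2⟩, ⟨c3, c4⟩, c5⟩ := hν
  obtain ⟨D, p, μ, hS⟩ := h1 V ν c1 hn
  have hG := hG V ν c2 hn D p μ hS
  have hC := hC V ν c3 hn D p μ hS
  obtain ⟨hE1, hE2⟩ := hE V ν c4 hn D p μ hS
  have hν1 : 1 ≤ ν := by linarith
  have hn1 : (1 : ℝ) ≤ Fintype.card V := hn ▸ one_le_pow₀ hν1
  have hB := hH V dev h _ hh fun G => (dev_le_main hn1 G).2
  have hW := E_WW_main μ D _ (by positivity) hC hE2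
  have h2 := hS.harm dev h _ hh hB
  have hk := hS.kill
  rw [FP.Pr_eq_E] at hG hk
  refine le_trans ?_ (num_main c5 hn hS.hi hS.pD)
  refine h2.trans ?_
  have h4 : (0 : ℝ) ≤ (Fintype.card V : ℝ) ^ 4 := by positivity
  have h5 : (0 : ℝ) ≤ (Fintype.card V : ℝ) ^ 3 / ν ^ 38 + (Fintype.card V : ℝ) ^ 2 := by positivity
  refine le_trans ?_ (add_le_add (add_le_add (mul_le_mul_of_nonneg_left hk h4)
    (mul_le_mul_of_nonneg_left hG h4)) (add_le_add (add_le_add hW
      (mul_le_mul_of_nonneg_left hE1 (by norm_num))) le_rfl))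
  rw [← FP.E_mul_left, ← FP.E_mul_left, ← FP.E_mul_left,
    ← μ.E_const ((Fintype.card V : ℝ) ^ 3 / ν ^ 38 + (Fintype.card V : ℝ) ^ 2)]
  simp only [← FP.E_add]
  refine μ.E_mono fun o => ?_
  rcases o with _ | G
  · simp only [Option.elim_none, if_true, reduceCtorEq, false_and, exists_false, if_false]
    linarith
  · simp only [Option.elim_some, reduceCtorEq, if_false, Option.some.injEq, exists_eq_left']
    have h6 := WW_nonneg_main G D (Fintype.card V ^ 8)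
    by_cases hO : Ode G ν D (Fintype.card V ^ 8)
    · rw [if_neg (not_not.mpr hO)]
      linarith [good_bound_main hR hV hh hn1 hν1 hO]
    · rw [if_pos hO]
      have := sq_nonneg (mE G / Real.sqrt (1 + 2 * D)
        - (Fintype.card V : ℝ) ^ ((3 : ℝ) / 2) / Real.sqrt 2)
      linarith [hB G]

end Vale.Agent.P046
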