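import Vale.Agent.P046.Walk

/-! # P046: moments and mixing in the links -/

set_option linter.unusedSectionVars false

namespace Vale.Agent.P046

open Finset Vale.Agent.P015

variable {V : Type} [Fintype V] [DecidableEq V]

theorem mom_ok : MomS := by
  intro V _ _ μ q hm B L s r c S H hD hq hB hc hS
  induction r generalizing H with
  | zero =>
    intro h1 _
    simp only [pow_zero, mul_one]
    exact hD H (by simpa using h1)
  | succ r ih =>
    intro h1 h2
    have e : (fun o : Option (SimpleGraph V) => o.elim 0 fun G =>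
          ind H G * sumL L (fun l => c l * ind (S l) G) ^ (r + 1))
        = fun o => sumL L fun l => c l * o.elim 0 fun G =>
          ind (H ∪ S l) G * sumL L (fun l => c l * ind (S l) G) ^ r := by
      funext o
      cases o with
      | none => simp
      | some G =>
        simp only [Option.elim_some]
        generalize hX : sumL L (fun l => c l * ind (S l) G) ^ r = X
        rw [pow_succ, hX, ← mul_assoc, ← sumL_mul_left]
        exact sumL_congr L fun l _ => by rw [ind_union]; ring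
    rw [e, E_sumL]
    have key : ∀ l : List V, l.length = L → (μ.E fun o => c l * o.elim 0 fun G =>
          ind (H ∪ S l) G * sumL L (fun l => c l * ind (S l) G) ^ r)
        ≤ q ^ H.card * B ^ r * (c l * q ^ (S l \ H).card) := by
      intro l hl
      have h3 : (H ∪ S l).card = H.card + (S l \ H).card := by
        rw [← Finset.card_union_of_disjoint Finset.disjoint_sdiff, Finset.union_sdiff_self_eq_union]
      have h4 : (H ∪ S l).card ≤ H.card + s :=
        (Finset.card_union_le _ _).trans (Nat.add_le_add_left (hS l hl) _)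
      have h5 : ((H ∪ S l).card : ℝ) ≤ H.card + s := by exact_mod_cast h4
      have h6 := ih (H ∪ S l) (by push_cast at h1; linarith) fun H' h7 h8 =>
        h2 H' (Finset.subset_union_left.trans h7) (by rw [Nat.succ_mul]; omega)
      rw [FP.E_mul_left]
      refine (mul_le_mul_of_nonneg_left h6 (hc l)).trans (le_of_eq ?_)
      rw [h3, pow_add]; ring
    refine (sumL_mono L key).trans ?_
    rw [sumL_mul_left, pow_succ, ← mul_assoc]
    exact mul_le_mul_of_nonneg_left (h2 H le_rfl (Nat.le_add_right _ _)) (by positivity)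

lemma markov_mix (μ : FP (Option (SimpleGraph V))) (H : Finset (Sym2 V)) {X : SimpleGraph V → ℝ}
    {P : SimpleGraph V → Prop} {w : ℝ} (hw : 0 < w) (hX : ∀ G, 0 ≤ X G) (r : ℕ)
    (hP : ∀ G, P G → ind H G = 1 ∧ w ≤ X G) :
    (μ.Pr fun o => ∃ G, o = some G ∧ P G)
      ≤ (μ.E fun o => o.elim 0 fun G => ind H G * X G ^ r) / w ^ r := by
  classical
  rw [FP.Pr_eq_E, ← FP.E_div]
  refine μ.E_mono fun o => ?_
  split_ifs with h
  · obtain ⟨G, rfl, hG⟩ := h
    simp only [Option.elim_some, (hP G hG).1, one_mul]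
    rw [le_div_iff₀ (by positivity), one_mul]
    exact pow_le_pow_left₀ hw.le (hP G hG).2 r
  · cases o with
    | none => simp
    | some G =>
      have := hX G
      have := ind_nonneg H G
      simp only [Option.elim_some]
      positivity

lemma ratio_mix {ν n A : ℝ} {r : ℕ} (hν : 1 ≤ ν) (hn : ν ^ 4000 = n)
    (hl : 96000 * Real.log ν ≤ ν) (hr : ν ^ 11 ≤ r) (hA : 0 < A) :
    (A * (1 + 1 / ν ^ 10 / 2)) ^ r / (A * (1 + 1 / ν ^ 10)) ^ r ≤ 1 / n ^ 6 := by
  have h0 : 0 < 1 / ν ^ 10 := by positivity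
  have h1 : 1 / ν ^ 10 ≤ 1 := div_le_one_of_le₀ (one_le_pow₀ hν) (by positivity)
  have h2 : ν ≤ r * (1 / ν ^ 10) := by
    rw [mul_one_div, le_div_iff₀ (by positivity), ← pow_succ']; exact hr
  generalize 1 / ν ^ 10 = η at *
  have h3 : A * (1 + η / 2) / (A * (1 + η)) ≤ Real.exp (-(η / 4)) := by
    refine le_trans ?_ (Real.add_one_le_exp _)
    rw [mul_div_mul_left _ _ hA.ne', div_le_iff₀ (by linarith)]
    nlinarith
  rw [← div_pow]
  refine (pow_le_pow_left₀ (by positivity) h3 r).trans ?_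
  have h4 : n ^ 6 = Real.exp (24000 * Real.log ν) := by
    rw [← hn, ← pow_mul, ← Real.exp_log (show 0 < ν ^ (4000 * 6) by positivity), Real.log_pow]
    norm_num
  rw [← Real.exp_nat_mul, h4, one_div, ← Real.exp_neg]
  exact Real.exp_le_exp.mpr (by linarith)

lemma cod_eq_mix (G : SimpleGraph V) (u : V) :
    cod G u u = sumL 1 fun l : List V => 1 * ind {s(u, l.headD u)} G := by
  classical
  simp only [sumL, List.headD_cons, one_mul, ind_single]
  rw [Finset.sum_boole, cod]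
  congr 2
  ext v; simp

lemma deg_sum_mix {q : ℝ} (hq : 0 ≤ q) (u : V) (H : Finset (Sym2 V)) :
    (sumL 1 fun l : List V => 1 * q ^ (({s(u, l.headD u)} : Finset (Sym2 V)) \ H).card)
      ≤ Fintype.card V * q + H.card := by
  simp only [sumL, List.headD_cons, one_mul]
  have h1 : ∀ v : V, q ^ (({s(u, v)} : Finset (Sym2 V)) \ H).card
      ≤ q + if s(u, v) ∈ H then 1 else 0 := by
    intro v
    split_ifs with h
    · rw [Finset.sdiff_eq_empty_iff_subset.mpr (Finset.singleton_subset_iff.mpr h)]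
      simpa using hq
    · rw [Finset.sdiff_eq_self_of_disjoint (Finset.disjoint_singleton_left.mpr h)]
      simp
  refine (Finset.sum_le_sum fun v _ => h1 v).trans ?_
  rw [Finset.sum_add_distrib, Finset.sum_const, Finset.card_univ, nsmul_eq_mul, Finset.sum_boole]
  refine add_le_add le_rfl (Nat.cast_le.mpr ?_)
  refine Finset.card_le_card_of_injOn (fun v => s(u, v)) (fun v hv => ?_) fun v _ v' _ h => ?_
  · exact (Finset.mem_filter.mp (Finset.mem_coe.mp hv)).2
  · exact Sym2.congr_right.mp h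

lemma linkW_eq_mix (G : SimpleGraph V) (u y : V) : ∀ (L : ℕ) (x : V),
    linkW G u (L + 1) x y = sumL L fun vs => ind (lk u x vs y) G
  | 0, x => by
    classical
    have h := ind_two x u y ∅ G
    simp only [linkW, sumL, lk]
    rw [Finset.sum_ite_eq', show ({s(x, y), s(u, y)} : Finset (Sym2 V))
      = insert s(x, y) (insert s(u, y) ∅) from rfl, h, nb_comm, ind_empty]
  | L + 1, x => by
    classical
    rw [linkW, sumL, ← Finset.univ_inter (nb G u x), ← Finset.filter_mem_eq_inter,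
      Finset.sum_filter]
    refine Finset.sum_congr rfl fun v _ => ?_
    simp only [lk, ind_two, nb_comm G x u]
    split_ifs
    · exact linkW_eq_mix G u y L v
    · simp

lemma mem_lk_mix (u y : V) : ∀ (vs : List V) (x : V) {v : V}, v ∈ vs → s(u, v) ∈ lk u x vs y
  | [], _, _, h => by simp at h
  | w :: vs, x, v, h => by
    rcases List.mem_cons.mp h with rfl | h
    · simp [lk]
    · exact Finset.mem_insert_of_mem (Finset.mem_insert_of_mem (mem_lk_mix u y vs w h))

lemma card_lk_mix (u y : V) : ∀ (vs : List V) (x : V), (lk u x vs y).card ≤ 2 * vs.length + 2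
  | [], _ => Finset.card_le_two
  | w :: vs, x => by
    have h := card_lk_mix u y vs w
    have h1 := Finset.card_insert_le s(x, w) (insert s(u, w) (lk u w vs y))
    have h2 := Finset.card_insert_le s(u, w) (lk u w vs y)
    simp only [lk, List.length_cons]; omega

lemma linkW_eq2_mix (G : SimpleGraph V) (u x y : V) (L : ℕ) : linkW G u (L + 1) x y
    = sumL L fun vs => (if u ∈ vs then 0 else 1) * ind (lk u x vs y) G := by
  rw [linkW_eq_mix]
  refine sumL_congr L fun vs _ => ?_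
  split_ifs with h
  · rw [zero_mul]
    exact ind_of_not fun h' => by simpa using h' _ (mem_lk_mix u y vs x h)
  · rw [one_mul]

lemma exists_U_mix (u x : V) (H : Finset (Sym2 V)) : ∃ U : Finset V, u ∈ U ∧ x ∈ U ∧
    (∀ e ∈ H, ∀ v ∈ e, v ∈ U) ∧ U.card ≤ 2 + 2 * H.card := by
  induction H using Finset.induction_on with
  | empty => exact ⟨{u, x}, by simp, by simp, by simp, Finset.card_le_two⟩
  | insert e H he ih =>
    obtain ⟨U, h1, h2, h3, h4⟩ := ih
    induction e using Sym2.ind with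
    | _ a b =>
      refine ⟨insert a (insert b U), by simp [h1], by simp [h2], fun e he v hv => ?_, ?_⟩
      · rcases Finset.mem_insert.mp he with rfl | he
        · rcases Sym2.mem_iff.mp hv with rfl | rfl <;> simp
        · simp [h3 e he v hv]
      · have h5 := Finset.card_insert_le a (insert b U)
        have h6 := Finset.card_insert_le b U
        rw [Finset.card_insert_of_notMem he]; omega

lemma num1_mix {ν D : ℝ} (hν : 100 ≤ ν) (hD : ν ^ 100 ≤ D) :
    (D + ν ^ 13) ^ 127 ≤ D ^ 127 * (1 + 1 / ν ^ 10 / 4) := by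
  have hν1 : 1 ≤ ν := by linarith
  have hν0 : 0 < ν := by linarith
  have hD0 : 0 < D := lt_of_lt_of_le (by positivity) hD
  have h0 : 0 ≤ ν ^ 13 / D := by positivity
  have h1 : 1016 * (ν ^ 13 / D) ≤ 1 / ν ^ 10 := by
    rw [← mul_div_assoc, div_le_div_iff₀ hD0 (by positivity), one_mul, mul_assoc, ← pow_add]
    refine le_trans ?_ hD
    rw [show 100 = 77 + (13 + 10) by norm_num, pow_add ν 77]
    refine mul_le_mul_of_nonneg_right ?_ (by positivity)
    exact le_trans (by nlinarith) (pow_le_pow_right₀ hν1 (show 2 ≤ 77 by norm_num))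
  have h2 : 1 / ν ^ 10 ≤ 1 := div_le_one_of_le₀ (one_le_pow₀ hν1) (by positivity)
  have h3 : D + ν ^ 13 = D * (ν ^ 13 / D + 1) := by field_simp; ring
  rw [h3, mul_pow]
  refine mul_le_mul_of_nonneg_left ?_ (by positivity)
  generalize ν ^ 13 / D = t at *
  generalize 1 / ν ^ 10 = η at *
  refine (pow_le_pow_left₀ (by linarith) (Real.add_one_le_exp t) 127).trans ?_
  rw [← Real.exp_nat_mul]
  push_cast
  refine (Real.exp_bound_div_one_sub_of_interval (by linarith) (by linarith)).trans ?_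
  rw [div_le_iff₀ (by linarith)]
  nlinarith

lemma num2_mix {ν D q : ℝ} (hν : 100 ≤ ν) (hD : ν ^ 100 ≤ D) (hq : 0 ≤ q)
    (hDq : ν ^ 4000 * q ^ 2 = D) :
    Real.sqrt D ^ (127 + 1) * (1 + ν ^ 13) ^ (127 + 1) ≤ q * D ^ 127 * (1 / ν ^ 10 / 4) := by
  have hν1 : 1 ≤ ν := by linarith
  have hν0 : 0 < ν := by linarith
  have hD1 : 1 ≤ D := (one_le_pow₀ hν1).trans hD
  have h1 : Real.sqrt D ^ (127 + 1) = D ^ 64 := by
    rw [show 127 + 1 = 2 * 64 by norm_num, pow_mul, Real.sq_sqrt (by linarith)]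
  have h2 : (1 + ν ^ 13) ^ (127 + 1) ≤ ν ^ 1792 := by
    rw [show 1792 = 14 * (127 + 1) by norm_num, pow_mul]
    refine pow_le_pow_left₀ (by positivity) ?_ _
    have : 1 ≤ ν ^ 13 := one_le_pow₀ hν1
    rw [pow_succ ν 13]; nlinarith
  have h3 : 1 ≤ q * ν ^ 2000 := by
    refine (one_le_sq_iff₀ (by positivity)).mp ?_
    rw [mul_pow, ← pow_mul, mul_comm]
    exact hD1.trans_eq hDq.symm
  have h4 : ν ^ 2000 * ν ^ 4300 ≤ D ^ 63 := by
    rw [← pow_add, show 2000 + 4300 = 100 * 63 by norm_num, pow_mul]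
    exact pow_le_pow_left₀ (by positivity) hD _
  have h5 : ν ^ 1792 * ν ^ 10 * 4 ≤ ν ^ 4300 := by
    refine le_trans (mul_le_mul_of_nonneg_left (show 4 ≤ ν by linarith) (by positivity)) ?_
    rw [← pow_add, ← pow_succ]
    exact pow_le_pow_right₀ hν1 (by norm_num)
  have h6 : ν ^ 4300 ≤ q * D ^ 63 := by
    refine le_trans ?_ (mul_le_mul_of_nonneg_left h4 hq)
    rw [← mul_assoc]
    exact le_mul_of_one_le_left (by positivity) h3
  have h7 : ν ^ 1792 ≤ q * D ^ 63 * (1 / ν ^ 10 / 4) := by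
    rw [div_div, mul_one_div, le_div_iff₀ (by positivity), ← mul_assoc]
    exact h5.trans h6
  rw [h1, show q * D ^ 127 * (1 / ν ^ 10 / 4) = D ^ 64 * (q * D ^ 63 * (1 / ν ^ 10 / 4)) by
    rw [show 127 = 64 + 63 by norm_num, pow_add]; ring]
  exact mul_le_mul_of_nonneg_left (h2.trans h7) (by positivity)

lemma num3_mix {ν : ℝ} (hν : 100 ≤ ν) : (⌈ν ^ 11⌉₊ : ℝ) * 512 + 200 ≤ ν ^ 13 ∧
    (⌈ν ^ 11⌉₊ : ℝ) ≤ ν ^ 100 * (1 / ν ^ 10 / 2) := by
  have hν1 : 1 ≤ ν := by linarith
  have h1 : 1 ≤ ν ^ 11 := one_le_pow₀ hν1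
  have h2 := (Nat.ceil_lt_add_one (show 0 ≤ ν ^ 11 by linarith)).le
  have h3 : 10000 * ν ^ 11 ≤ ν ^ 13 := by
    rw [show 13 = 2 + 11 by norm_num, pow_add]
    exact mul_le_mul_of_nonneg_right (by nlinarith) (by linarith)
  have h4 : ν ^ 13 * ν ^ 10 ≤ ν ^ 100 := by
    rw [← pow_add]; exact pow_le_pow_right₀ hν1 (by norm_num)
  refine ⟨by linarith, ?_⟩
  rw [div_div, mul_one_div, le_div_iff₀ (by positivity)]
  refine le_trans ?_ h4
  rw [mul_comm (ν ^ 10), ← mul_assoc]
  exact mul_le_mul_of_nonneg_right (by linarith) (by positivity)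

lemma deg_pr_mix {ν q : ℝ} {μ : FP (Option (SimpleGraph V))} (hν : 100 ≤ ν)
    (hl : 96000 * Real.log ν ≤ ν) (hn : ν ^ 4000 = Fintype.card V) (hq : 0 ≤ q) (hq1 : q ≤ 1)
    (hD : ν ^ 100 ≤ Fintype.card V * q ^ 2) (hd : Dom μ q (ν ^ 13)) (u : V) :
    (μ.Pr fun o => ∃ G, o = some G ∧ Fintype.card V * q * (1 + 1 / ν ^ 10) < cod G u u)
      ≤ 1 / (Fintype.card V : ℝ) ^ 6 := by
  have hν1 : 1 ≤ ν := by linarith
  obtain ⟨r1, r2⟩ := num3_mix hν
  have r0 : (0 : ℝ) ≤ ⌈ν ^ 11⌉₊ := Nat.cast_nonneg _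
  have hA1 : ν ^ 100 ≤ Fintype.card V * q := hD.trans
    (mul_le_mul_of_nonneg_left (by nlinarith) (Nat.cast_nonneg _))
  have hA : 0 < Fintype.card V * q := lt_of_lt_of_le (by positivity) hA1
  have h1 := mom_ok V μ q (ν ^ 13) (Fintype.card V * q * (1 + 1 / ν ^ 10 / 2)) 1 1 ⌈ν ^ 11⌉₊
    (fun _ => 1) (fun l => {s(u, l.headD u)}) ∅ hd hq (by positivity) (fun _ => zero_le_one)
    (fun _ _ => by simp) (by simp only [Finset.card_empty]; push_cast; linarith) fun H' _ h => by
      refine (deg_sum_mix hq u H').trans ?_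
      have h2 : (H'.card : ℝ) ≤ ⌈ν ^ 11⌉₊ := by exact_mod_cast (by simpa using h)
      have h3 := mul_le_mul_of_nonneg_right hA1 (show 0 ≤ 1 / ν ^ 10 / 2 by positivity)
      linarith
  simp only [← cod_eq_mix] at h1
  rw [Finset.card_empty, pow_zero, one_mul] at h1
  refine (markov_mix μ ∅ (X := fun G => cod G u u)
    (w := Fintype.card V * q * (1 + 1 / ν ^ 10)) (by positivity) (fun G => cod_nonneg G u u)
    ⌈ν ^ 11⌉₊ fun G hG => ⟨ind_empty G, hG.le⟩).trans ?_
  exact (div_le_div_of_nonneg_right h1 (by positivity)).trans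
    (ratio_mix hν1 hn hl (Nat.le_ceil _) hA)

lemma link_pr_mix (hL : LinkS) {ν q : ℝ} {μ : FP (Option (SimpleGraph V))} (hν : 100 ≤ ν)
    (hl : 96000 * Real.log ν ≤ ν) (hn : ν ^ 4000 = Fintype.card V) (hq : 0 < q) (hq1 : q ≤ 1)
    (hD : ν ^ 100 ≤ Fintype.card V * q ^ 2) (hd : Dom μ q (ν ^ 13)) (u x y : V) :
    (μ.Pr fun o => ∃ G, o = some G ∧ (G.Adj u x ∧ G.Adj u y ∧
      q * (Fintype.card V * q ^ 2) ^ 127 * (1 + 1 / ν ^ 10) < linkW G u 128 x y))
      ≤ 1 / (Fintype.card V : ℝ) ^ 6 := by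
  by_cases hxy : x = u ∨ y = u
  · refine le_trans (μ.Pr_mono (Q := fun _ => False) ?_) ?_
    · rintro o ⟨G, -, h1, h2, -⟩
      exact hxy.elim h1.ne' h2.ne'
    · simp [FP.Pr]
  rw [not_or] at hxy
  have hν1 : 1 ≤ ν := by linarith
  obtain ⟨r1, -⟩ := num3_mix hν
  have r0 : (0 : ℝ) ≤ ⌈ν ^ 11⌉₊ := Nat.cast_nonneg _
  have hD1 : 1 ≤ Fintype.card V * q ^ 2 := (one_le_pow₀ hν1).trans hD
  have n1 := num1_mix hν hD
  have n2 := num2_mix hν hD hq.le (by rw [hn])
  generalize hDd : Fintype.card V * q ^ 2 = D at *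
  have hA : 0 < q * D ^ 127 := by positivity
  have hH : ({s(u, x), s(u, y)} : Finset (Sym2 V)).card ≤ 2 := Finset.card_le_two
  have hH2 : ((({s(u, x), s(u, y)} : Finset (Sym2 V)).card : ℕ) : ℝ) ≤ 2 := by exact_mod_cast hH
  have h1 := mom_ok V μ q (ν ^ 13) (q * D ^ 127 * (1 + 1 / ν ^ 10 / 2)) 127 256 ⌈ν ^ 11⌉₊
    (fun vs => if u ∈ vs then 0 else 1) (fun vs => lk u x vs y) {s(u, x), s(u, y)} hd hq.le
    (by positivity) (fun _ => by split_ifs <;> norm_num)
    (fun vs hvs => by have := card_lk_mix u y vs x; omega) (by push_cast; linarith)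
    fun H' hs h => by
      obtain ⟨U, u1, u2, u3, u4⟩ := exists_U_mix u x H'
      have h2 : (U.card : ℝ) ≤ 6 + ⌈ν ^ 11⌉₊ * 512 := by
        exact_mod_cast (show U.card ≤ 6 + ⌈ν ^ 11⌉₊ * 512 by omega)
      have h3 := hL V q (ν ^ 13) u x y 127 H' U hq.le hq1 (hDd ▸ hD1) hxy.1 hxy.2 u1 u2
        (hs (by simp)) u3 (by push_cast; linarith)
      rw [hDd] at h3
      have h4 := mul_le_mul_of_nonneg_left n1 hq.le
      simp only [ite_mul, zero_mul, one_mul]
      refine h3.trans ((add_le_add h4 n2).trans (le_of_eq ?_))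
      generalize D ^ 127 = Y
      ring
  simp only [← linkW_eq2_mix] at h1
  refine (markov_mix μ {s(u, x), s(u, y)} (X := fun G => linkW G u (127 + 1) x y)
    (w := q * D ^ 127 * (1 + 1 / ν ^ 10)) (by positivity)
    (fun G => by rw [linkW_eq_mix]; exact sumL_nonneg _ fun _ _ => ind_nonneg _ _)
    ⌈ν ^ 11⌉₊ fun G hG => ⟨ind_of (by simpa using ⟨hG.1, hG.2.1⟩), hG.2.2.le⟩).trans ?_
  refine (div_le_div_of_nonneg_right (h1.trans (mul_le_of_le_one_left (by positivity)
    (pow_le_one₀ hq.le hq1))) (by positivity)).trans (ratio_mix hν1 hn hl (Nat.le_ceil _) hA)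

theorem mix_ok (hL : LinkS) : MixS := by
  obtain ⟨C, -, hlog⟩ := polylog 96000 1
  refine ⟨max C 100, fun V _ _ ν hν hn q μ hq hD hD2 hd => ?_⟩
  have hν1 : 100 ≤ ν := (le_max_right _ _).trans hν
  have hl := hlog ν ((le_max_left _ _).trans hν)
  rw [pow_one] at hl
  have e1 : ν ^ 100 * 100 ≤ Fintype.card V := by
    rw [← hn, show 4000 = 100 + 3900 by norm_num, pow_add]
    exact mul_le_mul_of_nonneg_left (hν1.trans (le_self_pow₀ (by linarith) (by norm_num)))
      (by positivity)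
  have e2 : 1 ≤ ν ^ 100 := one_le_pow₀ (by linarith)
  have hn0 : (0 : ℝ) < Fintype.card V := by linarith
  have hq0 : 0 < q := lt_of_le_of_ne hq fun h => by
    rw [← h] at hD; norm_num at hD; linarith
  have hq1 : q ≤ 1 := by
    refine (sq_le_one_iff₀ hq).mp (le_of_mul_le_mul_left ?_ hn0)
    linarith
  have h1 := Pr_exists_le μ (univ : Finset V) fun u o =>
    ∃ G, o = some G ∧ Fintype.card V * q * (1 + 1 / ν ^ 10) < cod G u u
  have h2 := Pr_exists_le μ (univ : Finset (V × V × V)) fun t o =>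
    ∃ G, o = some G ∧ (G.Adj t.1 t.2.1 ∧ G.Adj t.1 t.2.2 ∧
      q * (Fintype.card V * q ^ 2) ^ 127 * (1 + 1 / ν ^ 10) < linkW G t.1 128 t.2.1 t.2.2)
  replace h1 := h1.trans (Finset.sum_le_sum fun u _ => deg_pr_mix hν1 hl hn hq hq1 hD hd u)
  replace h2 := h2.trans (Finset.sum_le_sum fun t _ =>
    link_pr_mix hL hν1 hl hn hq0 hq1 hD hd t.1 t.2.1 t.2.2)
  refine le_trans (μ.Pr_mono ?_) ((Pr_or_le μ _ _).trans ((add_le_add h1 h2).trans ?_))
  · rintro o ⟨G, rfl, hG⟩
    by_contra h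
    rw [not_or] at h
    refine hG ⟨fun u => not_lt.mp fun hu => h.1 ⟨u, mem_univ _, G, rfl, hu⟩,
      fun u x y _ hx hy => not_lt.mp fun hu => h.2 ⟨(u, x, y), mem_univ _, G, rfl, hx, hy, hu⟩⟩
  · simp only [Finset.sum_const, Finset.card_univ, Fintype.card_prod, nsmul_eq_mul]
    push_cast
    have h3 : (2 : ℝ) ≤ Fintype.card V := by linarith
    generalize (Fintype.card V : ℝ) = n at *
    rw [← add_mul, mul_one_div, div_le_div_iff₀ (by positivity) (by positivity), one_mul]
    have h4 : n ≤ n * (n * n) := le_mul_of_one_le_right hn0.le (by nlinarith)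
    have h5 : (n + n * (n * n)) * n ^ 2 ≤ (n * (n * (n * n))) * n ^ 2 :=
      mul_le_mul_of_nonneg_right (by nlinarith [mul_pos hn0 (mul_pos hn0 hn0)]) (by positivity)
    exact h5.trans (le_of_eq (by ring))

end Vale.Agent.P046
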