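import Vale.Agent.P046.Walk

/-! # P046: the tree recursion follows the mean field -/

namespace Vale.Agent.P046

open Finset Vale.Agent.P015

variable {V : Type} [Fintype V] [DecidableEq V]

lemma sumw_ode {D : ℝ} {M s : ℕ} (hD : 0 ≤ D) (hM : 0 < M) (hDM : D / M ≤ 1 / 10) (hs : s ≤ M) :
    ∑ r ∈ range s, D * rbar D M r ^ 2 / M ≤ Real.log (1 + 2 * D) := by
  have hM' : (0 : ℝ) < M := by exact_mod_cast hM
  have hs' : (s : ℝ) ≤ M := by exact_mod_cast hs
  refine (sum_w_le hD (by linarith) s).trans (Real.log_le_log (by positivity) ?_)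
  have : 2 * D * s / M ≤ 2 * D := by
    rw [div_le_iff₀ hM']
    exact mul_le_mul_of_nonneg_left hs' (by linarith)
  linarith

lemma core_ode {C : ℝ} (hR : ResS C) {G : SimpleGraph V} {D δ η ι : ℝ} {M : ℕ} (hreg : Reg G D δ)
    (hδ0 : 0 ≤ δ) (hδ : δ ≤ 1 / 10) (hη : η ≤ 1 / 10) (hι : ι ≤ 1 / 10) (hD : 1 ≤ D) (hM : 0 < M)
    (hDM : D / M ≤ 1 / 10) (hlog : 2 * Real.log (1 + 2 * D) ≤ ι * D)
    (stab : ∀ s ≤ M, (∀ r < s, ∀ a b, G.Adj a b →
      |xi G D M (r + 1) a b - xi G D M r a b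
        + D * rbar D M r ^ 2 / M * (opS G (xi G D M r) a b + opS G (xi G D M r) b a)|
        ≤ D * rbar D M r ^ 2 / M * (C * (δ + η ^ 2 + ι + D / M))) →
      ∀ a b, G.Adj a b → |xi G D M s a b| ≤ η) (s : ℕ) (hs : s ≤ M) :
    (∀ a b v, G.Adj a b → v ∈ nb G a b → 0 ≤ II G M s a b v ∧ II G M s a b v ≤ ι) ∧
      ∀ a b, G.Adj a b → |xi G D M s a b| ≤ η := by
  have hb : ∀ s ≤ M, ∑ r ∈ range s, 2 * rbar D M r ^ 2 / M ≤ ι := by
    intro s hs
    have h1 := sumw_ode (by linarith) hM hDM hs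
    have h2 : D * ∑ r ∈ range s, 2 * rbar D M r ^ 2 / M =
        2 * ∑ r ∈ range s, D * rbar D M r ^ 2 / M := by
      rw [Finset.mul_sum, Finset.mul_sum]
      exact Finset.sum_congr rfl fun r _ => by ring
    refine le_of_mul_le_mul_left ?_ (show 0 < D by linarith)
    rw [h2]
    linarith
  have key : ∀ s, s ≤ M → (∀ a b v, G.Adj a b → v ∈ nb G a b → 0 ≤ II G M s a b v ∧
      II G M s a b v ≤ ∑ r ∈ range s, 2 * rbar D M r ^ 2 / M) ∧
      ∀ a b, G.Adj a b → |xi G D M s a b| ≤ η := by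
    intro s
    induction s using Nat.strong_induction_on with
    | _ s ih =>
      intro hs
      have hres := fun r (hr : r < s) => hR V G D δ η ι M r hreg hδ0 hδ hη hι hD hM hDM
        (fun a b v h1 h2 => ⟨((ih r hr (by omega)).1 a b v h1 h2).1,
          ((ih r hr (by omega)).1 a b v h1 h2).2.trans (hb r (by omega))⟩) (ih r hr (by omega)).2
      refine ⟨fun a b v h1 h2 => ?_, stab s hs fun r hr a b h => (hres r hr a b h).2⟩
      rcases s with _ | r
      · simp [II]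
      · have h3 := (hres r (Nat.lt_succ_self r) a b h1).1 v h2
        have h4 := (ih r (Nat.lt_succ_self r) (by omega)).1 a b v h1 h2
        rw [Finset.sum_range_succ]
        exact ⟨h4.1.trans h3.1, by linarith [h3.2, h4.2]⟩
  exact ⟨fun a b v h1 h2 => ⟨((key s hs).1 a b v h1 h2).1,
    ((key s hs).1 a b v h1 h2).2.trans (hb s hs)⟩, (key s hs).2⟩

omit [Fintype V] in
lemma erase_ode {S : Finset V} {f : V → ℝ} {c : ℝ} (h0 : 0 ≤ c) (h1 : c ≤ 1)
    (h : ∀ x ∈ S, c ≤ f x) (w : V) : c * ∏ x ∈ S.erase w, f x ≤ ∏ x ∈ S, f x := by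
  have h2 : 0 ≤ ∏ x ∈ S.erase w, f x :=
    Finset.prod_nonneg fun x hx => h0.trans (h x (Finset.mem_of_mem_erase hx))
  by_cases hw : w ∈ S
  · rw [← Finset.mul_prod_erase S f hw]
    exact mul_le_mul_of_nonneg_right (h w hw) h2
  · rw [Finset.erase_eq_of_notMem hw] at h2 ⊢
    exact mul_le_of_le_one_left h2 h1

lemma fin_ode {G : SimpleGraph V} {D η : ℝ} {M s : ℕ} (hD : 0 ≤ D) (hη : η ≤ 1 / 100) {a b : V}
    (hI : ∀ v ∈ nb G a b, II G M s a b v ≤ 1 / 100) (hx : |xi G D M s a b| ≤ η) :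
    |rho G (II G M s) a b a - rbar D M s| ≤ rbar D M s * (2 * η) ∧
    ∀ w v, ∏ x ∈ ((nb G a b).erase w).erase v, (1 - II G M s a b x) ≤ 11 / 10 * rbar D M s := by
  have hr := rbar_pos hD M s
  have h1 : ∏ x ∈ nb G a b, (1 - II G M s a b x) = rbar D M s * Real.exp (xi G D M s a b) := by
    rw [xi, Real.exp_sub, Real.exp_log hr, Real.exp_sum, mul_div_cancel₀ _ hr.ne']
    exact Finset.prod_congr rfl fun x hx => (Real.exp_log (by linarith [hI x hx])).symm
  have h2 : |Real.exp (xi G D M s a b) - 1| ≤ 2 * η :=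
    (Real.abs_exp_sub_one_le (by linarith)).trans (by linarith)
  constructor
  · have h3 : a ∉ nb G a b := fun h => (mem_nb.1 h).1.ne rfl
    rw [rho, Finset.erase_eq_of_notMem h3, h1, ← mul_sub_one, abs_mul, abs_of_pos hr]
    exact mul_le_mul_of_nonneg_left h2 hr.le
  · intro w v
    have h3 := erase_ode (S := nb G a b) (f := fun x => 1 - II G M s a b x) (c := 99 / 100)
      (by norm_num) (by norm_num) (fun x hx => by linarith [hI x hx]) w
    have h4 := erase_ode (S := (nb G a b).erase w) (f := fun x => 1 - II G M s a b x)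
      (c := 99 / 100) (by norm_num) (by norm_num)
      (fun x hx => by linarith [hI x (Finset.mem_of_mem_erase hx)]) v
    have h5 : rbar D M s * Real.exp (xi G D M s a b) ≤ rbar D M s * (102 / 100) :=
      mul_le_mul_of_nonneg_left (by linarith [(abs_le.1 h2).2]) hr.le
    rw [h1] at h3
    linarith

lemma inv_ode {ν : ℝ} (hν : 1 ≤ ν) {i j : ℕ} (h : i ≤ j) : 1 / ν ^ j ≤ 1 / ν ^ i :=
  one_div_le_one_div_of_le (by positivity) (pow_le_pow_right₀ hν h)

lemma cinv_ode {ν c : ℝ} (hν : 1 ≤ ν) (hc : c ≤ ν) {i j : ℕ} (h : i + 1 ≤ j) :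
    c * (1 / ν ^ j) ≤ 1 / ν ^ i := by
  have h1 : c * (1 / ν ^ j) ≤ ν * (1 / ν ^ (i + 1)) :=
    mul_le_mul hc (inv_ode hν h) (by positivity) (by linarith)
  refine h1.trans (le_of_eq ?_)
  rw [pow_succ]
  field_simp

theorem ode_ok {C : ℝ} (hC : 0 ≤ C) (hR : ResS C) (hS : StabS) : OdeS := by
  obtain ⟨Cs, hS⟩ := hS
  refine ⟨max Cs (max 1000 (4 * C)), fun V _ _ ν hν hn G D γ hD1 hD2 hreg hγ0 hγ hgap => ?_⟩
  have hν1 : Cs ≤ ν := (le_max_left _ _).trans hν
  have hν2 : 1000 ≤ ν := ((le_max_left _ _).trans (le_max_right _ _)).trans hν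
  have hν3 : 4 * C ≤ ν := ((le_max_right _ _).trans (le_max_right _ _)).trans hν
  have hν4 : 1 ≤ ν := by linarith
  have hν0 : 0 < ν := by linarith
  have hsmall : ∀ j, 1 ≤ j → 1 / ν ^ j ≤ 1 / 100 := fun j hj => by
    have := cinv_ode (c := 100) hν4 (by linarith) (i := 0) (j := j) hj
    rw [pow_zero] at this
    linarith
  have hn1 : (1 : ℝ) ≤ Fintype.card V := hn ▸ one_le_pow₀ hν4
  have hM1 : ν ^ 147 ≤ ((Fintype.card V ^ 8 : ℕ) : ℝ) := by
    rw [Nat.cast_pow]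
    exact ((pow_le_pow_right₀ hν4 (by norm_num)).trans hn.le).trans (le_self_pow₀ hn1 (by norm_num))
  generalize Fintype.card V ^ 8 = M at hM1 ⊢
  have hM' : (0 : ℝ) < M := lt_of_lt_of_le (by positivity) hM1
  have hM : 0 < M := by exact_mod_cast hM'
  have hD0 : ν ≤ D := (le_self_pow₀ hν4 (by norm_num)).trans hD1
  have hDM : D / M ≤ 1 / ν ^ 46 := by
    rw [div_le_div_iff₀ hM' (by positivity)]
    have h1 : ν ^ 147 = ν * ν ^ 100 * ν ^ 46 := by ring
    have h2 : D ≤ ν * ν ^ 100 := hD2.trans (mul_le_mul_of_nonneg_right (by linarith) (by positivity))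
    have h3 := mul_le_mul_of_nonneg_right h2 (show 0 ≤ ν ^ 46 by positivity)
    linarith
  have hlog : Real.log (1 + 2 * D) ≤ 101 * Real.log ν := by
    have h1 : (1 : ℝ) ≤ ν ^ 100 := one_le_pow₀ hν4
    have h2 : 5 * ν ^ 100 ≤ ν * ν ^ 100 := mul_le_mul_of_nonneg_right (by linarith) (by positivity)
    have h3 : Real.log (ν ^ 101) = 101 * Real.log ν := by rw [Real.log_pow]; norm_num
    rw [← h3]
    refine Real.log_le_log (by linarith) ?_
    rw [pow_succ' ν 100]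
    linarith
  have hl0 : 0 ≤ Real.log ν := Real.log_nonneg hν4
  have hl1 : Real.log ν ≤ ν := (Real.log_le_sub_one_of_pos hν0).trans (by linarith)
  have hι : 2 * Real.log (1 + 2 * D) ≤ 1 / ν ^ 98 * D := by
    have h1 : 1 / ν ^ 98 * ν ^ 100 = ν * ν := by field_simp
    have h2 := mul_le_mul_of_nonneg_left hD1 (show 0 ≤ 1 / ν ^ 98 by positivity)
    have h3 : 1000 * ν ≤ ν * ν := mul_le_mul_of_nonneg_right hν2 hν0.le
    linarith
  have hg : ν * (C * (1 / ν ^ 46 + (1 / ν ^ 20) ^ 2 + 1 / ν ^ 98 + D / M)) ≤ 1 / ν ^ 20 := by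
    have h1 := inv_ode hν4 (show 40 ≤ 46 by norm_num)
    have h2 := inv_ode hν4 (show 40 ≤ 98 by norm_num)
    have h3 : (1 / ν ^ 20) ^ 2 = 1 / ν ^ 40 := by rw [div_pow, one_pow, ← pow_mul]
    have h4 : C * (1 / ν ^ 46 + (1 / ν ^ 20) ^ 2 + 1 / ν ^ 98 + D / M) ≤ C * (4 * (1 / ν ^ 40)) :=
      mul_le_mul_of_nonneg_left (by linarith) hC
    have h5 := cinv_ode hν4 hν3 (show 39 + 1 ≤ 40 by norm_num)
    have h6 := cinv_ode hν4 le_rfl (show 20 + 1 ≤ 39 by norm_num)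
    refine le_trans (mul_le_mul_of_nonneg_left (h4.trans ?_) hν0.le) h6
    linarith
  have hDM' : D / M ≤ 1 / 10 := by linarith [hsmall 46 (by norm_num)]
  have core := core_ode (η := 1 / ν ^ 20) (ι := 1 / ν ^ 98) hR hreg (by positivity)
    (by linarith [hsmall 46 (by norm_num)]) (by linarith [hsmall 20 (by norm_num)])
    (by linarith [hsmall 98 (by norm_num)]) (by linarith) hM hDM' hι (fun s hs h a b hab => by
      refine (hS V ν hν1 hn G γ _ (xi G D M) (fun r => D * rbar D M r ^ 2 / M) s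
        (fun a b hab => ?_) hγ0 hγ hgap (fun r => ⟨?_, ?_⟩) ?_ ?_ ?_ h a b hab).trans hg
      · have h1 := hreg.ge hab
        have h2 := hsmall 46 (by norm_num)
        have h3 : D * (1 / 2) ≤ D * (1 - 1 / ν ^ 46) :=
          mul_le_mul_of_nonneg_left (by linarith) (by linarith)
        linarith
      · have := rbar_pos (show 0 ≤ D by linarith) M r
        have : 0 < D := by linarith
        positivity
      · have h1 := pow_le_one₀ (n := 2) (rbar_pos (show 0 ≤ D by linarith) M r).le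
          (rbar_le_one (by linarith) M r)
        have h2 : D * rbar D M r ^ 2 / M ≤ D / M :=
          div_le_div_of_nonneg_right (mul_le_of_le_one_right (by linarith) h1) hM'.le
        linarith
      · have := sumw_ode (show 0 ≤ D by linarith) hM hDM' hs
        linarith
      · have : 0 < D := by linarith
        positivity
      · funext a b
        simp [xi, II, rbar_zero])
  intro s hs a b hab
  obtain ⟨h1, h2⟩ := core s hs
  obtain ⟨h3, h4⟩ := fin_ode (show 0 ≤ D by linarith) (hsmall 20 (by norm_num))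
    (fun v hv => (h1 a b v hab hv).2.trans (hsmall 98 (by norm_num))) (h2 a b hab)
  refine ⟨h3.trans ?_, h4⟩
  rw [div_eq_mul_one_div (rbar D M s)]
  exact mul_le_mul_of_nonneg_left (cinv_ode hν4 (by linarith) (by norm_num))
    (rbar_pos (by linarith) M s).le

lemma num_ode {D Dh δ ε η : ℝ} (hD : 0 < D) (h0 : 0 ≤ Dh) (h1 : Dh ≤ D * (1 + 4 * ε)) (hδ : 0 ≤ δ)
    (hδε : δ ≤ ε) (hε : 1536 * ε ≤ η) (hη : η ≤ 1 / 10) (hηD : 2 ≤ η * D) :
    2 * (1 / (D * (1 - δ)) + max 0 (Dh ^ 128 * (1 + η) ^ 2 / (D * (1 - δ)) ^ 128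
      - (1 - δ) / (1 + δ))) ≤ 12 * η := by
  have hε0 : 0 ≤ ε := hδ.trans hδε
  have hp : 0 < D * (1 - δ) := mul_pos hD (by linarith)
  have e1 : 1 / (D * (1 - δ)) ≤ η := by
    rw [div_le_iff₀ hp, ← mul_assoc]
    have := mul_le_mul hηD (show 1 / 2 ≤ 1 - δ by linarith) (by norm_num) (by linarith)
    linarith
  have e2 : Dh / (D * (1 - δ)) ≤ 1 + 6 * ε := by
    rw [div_le_iff₀ hp]
    refine h1.trans ?_
    rw [mul_left_comm]
    refine mul_le_mul_of_nonneg_left ?_ hD.le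
    nlinarith
  have e3 : (Dh / (D * (1 - δ))) ^ 128 ≤ 1 + η := by
    have a1 : (Dh / (D * (1 - δ))) ^ 128 ≤ Real.exp (6 * ε) ^ 128 :=
      pow_le_pow_left₀ (div_nonneg h0 hp.le) (by linarith [Real.add_one_le_exp (6 * ε)]) 128
    rw [← Real.exp_nat_mul] at a1
    have a2 : ((128 : ℕ) : ℝ) * (6 * ε) = 768 * ε := by push_cast; ring
    rw [a2] at a1
    have a3 := Real.abs_exp_sub_one_le (x := 768 * ε)
      (by rw [abs_of_nonneg (by linarith)]; linarith)
    rw [abs_of_nonneg (show 0 ≤ 768 * ε by linarith)] at a3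
    linarith [(abs_le.1 a3).2]
  have e4 : Dh ^ 128 * (1 + η) ^ 2 / (D * (1 - δ)) ^ 128 ≤ 1 + 4 * η := by
    rw [mul_div_right_comm, ← div_pow]
    have a1 := mul_le_mul_of_nonneg_right e3 (sq_nonneg (1 + η))
    have a2 : 0 ≤ η := by linarith
    refine a1.trans ?_
    nlinarith [mul_nonneg a2 a2]
  have e5 : 1 - η ≤ (1 - δ) / (1 + δ) := by
    rw [le_div_iff₀ (by linarith)]
    nlinarith
  have e6 : max 0 (Dh ^ 128 * (1 + η) ^ 2 / (D * (1 - δ)) ^ 128 - (1 - δ) / (1 + δ)) ≤ 5 * η :=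
    max_le (by linarith) (by linarith)
  linarith

theorem good_ok (h1 : MixS) (h2 : GapS) (h3 : OdeS) : GoodS := by
  obtain ⟨C1, h1⟩ := h1
  obtain ⟨C3, h3⟩ := h3
  refine ⟨max C1 (max C3 2000), fun V _ _ ν hν hn D p μ hs => ?_⟩
  have hν1 : C1 ≤ ν := (le_max_left _ _).trans hν
  have hν3 : C3 ≤ ν := ((le_max_left _ _).trans (le_max_right _ _)).trans hν
  have hν2 : 2000 ≤ ν := ((le_max_right _ _).trans (le_max_right _ _)).trans hν
  have hν4 : 1 ≤ ν := by linarith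
  have hν0 : 0 < ν := by linarith
  have hsmall : ∀ j, 1 ≤ j → 1 / ν ^ j ≤ 1 / 100 := fun j hj => by
    have := cinv_ode (c := 100) hν4 (by linarith) (i := 0) (j := j) hj
    rw [pow_zero] at this
    linarith
  have hlo := hs.lo
  have hhi := hs.hi
  have hp0 := hs.p0
  have hpD := hs.pD
  have hD0 : 0 < D := lt_of_lt_of_le (by positivity) hlo
  have hn1 : ν * ν ^ 44 ≤ Fintype.card V := by
    rw [← pow_succ']
    exact (pow_le_pow_right₀ hν4 (by norm_num)).trans hn.le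
  have hε0 : 0 < 1 / ν ^ 44 := by positivity
  have hε1 := hsmall 44 (by norm_num)
  have hεn : 4 ≤ 1 / ν ^ 44 * Fintype.card V := by
    have a1 := mul_le_mul_of_nonneg_left hn1 hε0.le
    have a2 : 1 / ν ^ 44 * (ν * ν ^ 44) = ν := by field_simp
    linarith
  have hηD : 2 ≤ 1 / ν ^ 10 * D := by
    have a0 : ν * ν ^ 10 ≤ D := by
      rw [← pow_succ']
      exact (pow_le_pow_right₀ hν4 (by norm_num)).trans hlo
    have a1 := mul_le_mul_of_nonneg_left a0 (show 0 ≤ 1 / ν ^ 10 by positivity)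
    have a2 : 1 / ν ^ 10 * (ν * ν ^ 10) = ν := by field_simp
    linarith
  have hδε := inv_ode hν4 (show 44 ≤ 46 by norm_num)
  have hεη := cinv_ode (c := 1536) hν4 (by linarith) (show 10 + 1 ≤ 44 by norm_num)
  have hη8 := cinv_ode (c := 12) hν4 (by linarith) (show 8 + 1 ≤ 10 by norm_num)
  have hdom := hs.dom
  have hq0 : 0 ≤ p * (1 + 1 / ν ^ 44) := by positivity
  have hDh : D ≤ Fintype.card V * (p * (1 + 1 / ν ^ 44)) ^ 2 ∧
      Fintype.card V * (p * (1 + 1 / ν ^ 44)) ^ 2 ≤ D * (1 + 4 * (1 / ν ^ 44)) := by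
    generalize 1 / ν ^ 44 = ε at hε0 hε1 hεn
    generalize (Fintype.card V : ℝ) = n at hpD hεn
    have a0 : 0 < p ^ 2 := by positivity
    have a1 : n * p ^ 2 = D + 2 * p ^ 2 := by linarith
    have a2 : 2 * p ^ 2 ≤ ε * D := by
      rw [← hpD, mul_left_comm, mul_comm 2]
      exact mul_le_mul_of_nonneg_left (by linarith) a0.le
    have a3 : 1 ≤ (1 + ε) ^ 2 := one_le_pow₀ (by linarith)
    rw [mul_pow, ← mul_assoc, a1]
    constructor
    · nlinarith
    · have a4 : (D + 2 * p ^ 2) * (1 + ε) ^ 2 ≤ D * (1 + ε) * (1 + ε) ^ 2 :=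
        mul_le_mul_of_nonneg_right (by linarith) (by linarith)
      refine a4.trans ?_
      rw [mul_assoc]
      refine mul_le_mul_of_nonneg_left ?_ hD0.le
      nlinarith [mul_pos hε0 hε0]
  generalize p * (1 + 1 / ν ^ 44) = q at hdom hq0 hDh
  have hup : Fintype.card V * q ^ 2 ≤ 3 * ν ^ 100 := by
    have a1 : D * (1 + 4 * (1 / ν ^ 44)) ≤ D * (3 / 2) :=
      mul_le_mul_of_nonneg_left (by linarith) hD0.le
    linarith [hDh.2]
  refine le_trans (μ.Pr_mono_ae (hs.reg.mono ?_)) (h1 V ν hν1 hn q μ hq0 (hlo.trans hDh.1) hup hdom)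
  rintro o hreg ⟨G, hG, hno⟩
  refine ⟨G, hG, fun hmix => hno ?_⟩
  obtain ⟨γ, hγ0, hγ⟩ : ∃ γ : ℝ, 0 ≤ γ ∧ γ ^ 16 = 1 / ν :=
    ⟨(1 / ν) ^ (((16 : ℕ) : ℝ)⁻¹), by positivity,
      Real.rpow_inv_natCast_pow (by positivity) (by norm_num)⟩
  refine h3 V ν hν3 hn G D γ hlo hhi (hreg G hG) hγ0 hγ.le
    (h2 V G D _ _ _ γ (hreg G hG) (by positivity) (by linarith) hD0 hmix
      (mul_nonneg (mul_nonneg hq0 (pow_nonneg (by positivity) _)) (by positivity)) hγ0 ?_)
  have a1 : γ ^ 128 = 1 / ν ^ 8 := by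
    rw [show 128 = 16 * 8 by norm_num, pow_mul, hγ, div_pow, one_pow]
  have a2 : Fintype.card V * q * (1 + 1 / ν ^ 10) *
      (q * (Fintype.card V * q ^ 2) ^ 127 * (1 + 1 / ν ^ 10)) =
      (Fintype.card V * q ^ 2) ^ 128 * (1 + 1 / ν ^ 10) ^ 2 := by
    rw [pow_succ _ 127]
    generalize ((Fintype.card V : ℝ) * q ^ 2) ^ 127 = z
    generalize 1 + 1 / ν ^ 10 = y
    ring
  rw [a1, a2]
  exact (num_ode hD0 (by positivity) hDh.2 (by positivity) hδε hεη
    (by linarith [hsmall 10 (by norm_num)]) hηD).trans hη8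

end Vale.Agent.P046
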