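import Vale.Agent.P046.Walk

/-! # P046: one step of a high moment -/

namespace Vale.Agent.P046

open Finset Vale.Agent.P015

lemma taylor_pow (y u : ℝ) (n : ℕ) :
    |(y + u) ^ (n + 2) - y ^ (n + 2) - (n + 2) * y ^ (n + 1) * u|
      ≤ (n + 2) ^ 2 * u ^ 2 * (|y| + |u|) ^ n := by
  induction n with
  | zero =>
    have : (y + u) ^ (0 + 2) - y ^ (0 + 2) - ((0 : ℕ) + 2) * y ^ (0 + 1) * u = u ^ 2 := by
      push_cast; ring
    rw [this, abs_of_nonneg (sq_nonneg u)]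
    simp only [Nat.cast_zero, pow_zero]
    nlinarith [sq_nonneg u]
  | succ n ih =>
    have e : (y + u) ^ (n + 1 + 2) - y ^ (n + 1 + 2) - (((n + 1 : ℕ) : ℝ) + 2) * y ^ (n + 1 + 1) * u
        = (y + u) * ((y + u) ^ (n + 2) - y ^ (n + 2) - (n + 2) * y ^ (n + 1) * u)
          + (n + 2) * y ^ (n + 1) * u ^ 2 := by
      push_cast; ring
    rw [e]
    refine (abs_add_le _ _).trans ?_
    rw [abs_mul, abs_mul, abs_mul, abs_pow, abs_of_nonneg (sq_nonneg u),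
      abs_of_nonneg (by positivity : (0 : ℝ) ≤ n + 2)]
    have h1 : |y + u| ≤ |y| + |u| := abs_add_le _ _
    have h2 : |y| ≤ |y| + |u| := le_add_of_nonneg_right (abs_nonneg _)
    have h3 : 0 ≤ u ^ 2 * (|y| + |u|) ^ (n + 1) := by positivity
    calc |y + u| * |(y + u) ^ (n + 2) - y ^ (n + 2) - (n + 2) * y ^ (n + 1) * u|
          + (n + 2) * |y| ^ (n + 1) * u ^ 2
        ≤ (|y| + |u|) * ((n + 2) ^ 2 * u ^ 2 * (|y| + |u|) ^ n)
          + (n + 2) * (|y| + |u|) ^ (n + 1) * u ^ 2 := by gcongr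
      _ = ((n + 2) ^ 2 + (n + 2)) * (u ^ 2 * (|y| + |u|) ^ (n + 1)) := by ring
      _ ≤ (((n + 1 : ℕ) : ℝ) + 2) ^ 2 * (u ^ 2 * (|y| + |u|) ^ (n + 1)) := by
          gcongr
          push_cast
          have : (0 : ℝ) ≤ n := n.cast_nonneg
          nlinarith
      _ = _ := by ring

lemma young_pow {p q : ℝ} (hp : 0 ≤ p) (hq : 0 ≤ q) (n : ℕ) :
    (n + 1) * p ^ n * q ≤ n * p ^ (n + 1) + q ^ (n + 1) := by
  induction n with
  | zero => simp
  | succ n ih =>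
    have h1 : 0 ≤ (p - q) * (p ^ (n + 1) - q ^ (n + 1)) := by
      rcases le_total p q with h | h
      · exact mul_nonneg_of_nonpos_of_nonpos (by linarith)
          (sub_nonpos.2 (pow_le_pow_left₀ hp h _))
      · exact mul_nonneg (by linarith) (sub_nonneg.2 (pow_le_pow_left₀ hq h _))
    have h2 := mul_le_mul_of_nonneg_left ih hp
    push_cast
    calc ((n : ℝ) + 1 + 1) * p ^ (n + 1) * q
        = p * ((n + 1) * p ^ n * q) + p ^ (n + 1) * q := by ring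
      _ ≤ p * (n * p ^ (n + 1) + q ^ (n + 1)) + p ^ (n + 1) * q
          + (p - q) * (p ^ (n + 1) - q ^ (n + 1)) := by linarith
      _ = _ := by ring

lemma smallA_pow {p ϖ : ℝ} (hp : 0 ≤ p) (h0 : 0 ≤ ϖ) (h1 : ϖ ≤ 1) (m : ℕ) :
    ϖ ^ 2 * p ^ (2 * m + 1) ≤ ϖ * p ^ (2 * m + 2) + ϖ ^ (m + 1) := by
  rcases le_total ϖ p with h | h
  · have : ϖ ^ 2 * p ^ (2 * m + 1) ≤ ϖ * p ^ (2 * m + 2) := by
      calc ϖ ^ 2 * p ^ (2 * m + 1) = ϖ * (ϖ * p ^ (2 * m + 1)) := by ring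
        _ ≤ ϖ * (p * p ^ (2 * m + 1)) := by gcongr
        _ = _ := by ring
    have : 0 ≤ ϖ ^ (m + 1) := by positivity
    linarith
  · have : ϖ ^ 2 * p ^ (2 * m + 1) ≤ ϖ ^ (m + 1) := by
      calc ϖ ^ 2 * p ^ (2 * m + 1) ≤ ϖ ^ 2 * ϖ ^ (2 * m + 1) := by gcongr
        _ = ϖ ^ (2 * m + 3) := by ring
        _ ≤ _ := pow_le_pow_of_le_one h0 h1 (by omega)
    have : 0 ≤ ϖ * p ^ (2 * m + 2) := by positivity
    linarith

lemma smallB_pow {p ϖ : ℝ} (hp : 0 ≤ p) (h0 : 0 ≤ ϖ) (h1 : ϖ ≤ 1) (m : ℕ) :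
    ϖ ^ 2 * (p + ϖ) ^ (2 * m) ≤ 4 ^ m * (ϖ * p ^ (2 * m + 2) + ϖ ^ (m + 1)) := by
  have hM : ∀ M, p ^ 2 ≤ M → ϖ ≤ M → ϖ ^ 2 * (p + ϖ) ^ (2 * m) ≤ 4 ^ m * (ϖ * M ^ (m + 1)) := by
    intro M a1 a2
    have a3 : (p + ϖ) ^ 2 ≤ 4 * M := by nlinarith [sq_nonneg (p - ϖ)]
    calc ϖ ^ 2 * (p + ϖ) ^ (2 * m) = ϖ * ϖ * ((p + ϖ) ^ 2) ^ m := by rw [← pow_mul]; ring
      _ ≤ ϖ * M * (4 * M) ^ m := by
          have := h0.trans a2
          gcongr
      _ = _ := by rw [mul_pow]; ring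
  rcases le_total ϖ (p ^ 2) with h | h
  · refine (hM _ le_rfl h).trans ?_
    rw [← pow_mul, show 2 * (m + 1) = 2 * m + 2 by ring]
    gcongr
    exact le_add_of_nonneg_right (by positivity)
  · refine (hM _ h le_rfl).trans ?_
    gcongr
    have : 0 ≤ ϖ * p ^ (2 * m + 2) := by positivity
    have : ϖ * ϖ ^ (m + 1) ≤ 1 * ϖ ^ (m + 1) := by gcongr
    linarith

lemma rho_pow {ρ τ : ℝ} (h0 : 0 ≤ ρ) (hτ : 0 ≤ τ) (h : ρ * (1 + τ) ≤ 1) (N : ℕ) :
    ρ ^ N ≤ 1 - N * τ + (N * τ) ^ 2 := by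
  have h1 : 1 + N * τ ≤ (1 + τ) ^ N := one_add_mul_le_pow (by linarith) N
  have h2 : ρ ^ N * (1 + N * τ) ≤ 1 := by
    calc ρ ^ N * (1 + N * τ) ≤ ρ ^ N * (1 + τ) ^ N := by gcongr
      _ = (ρ * (1 + τ)) ^ N := by rw [mul_pow]
      _ ≤ 1 := pow_le_one₀ (by positivity) h
  have h3 : 0 ≤ N * τ := by positivity
  generalize (N : ℝ) * τ = t at *
  refine le_of_mul_le_mul_right (h2.trans ?_) (by linarith : 0 < 1 + t)
  nlinarith [pow_nonneg h3 3]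

lemma comb_pow {N F X X0 X1 P p0 p1 W R β0 β1 a ϖ w : ℝ} (hN : 0 ≤ N) (hX : 0 ≤ X)
    (hX0 : 0 ≤ X0) (hX1 : 0 ≤ X1) (ha : 0 ≤ a) (b0 : 0 ≤ β0) (b0' : β0 ≤ 2) (b1 : 0 ≤ β1)
    (b1' : β1 ≤ 2) (ha1 : a * (4 * N + 8) ^ 2 ≤ 1) (hϖ : ϖ * (N + N ^ 2 * F) ≤ 5)
    (hR : R ≤ 1 - a * (N * (β0 + β1) + 8) + (a * (N * (β0 + β1) + 8)) ^ 2)
    (y0 : N * P * p0 ≤ N * X + X0) (y1 : N * P * p1 ≤ N * X + X1)
    (sA : ϖ ^ 2 * P ≤ ϖ * X + w) (sB : ϖ ^ 2 * W ≤ F * (ϖ * X + w)) :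
    R * X + N * P * (a * (β0 * p0 + β1 * p1 + ϖ ^ 2)) + N ^ 2 * W * (a * ϖ ^ 2)
      ≤ (1 - 2 * a) * X + 2 * a * (X0 + X1) + a * (N + N ^ 2 * F) * w := by
  have t1 : (a * (N * (β0 + β1) + 8)) ^ 2 ≤ a := by
    have t0 : N * (β0 + β1) + 8 ≤ 4 * N + 8 := by nlinarith
    calc (a * (N * (β0 + β1) + 8)) ^ 2 ≤ (a * (4 * N + 8)) ^ 2 :=
          pow_le_pow_left₀ (by positivity) (mul_le_mul_of_nonneg_left t0 ha) 2
      _ = a * (a * (4 * N + 8) ^ 2) := by ring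
      _ ≤ a * 1 := by gcongr
      _ = a := mul_one a
  have t2 : R * X ≤ (1 - a * (N * (β0 + β1) + 8) + a) * X := by
    gcongr
    linarith
  have t3 := mul_le_mul_of_nonneg_left y0 (mul_nonneg ha b0)
  have t4 := mul_le_mul_of_nonneg_left y1 (mul_nonneg ha b1)
  have t5 := mul_le_mul_of_nonneg_left sA (mul_nonneg ha hN)
  have t6 := mul_le_mul_of_nonneg_left sB (mul_nonneg ha (sq_nonneg N))
  have t7 := mul_le_mul_of_nonneg_left hϖ (mul_nonneg ha hX)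
  have t8 := mul_le_mul_of_nonneg_left b0' (mul_nonneg ha hX0)
  have t9 := mul_le_mul_of_nonneg_left b1' (mul_nonneg ha hX1)
  linarith

theorem pow_ok : PowS := by
  intro k hk
  obtain ⟨m, rfl⟩ : ∃ m, k = m + 1 := ⟨k - 1, by omega⟩
  obtain ⟨N, hN⟩ : ∃ N : ℝ, N = 2 * m + 2 := ⟨_, rfl⟩
  have hm : (0 : ℝ) ≤ m := m.cast_nonneg
  have hN2 : 2 ≤ N := by linarith
  have hF : (1 : ℝ) ≤ 4 ^ m := one_le_pow₀ (by norm_num)
  refine ⟨1 / ((4 * N + 8) ^ 2 * 4 ^ m), N + N ^ 2 * 4 ^ m, by positivity, by positivity, ?_⟩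
  intro α μ d z z0 z1 b b0 b1 b' a ϖ hb hb0 hb0' hb1 hb1' ha hac hϖ hϖc hb' h1 h2 h3
  rw [le_div_iff₀ (by positivity)] at hac hϖc
  have ha1 : a * (4 * N + 8) ^ 2 ≤ 1 := by
    refine le_trans ?_ hac
    gcongr
    exact le_mul_of_one_le_right (by positivity) hF
  have hϖ2 : ϖ * (N + N ^ 2 * 4 ^ m) ≤ 5 := by
    refine le_trans ?_ (hϖc.trans (by norm_num))
    gcongr
    have : N * 1 ≤ N * 4 ^ m := by gcongr
    nlinarith
  have hϖ1 : ϖ ≤ 1 := by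
    refine le_trans ?_ hϖc
    refine le_mul_of_one_le_right hϖ (one_le_mul_of_one_le_of_one_le ?_ hF)
    nlinarith
  have hbb : b ≤ b' := le_trans (le_add_of_nonneg_right (by positivity)) hb'
  have hb'0 : 0 < b' := hb.trans_le hbb
  have e2 : 2 * (m + 1) = 2 * m + 2 := by ring
  rw [e2]
  have hev : ∀ r : ℝ, r ^ (2 * m + 2) = |r| ^ (2 * m + 2) := fun r =>
    (Even.pow_abs ⟨m + 1, by ring⟩ r).symm
  have hyx : |z / b'| ≤ |z / b| := by
    rw [abs_div, abs_div, abs_of_pos hb, abs_of_pos hb'0]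
    gcongr
  have hR : (b / b') ^ (2 * m + 2) ≤ 1 - a * (N * (b0 / b + b1 / b) + 8)
      + (a * (N * (b0 / b + b1 / b) + 8)) ^ 2 := by
    have := rho_pow (ρ := b / b') (τ := a * (b0 / b + b1 / b + 4 / (m + 1))) (by positivity)
      (by positivity) (by
        rw [div_mul_eq_mul_div, div_le_one hb'0]
        refine le_trans (le_of_eq ?_) hb'
        push_cast
        field_simp) (2 * m + 2)
    have e : ((2 * m + 2 : ℕ) : ℝ) * (a * (b0 / b + b1 / b + 4 / (m + 1)))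
        = a * (N * (b0 / b + b1 / b) + 8) := by
      rw [hN]
      push_cast
      field_simp
      ring
    rwa [e] at this
  have hy : ∀ r : ℝ, N * |z / b| ^ (2 * m + 1) * |r|
      ≤ N * |z / b| ^ (2 * m + 2) + |r| ^ (2 * m + 2) := by
    intro r
    have := young_pow (abs_nonneg (z / b)) (abs_nonneg r) (2 * m + 1)
    push_cast at this
    have h0 : 0 ≤ |z / b| ^ (2 * m + 2) := by positivity
    rw [hN]
    linarith
  have key := comb_pow (by linarith : 0 ≤ N) (by positivity)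
    (by positivity) (by positivity) ha (by positivity : 0 ≤ b0 / b)
    (by rw [div_le_iff₀ hb]; exact hb0') (by positivity : 0 ≤ b1 / b)
    (by rw [div_le_iff₀ hb]; exact hb1') ha1 hϖ2 hR (hy (z0 / b0)) (hy (z1 / b1))
    (smallA_pow (abs_nonneg _) hϖ hϖ1 m) (smallB_pow (abs_nonneg _) hϖ hϖ1 m)
  rw [hev (z / b), hev (z0 / b0), hev (z1 / b1)]
  refine le_trans ?_ key
  have hEu : |μ.E d / b'| ≤ a * (b0 / b * |z0 / b0| + b1 / b * |z1 / b1| + ϖ ^ 2) := by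
    have a1 : |μ.E d| ≤ a * (|z0| + |z1|) + a * (ϖ ^ 2 * b) := by
      have a2 : |a * (z0 + z1)| ≤ a * (|z0| + |z1|) := by
        rw [abs_mul, abs_of_nonneg ha]
        gcongr
        exact abs_add_le _ _
      have a3 := abs_sub (μ.E d + a * (z0 + z1)) (a * (z0 + z1))
      rw [add_sub_cancel_right] at a3
      linarith
    rw [abs_div, abs_div, abs_div, abs_of_pos hb0, abs_of_pos hb1, abs_of_pos hb'0]
    calc |μ.E d| / b' ≤ (a * (|z0| + |z1|) + a * (ϖ ^ 2 * b)) / b := by gcongr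
      _ = _ := by field_simp
  calc (μ.E fun t => ((z + d t) / b') ^ (2 * m + 2))
      ≤ μ.E fun t => (z / b') ^ (2 * m + 2) + N * (z / b') ^ (2 * m + 1) * (d t / b')
          + N ^ 2 * (|z / b| + ϖ) ^ (2 * m) * (d t ^ 2 / b ^ 2) := by
        refine μ.E_mono_ae (h3.mono fun t ht => ?_)
        have a1 := (abs_le.1 (taylor_pow (z / b') (d t / b') (2 * m))).2
        have a2 : |d t / b'| ≤ ϖ := by
          rw [abs_div, abs_of_pos hb'0, div_le_iff₀ hb'0]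
          exact ht.trans (by gcongr)
        have a3 : (d t / b') ^ 2 ≤ d t ^ 2 / b ^ 2 := by
          rw [div_pow]
          gcongr
        have a4 : N ^ 2 * (d t / b') ^ 2 * (|z / b'| + |d t / b'|) ^ (2 * m)
            ≤ N ^ 2 * (d t ^ 2 / b ^ 2) * (|z / b| + ϖ) ^ (2 * m) := by gcongr
        push_cast at a1
        rw [← hN] at a1
        rw [add_div]
        linarith
    _ ≤ _ := by
        rw [FP.E_add, FP.E_add, FP.E_const, FP.E_mul_left, FP.E_mul_left, FP.E_div, FP.E_div]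
        have a1 : (z / b') ^ (2 * m + 2) = (b / b') ^ (2 * m + 2) * |z / b| ^ (2 * m + 2) := by
          rw [← hev, ← mul_pow]
          congr 1
          field_simp
        have a2 : (z / b') ^ (2 * m + 1) * (μ.E d / b') ≤ |z / b| ^ (2 * m + 1) *
            (a * (b0 / b * |z0 / b0| + b1 / b * |z1 / b1| + ϖ ^ 2)) := by
          refine (le_abs_self _).trans ?_
          rw [abs_mul, abs_pow]
          gcongr
        have a3 : (μ.E fun t => d t ^ 2) / b ^ 2 ≤ a * ϖ ^ 2 := by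
          rw [div_le_iff₀ (by positivity), mul_assoc]
          exact h2
        rw [a1, mul_assoc N, mul_assoc N]
        gcongr

end Vale.Agent.P046
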