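import Vale.Agent.P046.Walk

/-! # P046: quadratic variation of the walk deviations -/

namespace Vale.Agent.P046

open Finset Vale.Agent.P015

variable {V : Type} [Fintype V] [DecidableEq V]

lemma pow_le_qv {x : ℝ} (hx : 0 ≤ x) : ∀ k : ℕ, k * x ≤ 1 / 2 → (1 + x) ^ k ≤ 1 + 2 * (k * x)
  | 0, _ => by simp
  | k + 1, h => by
    push_cast at h ⊢
    have h1 := pow_le_qv hx k (by nlinarith)
    have h2 := mul_le_mul_of_nonneg_right h1 (show 0 ≤ 1 + x by linarith)
    rw [pow_succ]
    nlinarith [mul_nonneg hx (show 0 ≤ 1 - 2 * (k * x) by nlinarith)]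

lemma walk_qv {m I I' X X' D D' s r : ℝ} (m1 : 1 ≤ m) (m2 : m ≤ 2)
    (hI : I = 0 ∧ I' = 0 ∨ I = 1 ∧ (I' = 0 ∨ I' = 1) ∧ |X - D| ≤ s) (hX : X' ≤ X)
    (hD : D' ≤ D) (hr : 2 * (D - D') + (m - 1) * s ≤ r) :
    |m * (I' * (X' - D')) - I * (X - D)| ≤ 2 * (I * (X - X')) + r * I + s * (I - I') := by
  rcases hI with ⟨rfl, rfl⟩ | ⟨rfl, rfl | rfl, h⟩
  · simp
  · have := mul_nonneg (sub_nonneg.2 m1) ((abs_nonneg _).trans h)
    rw [zero_mul, mul_zero, zero_sub, abs_neg, one_mul]
    linarith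
  · obtain ⟨h1, h2⟩ := abs_le.1 h
    have k1 := mul_le_mul_of_nonneg_left h1 (sub_nonneg.2 m1)
    have k2 := mul_le_mul_of_nonneg_left h2 (sub_nonneg.2 m1)
    have k3 := mul_nonneg (sub_nonneg.2 m2) (sub_nonneg.2 hX)
    have k4 := mul_nonneg (sub_nonneg.2 m2) (sub_nonneg.2 hD)
    have k5 := mul_nonneg (sub_nonneg.2 m1) (sub_nonneg.2 hX)
    have k6 := mul_nonneg (sub_nonneg.2 m1) (sub_nonneg.2 hD)
    rw [abs_le]
    constructor <;> nlinarith

lemma sq_E_qv {α : Type} (μ : FP α) {d R S : α → ℝ} {c p q p' q' : ℝ} (hp : 0 ≤ p) (hq : 0 ≤ q)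
    (h : μ.Ae fun t => |d t| ≤ R t + c + S t ∧ 0 ≤ R t ∧ R t ≤ p ∧ 0 ≤ S t ∧ S t ≤ q)
    (hR : μ.E R ≤ p') (hS : μ.E S ≤ q') :
    (μ.E fun t => d t ^ 2) ≤ 3 * (p * p' + c ^ 2 + q * q') := by
  have h1 : (μ.E fun t => d t ^ 2) ≤ μ.E fun t => 3 * (p * R t + c ^ 2 + q * S t) := by
    refine μ.E_mono_ae (h.mono fun t ⟨k1, k2, k3, k4, k5⟩ => ?_)
    have k6 := pow_le_pow_left₀ (abs_nonneg _) k1 2
    rw [sq_abs] at k6
    nlinarith [sq_nonneg (R t - c), sq_nonneg (R t - S t), sq_nonneg (c - S t),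
      mul_le_mul_of_nonneg_right k3 k2, mul_le_mul_of_nonneg_right k5 k4]
  rw [FP.E_mul_left, FP.E_add, FP.E_add, FP.E_mul_left, FP.E_mul_left, FP.E_const] at h1
  have := mul_le_mul_of_nonneg_left hR hp
  have := mul_le_mul_of_nonneg_left hS hq
  linarith

lemma cod_lz_le_qv (G : SimpleGraph V) (T : Finset V) (x y : V) :
    cod (lz G T) x y ≤ cod G x y := by
  unfold cod
  exact_mod_cast card_le_card fun v hv =>
    mem_nb.2 ⟨lz_le G T (mem_nb.1 hv).1, lz_le G T (mem_nb.1 hv).2⟩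

lemma cod_sub_qv (G : SimpleGraph V) {T : Finset V} (hT : T.card = 3) (x y : V) :
    cod G x y - cod (lz G T) x y ≤ if x ∈ T ∨ y ∈ T then 3 else 0 := by
  have h : nb G x y ⊆ nb (lz G T) x y ∪ if x ∈ T ∨ y ∈ T then T else ∅ := by
    intro v hv
    obtain ⟨h1, h2⟩ := mem_nb.1 hv
    by_cases h3 : (x ∈ T ∨ y ∈ T) ∧ v ∈ T
    · rw [if_pos h3.1]
      exact mem_union_right _ h3.2
    · exact mem_union_left _ (mem_nb.2 ⟨lz_adj.2 ⟨h1, fun h => h3 ⟨Or.inl h.2.1, h.2.2⟩⟩,
        lz_adj.2 ⟨h2, fun h => h3 ⟨Or.inr h.2.1, h.2.2⟩⟩⟩)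
  have h2 := (card_le_card h).trans (card_union_le _ _)
  rw [sub_le_iff_le_add', cod, cod]
  split_ifs at h2 ⊢
  · rw [hT] at h2
    exact_mod_cast h2
  · exact_mod_cast h2

open Classical in
lemma ind_sub_qv (G : SimpleGraph V) (T : Finset V) (e : V × V) (l : List (Bool × V)) :
    ind (wedges e l) G - ind (wedges e l) (lz G T) ≤
      if hit (fun _ => T) l then ind (wedges e l) G else 0 := by
  split_ifs with h
  · exact sub_le_self _ (ind_nonneg _ _)
  · rcases ind_cases (wedges e l) G with h1 | h1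
    · rw [h1.1, ind_of, sub_self]
      intro w hw
      have h2 := h1.2 w hw
      induction w using Sym2.ind with
      | _ a b =>
        refine lz_adj.2 ⟨h2, fun h3 => h (hit_of_wedge hw fun v hv => ?_)⟩
        rcases Sym2.mem_iff.1 hv with rfl | rfl
        exacts [h3.2.1, h3.2.2]
    · rw [h1.1, zero_sub, neg_nonpos]
      exact ind_nonneg _ _

variable {G : SimpleGraph V} {D δ a : ℝ} {j : ℕ} {e : V × V} {π : List Bool}

lemma StepHyp.cod_le_qv (h : StepHyp G D δ a j e π) : D * (1 + δ) ≤ 2 * D := by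
  have h1 := h.jδ
  have h2 := mul_nonneg (Nat.cast_nonneg (α := ℝ) j) h.δ0
  have h3 := h.D1
  nlinarith

lemma StepHyp.rate_qv (hR : RateS) (h : StepHyp G D δ a j e π) (H : Finset (Sym2 V)) {k : ℝ}
    (hk : (H.card : ℝ) ≤ k) :
    ((FP.unif (triples V)).E fun T => ind H G - ind H (lz G T)) ≤ 2 * k * a * ind H G := by
  rcases ind_cases H G with h1 | h1
  · have hN : (0 : ℝ) < (triples V).card := by exact_mod_cast h.nonempty.card_pos
    have h2 := (hR V G H h.nonempty h1.2).1
    have h3 : ∑ w ∈ H, codS G w ≤ H.card • (2 * D) := sum_le_card_nsmul _ _ _ fun w hw => by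
      have := (abs_le.1 (h.reg.absS (h1.2 w hw))).2
      have := h.cod_le_qv
      linarith
    have h4 : (∑ w ∈ H, codS G w) / (triples V).card ≤ 2 * k * a := by
      rw [div_le_iff₀ hN, mul_assoc, h.ha]
      rw [nsmul_eq_mul] at h3
      have := mul_le_mul_of_nonneg_right hk (show 0 ≤ 2 * D by linarith [h.D1])
      linarith
    rw [FP.E_sub, FP.E_const, h1.1]
    linarith
  · rw [h1.1, mul_zero]
    exact FP.E_le_of_ae _ (FP.ae_of_all _ fun T => by
      rw [zero_sub, neg_nonpos]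
      exact ind_nonneg _ _)

lemma StepHyp.count_qv (h : StepHyp G D δ a j e π) :
    sumW π (fun l => ind (wedges e l) G) ≤ 2 * D ^ π.length :=
  (walk_count (fun _ _ hab => h.reg.le hab) h.adj π).trans (h.pow_le (by have := h.len; omega))

open Classical in
lemma StepHyp.hit_qv (h : StepHyp G D δ a j e π) {T : Finset V} (hT : T.card = 3) :
    D * sumW π (fun l => if hit (fun _ => T) l then ind (wedges e l) G else 0) ≤
      6 * j * D ^ π.length := by
  have hD : 0 < D := by linarith [h.D1]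
  have h1 := hit_count (fun _ _ hab => h.reg.le hab) h.adj (fun _ => T) (z := 3) (by norm_num) π
    fun _ _ => by rw [hT]; norm_num
  have h2 := h.pow_le (i := π.length - 1) (by have := h.len; omega)
  have h3 : (π.length : ℝ) ≤ j := by exact_mod_cast h.len
  refine (mul_le_mul_of_nonneg_left (h1.trans
    (mul_le_mul_of_nonneg_left h2 (by positivity))) hD.le).trans ?_
  rcases hπ : π.length with _ | k
  · simp only [Nat.cast_zero, zero_mul, mul_zero]
    positivity
  · rw [hπ] at h3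
    rw [Nat.add_sub_cancel, pow_succ]
    have := mul_le_mul_of_nonneg_right h3 (show 0 ≤ D ^ k * D by positivity)
    linarith

/-- lost codegree summed over walks. -/
noncomputable def lostCqv (G : SimpleGraph V) (e : V × V) (π : List Bool) (T : Finset V) : ℝ :=
  sumW π fun l => ind (wedges e l) G *
    (cod G (node e l).1 (node e l).2 - cod (lz G T) (node e l).1 (node e l).2)

/-- number of lost walks. -/
noncomputable def lostWqv (G : SimpleGraph V) (e : V × V) (π : List Bool) (T : Finset V) : ℝ :=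
  sumW π fun l => ind (wedges e l) G - ind (wedges e l) (lz G T)

lemma StepHyp.dz_le_qv (h : StepHyp G D δ a j e π) (T : Finset V) :
    |dz G D a e π T| ≤ 2 * lostCqv G e π T / D ^ (π.length + 1) + 12 * a +
      δ * D * lostWqv G e π T / D ^ (π.length + 1) := by
  have hD : 0 < D := by linarith [h.D1]
  have ha := h.a_pos
  have hj : (1 : ℝ) ≤ j := by exact_mod_cast h.j1
  have hi : ((π.length + 1 : ℕ) : ℝ) ≤ j + 1 := by exact_mod_cast Nat.succ_le_succ h.len
  have h1 : a * j ^ 2 ≤ 1 / 10 := by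
    have := h.aj
    have := h.D1
    have : 0 ≤ a * j ^ 2 := by positivity
    nlinarith
  have h2 : ((π.length + 1 : ℕ) : ℝ) * (2 * a) ≤ 1 / 2 := by
    have := mul_le_mul_of_nonneg_right hi ha.le
    have : (j + 1) * a ≤ 2 * j ^ 2 * a := mul_le_mul_of_nonneg_right (by nlinarith) ha.le
    linarith
  have h3 := pow_le_qv (show 0 ≤ 2 * a by linarith) _ h2
  have h4 : (1 : ℝ) ≤ (1 + 2 * a) ^ (π.length + 1) := one_le_pow₀ (by linarith)
  have h5 : D / (1 + 2 * a) ≤ D := div_le_self hD.le (by linarith)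
  have h6 : D - D / (1 + 2 * a) ≤ 2 * a * D := by
    rw [sub_le_comm, le_div_iff₀ (by linarith)]
    nlinarith [mul_pos ha ha]
  have h7 : ((1 + 2 * a) ^ (π.length + 1) - 1) * (δ * D) ≤ 2 * a * D := by
    have k1 : ((π.length + 1 : ℕ) : ℝ) * δ ≤ 1 / 2 :=
      (mul_le_mul_of_nonneg_right (by linarith) h.δ0).trans h.jδ
    have k2 := mul_le_mul_of_nonneg_right (sub_le_iff_le_add'.2 h3) (mul_nonneg h.δ0 hD.le)
    have k3 := mul_le_mul_of_nonneg_right k1 (mul_pos ha hD).le
    linarith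
  have e1 : dz G D a e π T = sumW π (fun l => (1 + 2 * a) ^ (π.length + 1) *
      (ind (wedges e l) (lz G T) * (cod (lz G T) (node e l).1 (node e l).2 - D / (1 + 2 * a))) -
      ind (wedges e l) G * (cod G (node e l).1 (node e l).2 - D)) / D ^ (π.length + 1) := by
    rw [sumW_sub, sumW_mul_left, dz, zz, zz, div_pow, div_div_eq_mul_div, sub_div, mul_comm]
  have h8 := abs_sumW_le π fun l _ => walk_qv (I := ind (wedges e l) G)
    (I' := ind (wedges e l) (lz G T)) (X := cod G (node e l).1 (node e l).2)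
    (X' := cod (lz G T) (node e l).1 (node e l).2) (s := δ * D) (r := 6 * a * D) h4 (by linarith)
    (by
      rcases ind_cases (wedges e l) G with k | k
      · exact Or.inr ⟨k.1, (ind_cases _ _).symm.imp And.left And.left,
          h.reg _ _ (node_adj h.adj k.2)⟩
      · exact Or.inl ⟨k.1, le_antisymm (k.1 ▸ ind_mono (lz_le G T) _) (ind_nonneg _ _)⟩)
    (cod_lz_le_qv G T _ _) h5 (by linarith)
  rw [sumW_add, sumW_add, sumW_mul_left, sumW_mul_left, sumW_mul_left] at h8
  have h9 := mul_le_mul_of_nonneg_left h.count_qv (show 0 ≤ 6 * a * D by positivity)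
  rw [e1, abs_div, abs_of_pos (pow_pos hD _), div_le_iff₀ (pow_pos hD _), add_mul, add_mul,
    div_mul_cancel₀ _ (pow_pos hD _).ne', div_mul_cancel₀ _ (pow_pos hD _).ne', pow_succ D]
  unfold lostCqv lostWqv
  linarith

lemma lostC_nonneg_qv (T : Finset V) : 0 ≤ lostCqv G e π T :=
  sumW_nonneg π fun _ _ => mul_nonneg (ind_nonneg _ _) (sub_nonneg.2 (cod_lz_le_qv G T _ _))

lemma lostW_nonneg_qv (T : Finset V) : 0 ≤ lostWqv G e π T :=
  sumW_nonneg π fun _ _ => sub_nonneg.2 (ind_mono (lz_le G T) _)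

lemma StepHyp.lostC_le_qv (h : StepHyp G D δ a j e π) {T : Finset V} (hT : T.card = 3) :
    2 * lostCqv G e π T / D ^ (π.length + 1) ≤ 12 / D := by
  have hD : 0 < D := by linarith [h.D1]
  have h1 : lostCqv G e π T ≤ sumW π fun l => 3 * ind (wedges e l) G := sumW_mono π fun l _ => by
    rw [mul_comm]
    refine mul_le_mul_of_nonneg_right ((cod_sub_qv G hT _ _).trans ?_) (ind_nonneg _ _)
    split_ifs <;> norm_num
  rw [sumW_mul_left] at h1
  have h2 := mul_le_mul_of_nonneg_right (h1.trans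
    (mul_le_mul_of_nonneg_left h.count_qv (by norm_num))) hD.le
  rw [div_le_div_iff₀ (pow_pos hD _) hD, pow_succ]
  linarith

lemma StepHyp.lostC_free_qv (h : StepHyp G D δ a j e π) (hf : Free π) {T : Finset V}
    (hT : T.card = 3) : 2 * lostCqv G e π T / D ^ (π.length + 1) ≤ 36 * (j / D ^ 2) := by
  classical
  have hD : 0 < D := by linarith [h.D1]
  have h1 : lostCqv G e π T ≤ sumW π fun l =>
      3 * if hit (fun _ => T) l then ind (wedges e l) G else 0 := sumW_mono π fun l hl => by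
    have h2 := mul_le_mul_of_nonneg_left (cod_sub_qv G hT (node e l).1 (node e l).2)
      (ind_nonneg (wedges e l) G)
    refine h2.trans ?_
    have := ind_nonneg (wedges e l) G
    split_ifs with k1 k2 k2
    · linarith
    · exact absurd (hit_of_free (hl ▸ hf) k1) k2
    · linarith
    · linarith
  rw [sumW_mul_left] at h1
  have h2 := mul_le_mul_of_nonneg_left h1 hD.le
  have h3 := h.hit_qv hT
  have h4 := mul_le_mul_of_nonneg_right
    (show D * lostCqv G e π T ≤ 18 * j * D ^ π.length by linarith) hD.le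
  rw [← mul_div_assoc, div_le_div_iff₀ (pow_pos hD _) (pow_pos hD _), pow_succ D π.length]
  linarith

lemma StepHyp.lostW_le_qv (h : StepHyp G D δ a j e π) {T : Finset V} (hT : T.card = 3) :
    δ * D * lostWqv G e π T / D ^ (π.length + 1) ≤ 6 * (j * δ) / D := by
  have hD : 0 < D := by linarith [h.D1]
  have h1 := (mul_le_mul_of_nonneg_left (sumW_mono π fun l _ => ind_sub_qv G T e l) hD.le).trans
    (h.hit_qv hT)
  have h2 := mul_le_mul_of_nonneg_left h1 (mul_nonneg h.δ0 hD.le)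
  rw [div_le_div_iff₀ (pow_pos hD _) hD, pow_succ]
  unfold lostWqv
  linarith

lemma StepHyp.E_lostW_qv (hR : RateS) (h : StepHyp G D δ a j e π) :
    ((FP.unif (triples V)).E fun T => δ * D * lostWqv G e π T / D ^ (π.length + 1)) ≤
      8 * (j * δ) * a := by
  have hD : 0 < D := by linarith [h.D1]
  have ha := h.a_pos
  have h1 : (FP.unif (triples V)).E (lostWqv G e π) ≤
      sumW π fun l => 2 * (2 * j) * a * ind (wedges e l) G := by
    refine (E_sumW _ π _).trans_le (sumW_mono π fun l hl => h.rate_qv hR _ ?_)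
    have k1 : l.length = π.length := by rw [← hl, List.length_map]
    have k2 := card_wedges e l
    have k3 := h.len
    exact_mod_cast (by omega : (wedges e l).card ≤ 2 * j)
  rw [sumW_mul_left] at h1
  have h2 := mul_le_mul_of_nonneg_left (h1.trans
    (mul_le_mul_of_nonneg_left h.count_qv (by positivity))) (mul_nonneg h.δ0 hD.le)
  rw [FP.E_div, FP.E_mul_left, div_le_iff₀ (pow_pos hD _), pow_succ]
  linarith

lemma StepHyp.E_lostC_qv (hR : RateS) (h : StepHyp G D δ a j e π) :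
    ((FP.unif (triples V)).E fun T => 2 * lostCqv G e π T / D ^ (π.length + 1)) ≤ 32 * a := by
  have hD : 0 < D := by linarith [h.D1]
  have ha := h.a_pos
  have h0 : ∀ x y, ((FP.unif (triples V)).E fun T => cod G x y - cod (lz G T) x y) ≤
      4 * a * cod G x y := by
    intro x y
    have e1 : ∀ G' : SimpleGraph V, cod G' x y = ∑ v, ind (insert s(x, v) (insert s(y, v) ∅)) G' :=
      fun G' => by rw [sum_ind_two, ind_empty, mul_one]
    simp only [e1, ← sum_sub_distrib]
    rw [FP.E_sum, mul_sum]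
    refine sum_le_sum fun v _ => (h.rate_qv hR _ (k := 2) ?_).trans_eq (by ring)
    exact_mod_cast (card_insert_le _ _).trans (Nat.succ_le_succ (card_insert_le _ _))
  have h1 : (FP.unif (triples V)).E (lostCqv G e π) ≤
      sumW π fun l => 8 * a * D * ind (wedges e l) G := by
    refine (E_sumW _ π _).trans_le (sumW_mono π fun l _ => ?_)
    rw [FP.E_mul_left]
    have k1 := mul_le_mul_of_nonneg_left (h0 (node e l).1 (node e l).2) (ind_nonneg (wedges e l) G)
    have k2 := mul_le_mul_of_nonneg_left (cod_mul_ind_le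
      (fun _ _ hab => (h.reg.le hab).trans h.cod_le_qv) h.adj l) ha.le
    linarith
  rw [sumW_mul_left] at h1
  have h2 := h1.trans (mul_le_mul_of_nonneg_left h.count_qv (by positivity))
  rw [FP.E_div, FP.E_mul_left, div_le_iff₀ (pow_pos hD _), pow_succ]
  linarith

theorem qv_ok (hR : RateS) : ∃ C, 0 ≤ C ∧ QVS C := by
  refine ⟨6048, by norm_num, fun V _ _ G D δ a j e π h => ?_⟩
  have hD : 0 < D := by linarith [h.D1]
  have ha := h.a_pos
  have hj : (1 : ℝ) ≤ j := by exact_mod_cast h.j1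
  have hjδ : j * δ ≤ 1 / 2 := by linarith [h.jδ, h.δ0]
  have hjδ0 : 0 ≤ j * δ := mul_nonneg (by linarith) h.δ0
  have hi : 0 < 1 / D := by positivity
  have haD : a ≤ 1 / D := by
    rw [le_div_iff₀ hD]
    have := h.aD
    have := mul_le_mul_of_nonneg_left h.D1 (mul_pos ha hD).le
    linarith
  have haD2 : a ≤ 6 * (j / D ^ 2) := by
    rw [← mul_div_assoc, le_div_iff₀ (pow_pos hD 2)]
    linarith [h.aD]
  have hW : 6 * (j * δ) / D ≤ 3 * (1 / D) := by
    rw [mul_one_div]
    exact div_le_div_of_nonneg_right (by linarith) hD.le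
  have hae := FP.ae_unif h.nonempty
  have c0 : ∀ T, 0 ≤ 2 * lostCqv G e π T / D ^ (π.length + 1) := fun T =>
    div_nonneg (mul_nonneg two_pos.le (lostC_nonneg_qv T)) (pow_pos hD _).le
  have w0 : ∀ T, 0 ≤ δ * D * lostWqv G e π T / D ^ (π.length + 1) := fun T =>
    div_nonneg (mul_nonneg (mul_nonneg h.δ0 hD.le) (lostW_nonneg_qv T)) (pow_pos hD _).le
  refine ⟨fun T hT => ?_, ?_, fun hf => ?_⟩
  · have h1 := h.dz_le_qv T
    have h2 := h.lostC_le_qv (mem_triples.1 hT)
    have h3 := h.lostW_le_qv (mem_triples.1 hT)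
    rw [div_eq_mul_one_div 12] at h2
    rw [div_eq_mul_one_div 6048]
    linarith
  · have h1 := sq_E_qv _ (by positivity) (by positivity) (hae.mono fun T hT =>
      ⟨h.dz_le_qv T, c0 T, h.lostC_le_qv (mem_triples.1 hT), w0 T,
        (h.lostW_le_qv (mem_triples.1 hT)).trans hW⟩) (h.E_lostC_qv hR) (h.E_lostW_qv hR)
    have h2 := mul_le_mul_of_nonneg_left haD ha.le
    have h3 := mul_le_mul_of_nonneg_right hjδ (mul_pos ha hi).le
    have h4 := mul_pos ha hi
    rw [div_eq_mul_one_div 12] at h1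
    rw [div_eq_mul_one_div 6048]
    linarith
  · have h1 := sq_E_qv _ (by positivity) (by positivity) (hae.mono fun T hT =>
      ⟨h.dz_le_qv T, c0 T, h.lostC_free_qv hf (mem_triples.1 hT), w0 T,
        h.lostW_le_qv (mem_triples.1 hT)⟩) (h.E_lostC_qv hR) (h.E_lostW_qv hR)
    have h2 := mul_le_mul_of_nonneg_left haD2 ha.le
    have h3 : 0 ≤ a * (j ^ 2 * δ ^ 2 / D) := by positivity
    have e1 : 6 * (j * δ) / D * (8 * (j * δ) * a) = 48 * (a * (j ^ 2 * δ ^ 2 / D)) := by ring
    rw [e1] at h1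
    linarith

end Vale.Agent.P046
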