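import Vale.Agent.P046.Walk

/-! # P046: the process is the greedy process for uniform ranks -/

namespace Vale.Agent.P046

open Finset Vale.Agent.P015

variable {V : Type} [Fintype V] [DecidableEq V]

lemma card_rem_rank {G : SimpleGraph V} {T : Finset V} (hT : T ∈ tris G) :
    (tris (rem G T)).card < (tris G).card :=
  (Finset.card_le_card (tris_rem_subset G T)).trans_lt (Finset.card_erase_lt_of_mem hT)

theorem harmBd_ok : HarmBdS := by
  intro V _ _ f h B hH hf G
  induction hn : (tris G).card using Nat.strong_induction_on generalizing G with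
  | _ n ih =>
    rcases (tris G).eq_empty_or_nonempty with h0 | h0
    · rw [hH.2 G h0]
      exact hf G
    · by_contra hc
      have h1 : ∑ T ∈ tris G, (h (rem G T) - h G) < 0 :=
        Finset.sum_neg (fun T hT => by
          have := ih _ (hn ▸ card_rem_rank hT) (rem G T) rfl
          linarith [not_le.1 hc]) h0
      exact h1.ne (hH.1 G)

lemma tri_mem_rank {G : SimpleGraph V} {a b v : V} (hab : G.Adj a b) (hv : v ∈ nb G a b) :
    ({a, b, v} : Finset V) ∈ tris G :=
  mem_tris.2 (SimpleGraph.is3Clique_triple_iff.2 ⟨hab, (mem_nb.1 hv).1, (mem_nb.1 hv).2⟩)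

lemma alive_low_rank {G : SimpleGraph V} {w : Finset V → ℕ} {s : ℕ} (hs : ∀ S ∈ tris G, s ≤ w S)
    (h : ℕ) {a b : V} (hab : G.Adj a b) : aliveF G w h a b s := by
  cases h with
  | zero => trivial
  | succ h => exact fun v hv hc => absurd hc.1 (not_lt.2 (hs _ (tri_mem_rank hab hv)))

lemma alive_in_rank {G : SimpleGraph V} {w : Finset V → ℕ} {T : Finset V} (hT : T ∈ tris G)
    (hm : ∀ S ∈ tris G, S ≠ T → w T < w S) {h s : ℕ} {a b : V} (hab : G.Adj a b) (ha : a ∈ T)
    (hb : b ∈ T) (hs : s ≤ h) (hal : aliveF G w h a b s) : s ≤ w T := by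
  by_contra hc
  have hlt := not_le.1 hc
  obtain ⟨h, rfl⟩ : ∃ k, h = k + 1 := ⟨h - 1, by omega⟩
  have hcl := mem_tris.1 hT
  have h2 : ({a, b} : Finset V) ⊆ T := by
    intro x hx
    rcases Finset.mem_insert.1 hx with rfl | hx
    · exact ha
    · rw [Finset.mem_singleton.1 hx]
      exact hb
  obtain ⟨v, hv⟩ : (T \ {a, b}).Nonempty := by
    rw [← Finset.card_pos, Finset.card_sdiff_of_subset h2, hcl.card_eq, Finset.card_pair hab.ne]
    norm_num
  obtain ⟨hv1, hv2⟩ := Finset.mem_sdiff.1 hv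
  rw [Finset.mem_insert, Finset.mem_singleton, not_or] at hv2
  have hav : G.Adj a v := hcl.isClique ha hv1 (Ne.symm hv2.1)
  have hbv : G.Adj b v := hcl.isClique hb hv1 (Ne.symm hv2.2)
  have hnb : v ∈ nb G a b := mem_nb.2 ⟨hav, hbv⟩
  have e : ({a, b, v} : Finset V) = T := by
    refine Finset.eq_of_subset_of_card_le ?_
      (by rw [hcl.card_eq, (mem_tris.1 (tri_mem_rank hab hnb)).card_eq])
    intro x hx
    simp only [Finset.mem_insert, Finset.mem_singleton] at hx
    rcases hx with rfl | rfl | rfl <;> assumption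
  have hlow : ∀ S ∈ tris G, w T ≤ w S := fun S hS => by
    by_cases hST : S = T
    · rw [hST]
    · exact (hm S hS hST).le
  refine hal v hnb ?_
  rw [e]
  exact ⟨hlt, alive_low_rank hlow h hav, alive_low_rank hlow h hbv⟩

lemma alive_out_rank {G : SimpleGraph V} {w : Finset V → ℕ} {T : Finset V} (hT : T ∈ tris G)
    (hm : ∀ S ∈ tris G, S ≠ T → w T < w S) (h : ℕ) : ∀ {s : ℕ} {a b : V}, G.Adj a b →
    ¬(a ∈ T ∧ b ∈ T) → s ≤ h → (aliveF G w h a b s ↔ aliveF (rem G T) w h a b s) := by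
  induction h with
  | zero => exact fun _ _ _ => Iff.rfl
  | succ h ih =>
    intro s a b hab hn hs
    constructor
    · rintro hal v hv ⟨h1, h2, h3⟩
      obtain ⟨a1, a2⟩ := mem_nb.1 hv
      exact hal v (mem_nb.2 ⟨a1.1, a2.1⟩) ⟨h1, (ih a1.1 a1.2 (by omega)).2 h2,
        (ih a2.1 a2.2 (by omega)).2 h3⟩
    · rintro hal v hv ⟨h1, h2, h3⟩
      obtain ⟨a1, a2⟩ := mem_nb.1 hv
      have hlt : w T < w {a, b, v} := hm _ (tri_mem_rank hab hv) fun e =>
        hn ⟨e ▸ by simp, e ▸ by simp⟩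
      have n1 : ¬(a ∈ T ∧ v ∈ T) := fun hc =>
        absurd (alive_in_rank hT hm a1 hc.1 hc.2 (by omega) h2) (not_le.2 hlt)
      have n2 : ¬(b ∈ T ∧ v ∈ T) := fun hc =>
        absurd (alive_in_rank hT hm a2 hc.1 hc.2 (by omega) h3) (not_le.2 hlt)
      exact hal v (mem_nb.2 ⟨⟨a1, n1⟩, ⟨a2, n2⟩⟩) ⟨h1, (ih a1 n1 (by omega)).1 h2,
        (ih a2 n2 (by omega)).1 h3⟩

lemma finG_rem_rank {G : SimpleGraph V} {w : Finset V → ℕ} {T : Finset V} (hT : T ∈ tris G)
    (hm : ∀ S ∈ tris G, S ≠ T → w T < w S) {M : ℕ} (hM : w T < M) :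
    finG G M w = finG (rem G T) M w := by
  ext a b
  constructor
  · rintro ⟨h1, h2, h3⟩
    have hn : ¬(a ∈ T ∧ b ∈ T) := fun hc =>
      absurd (alive_in_rank hT hm h1 hc.1 hc.2 le_rfl h2) (not_le.2 hM)
    exact ⟨⟨h1, hn⟩, (alive_out_rank hT hm M h1 hn le_rfl).1 h2,
      (alive_out_rank hT hm M h1.symm (fun hc => hn hc.symm) le_rfl).1 h3⟩
  · rintro ⟨⟨h1, hn⟩, h2, h3⟩
    exact ⟨h1, (alive_out_rank hT hm M h1 hn le_rfl).2 h2,
      (alive_out_rank hT hm M h1.symm (fun hc => hn hc.symm) le_rfl).2 h3⟩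

lemma finG_empty_rank {G : SimpleGraph V} (h0 : tris G = ∅) (M : ℕ) (w : Finset V → ℕ) :
    finG G M w = G := by
  have hs : ∀ S ∈ tris G, M ≤ w S := by
    rw [h0]
    exact fun S hS => absurd hS (Finset.notMem_empty S)
  ext a b
  exact ⟨fun h => h.1, fun h => ⟨h, alive_low_rank hs M h, alive_low_rank hs M h.symm⟩⟩

lemma swap_mem_rank {X : Type} [DecidableEq X] {A : Finset X} {S S' R : X} (hS : S ∈ A)
    (hS' : S' ∈ A) (hR : R ∈ A) : Equiv.swap S S' R ∈ A := by
  rw [Equiv.swap_apply_def]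
  split_ifs <;> assumption

open Classical in
lemma argmin_rank {X : Type} {A : Finset X} (hA : A.Nonempty) {w : X → ℕ} (hw : Set.InjOn w A) :
    ∃ T ∈ A, (∀ S ∈ A, S ≠ T → w T < w S) ∧ ∀ g : X → ℝ,
      ∑ T' ∈ A, (if ∀ S ∈ A, S ≠ T' → w T' < w S then g T' else 0) = g T := by
  obtain ⟨T, hT, hmin⟩ := A.exists_min_image w hA
  have h1 : ∀ S ∈ A, S ≠ T → w T < w S := fun S hS hne =>
    lt_of_le_of_ne (hmin S hS) fun e => hne (hw hT hS e).symm
  refine ⟨T, hT, h1, fun g => ?_⟩
  rw [Finset.sum_eq_single_of_mem T hT, if_pos h1]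
  intro T' hT' hne
  exact if_neg fun hc => absurd (hc T hT hne.symm) (not_lt.2 (hmin T' hT'))

open Classical in
lemma key_rank {f h : SimpleGraph V → ℝ} (hH : Harm f h) {M : ℕ} (hM : 0 < M) (G : SimpleGraph V) :
    ∀ (Ev : (Finset V → ℕ) → Prop) [DecidablePred Ev], (∀ w, Ev w → Set.InjOn w (tris G)) →
      (∀ S ∈ tris G, ∀ S' ∈ tris G, ∀ w, Ev w → Ev (w ∘ Equiv.swap S S')) →
      ((rlaw V M).E fun w => if Ev w then f (finG G M w) else 0) = (rlaw V M).Pr Ev * h G := by
  induction hn : (tris G).card using Nat.strong_induction_on generalizing G with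
  | _ n ih =>
    intro Ev _ hinj hinv
    rcases (tris G).eq_empty_or_nonempty with h0 | h0
    · rw [FP.Pr_eq_E, ← FP.E_mul_right, hH.2 G h0]
      congr 1
      funext w
      rw [finG_empty_rank h0]
      split_ifs <;> simp
    let EvT : Finset V → (Finset V → ℕ) → Prop := fun T w =>
      Ev w ∧ ∀ S ∈ tris G, S ≠ T → w T < w S
    have hae : (rlaw V M).Ae fun w => ∀ S, w S ∈ range M :=
      FP.ae_iid _ (FP.ae_unif (Finset.nonempty_range_iff.2 hM.ne'))
    have h1 : ((rlaw V M).E fun w => if Ev w then f (finG G M w) else 0) =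
        ∑ T ∈ tris G, (rlaw V M).E fun w => if EvT T w then f (finG (rem G T) M w) else 0 := by
      rw [← FP.E_sum]
      refine FP.E_congr_ae _ (hae.mono fun w hw => ?_)
      by_cases hE : Ev w
      · obtain ⟨T, hT, a1, a2⟩ := argmin_rank h0 (hinj w hE)
        simp only [EvT, hE, true_and, if_true]
        rw [finG_rem_rank hT a1 (Finset.mem_range.1 (hw T)),
          ← a2 fun T' => f (finG (rem G T') M w)]
        exact Finset.sum_congr rfl fun T' _ => by split_ifs <;> rfl
      · simp only [EvT, hE, false_and, if_false, Finset.sum_const_zero]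
    have h2 : (rlaw V M).Pr Ev = ∑ T ∈ tris G, (rlaw V M).Pr (EvT T) := by
      simp only [FP.Pr_eq_E]
      rw [← FP.E_sum]
      congr 1
      funext w
      by_cases hE : Ev w
      · obtain ⟨T, hT, a1, a2⟩ := argmin_rank h0 (hinj w hE)
        simp only [EvT, hE, true_and, if_true]
        refine (a2 fun _ => 1).symm.trans ?_
        exact Finset.sum_congr rfl fun T' _ => by split_ifs <;> rfl
      · simp only [EvT, hE, false_and, if_false, Finset.sum_const_zero]
    have h3 : ∀ T ∈ tris G, ((rlaw V M).E fun w => if EvT T w then f (finG (rem G T) M w) else 0) =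
        (rlaw V M).Pr (EvT T) * h (rem G T) := by
      intro T hT
      have hsub := tris_rem_subset G T
      refine ih _ (hn ▸ card_rem_rank hT) (rem G T) rfl (EvT T)
        (fun w hw => (hinj w hw.1).mono fun S hS => Finset.mem_of_mem_erase (hsub hS))
        fun S hS S' hS' w hw => ?_
      obtain ⟨b1, b2⟩ := Finset.mem_erase.1 (hsub hS)
      obtain ⟨c1, c2⟩ := Finset.mem_erase.1 (hsub hS')
      have e : Equiv.swap S S' T = T := Equiv.swap_apply_of_ne_of_ne b1.symm c1.symm
      refine ⟨hinv S b2 S' c2 w hw.1, fun R hR hne => ?_⟩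
      rw [Function.comp_apply, Function.comp_apply, e]
      exact hw.2 _ (swap_mem_rank b2 c2 hR) fun hc =>
        hne ((Equiv.swap S S').injective (hc.trans e.symm))
    have h4 : ∀ T ∈ tris G, ∀ T' ∈ tris G, (rlaw V M).Pr (EvT T) ≤ (rlaw V M).Pr (EvT T') := by
      intro T hT T' hT'
      have e := FP.iid_map_comp (FP.unif (range M)) (Equiv.swap T T') (Equiv.injective _)
      have e2 : (rlaw V M).Pr (EvT T') =
          (rlaw V M).Pr fun w => EvT T' (w ∘ Equiv.swap T T') := by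
        rw [← FP.Pr_map, rlaw, e]
      rw [e2]
      refine FP.Pr_mono _ fun w hw => ⟨hinv T hT T' hT' w hw.1, fun R hR hne => ?_⟩
      rw [Function.comp_apply, Function.comp_apply, Equiv.swap_apply_right]
      exact hw.2 _ (swap_mem_rank hT hT' hR) fun hc =>
        hne ((Equiv.swap T T').injective (hc.trans (Equiv.swap_apply_right T T').symm))
    obtain ⟨T0, hT0⟩ := h0
    have h5 : ∀ T ∈ tris G, (rlaw V M).Pr (EvT T) = (rlaw V M).Pr (EvT T0) := fun T hT =>
      le_antisymm (h4 T hT T0 hT0) (h4 T0 hT0 T hT)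
    have h6 := hH.1 G
    rw [Finset.sum_sub_distrib, sub_eq_zero] at h6
    rw [h1, h2, Finset.sum_congr rfl h3, Finset.sum_congr rfl h5,
      Finset.sum_congr rfl fun T hT => congrArg (· * h (rem G T)) (h5 T hT), ← Finset.mul_sum, h6,
      Finset.sum_const, Finset.sum_const, nsmul_eq_mul, nsmul_eq_mul]
    ring

lemma tie_rank {M : ℕ} (hM : 0 < M) {S S' : Finset V} (hne : S ≠ S') :
    ((rlaw V M).Pr fun w => w S = w S') ≤ 1 / M := by
  have hr := Finset.nonempty_range_iff.2 hM.ne'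
  rw [FP.Pr_eq_E, rlaw, FP.E_iid_pair _ hne fun a b : ℕ => if a = b then (1 : ℝ) else 0]
  refine FP.E_le_of_ae _ fun a _ => ?_
  beta_reduce
  rw [FP.E_unif hr, Finset.card_range, Finset.sum_ite_eq]
  refine div_le_div_of_nonneg_right ?_ (Nat.cast_nonneg _)
  split_ifs <;> norm_num

theorem rank_ok : RankS := by
  classical
  intro V _ _ f h B M G hH hf hM
  have hB : 0 ≤ B := (hf G).1.trans (hf G).2
  have h1 := harmBd_ok V f h B hH (fun G => (hf G).2) G
  have h2 := key_rank hH hM G (fun w => Set.InjOn w (tris G)) (fun _ hw => hw)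
    fun S hS S' hS' w hw R hR R' hR' e => (Equiv.swap S S').injective
      (hw (swap_mem_rank hS hS' hR) (swap_mem_rank hS hS' hR') e)
  have h3 : (rlaw V M).Pr (fun w => Set.InjOn w (tris G)) * h G ≤
      (rlaw V M).E fun w => f (finG G M w) := by
    rw [← h2]
    refine FP.E_mono _ fun w => ?_
    split_ifs
    · exact le_rfl
    · exact (hf _).1
  have h4 : ((rlaw V M).Pr fun w => ¬ Set.InjOn w (tris G)) ≤ (Fintype.card V : ℝ) ^ 6 / M := by
    refine (FP.Pr_mono _ (Q := fun w => ∃ p ∈ (tris G).offDiag, w p.1 = w p.2) fun w hw => ?_).trans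
      ((Pr_exists_le _ _ _).trans ?_)
    · by_contra hc
      exact hw fun S hS S' hS' e => by_contra fun hne =>
        hc ⟨(S, S'), Finset.mem_offDiag.2 ⟨hS, hS', hne⟩, e⟩
    · refine (Finset.sum_le_card_nsmul _ _ (1 / M : ℝ) fun p hp =>
        tie_rank hM (Finset.mem_offDiag.1 hp).2.2).trans ?_
      rw [nsmul_eq_mul, mul_one_div]
      refine div_le_div_of_nonneg_right ?_ (Nat.cast_nonneg _)
      have a1 : (tris G).card ≤ Fintype.card V ^ 3 := by
        refine (Finset.card_le_card (tris_subset G)).trans ?_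
        rw [card_triples]
        exact Nat.choose_le_pow _ _
      have a2 : (tris G).offDiag.card ≤ Fintype.card V ^ 6 := by
        rw [Finset.offDiag_card]
        refine (Nat.sub_le _ _).trans ((Nat.mul_le_mul a1 a1).trans_eq ?_)
        ring
      exact_mod_cast a2
  have h5 := FP.Pr_nonneg (rlaw V M) fun w => ¬ Set.InjOn w (tris G)
  have h6 := mul_le_mul_of_nonneg_left h1 h5
  have h7 := mul_le_mul_of_nonneg_right h4 hB
  rw [Pr_not] at h6 h7
  rw [mul_div_assoc]
  linarith

end Vale.Agent.P046
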