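import Vale.Agent.P046.Walk

/-! # P046: the rate at which a lazy step destroys a set of edges -/

set_option linter.unusedSectionVars false

namespace Vale.Agent.P046

open Finset Vale.Agent.P015

variable {V : Type} [Fintype V] [DecidableEq V]

open Classical in
/-- triangles through a pair. -/
noncomputable def te_rate (G : SimpleGraph V) (e : Sym2 V) : Finset (Finset V) :=
  (tris G).filter fun T => ∀ v ∈ e, v ∈ T

lemma mem_te_rate {G : SimpleGraph V} {a b : V} {T : Finset V} :
    T ∈ te_rate G s(a, b) ↔ G.IsNClique 3 T ∧ a ∈ T ∧ b ∈ T := by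
  simp [te_rate]

lemma third_rate {T : Finset V} (hT : T.card = 3) {a b : V} (hab : a ≠ b) (ha : a ∈ T)
    (hb : b ∈ T) : ∃ v, v ≠ a ∧ v ≠ b ∧ T = {a, b, v} := by
  have h1 : ((T.erase a).erase b).card = 1 := by
    rw [Finset.card_erase_of_mem (Finset.mem_erase.mpr ⟨hab.symm, hb⟩),
      Finset.card_erase_of_mem ha, hT]
  obtain ⟨v, hv⟩ := Finset.card_eq_one.mp h1
  have h2 : v ∈ (T.erase a).erase b := hv ▸ Finset.mem_singleton_self v
  simp only [Finset.mem_erase] at h2
  refine ⟨v, h2.2.1, h2.1, ?_⟩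
  rw [← hv, Finset.insert_erase (Finset.mem_erase.mpr ⟨hab.symm, hb⟩), Finset.insert_erase ha]

lemma card_te_rate {G : SimpleGraph V} {e : Sym2 V} (he : e ∈ G.edgeSet) :
    ((te_rate G e).card : ℝ) = codS G e := by
  induction e using Sym2.ind with
  | _ a b =>
  have hab : G.Adj a b := he
  rw [codS_mk, cod]
  congr 1
  symm
  refine Finset.card_bij (fun v _ => ({a, b, v} : Finset V)) ?_ ?_ ?_
  · intro v hv
    have := mem_nb.mp hv
    exact mem_te_rate.mpr ⟨SimpleGraph.is3Clique_triple_iff.mpr ⟨hab, this.1, this.2⟩,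
      by simp, by simp⟩
  · intro v hv w hw h
    have h1 := mem_nb.mp hv
    have h2 : v ∈ ({a, b, w} : Finset V) := h ▸ (by simp : v ∈ ({a, b, v} : Finset V))
    simp only [Finset.mem_insert, Finset.mem_singleton] at h2
    rcases h2 with h2 | h2 | h2
    · exact absurd h2.symm h1.1.ne
    · exact absurd h2.symm h1.2.ne
    · exact h2
  · intro T hT
    obtain ⟨h1, h2, h3⟩ := mem_te_rate.mp hT
    obtain ⟨v, -, -, rfl⟩ := third_rate h1.card_eq hab.ne h2 h3
    have := SimpleGraph.is3Clique_triple_iff.mp h1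
    exact ⟨v, mem_nb.mpr ⟨this.2.1, this.2.2⟩, rfl⟩

lemma inter_te_rate {G : SimpleGraph V} {e e' : Sym2 V} (he : e ∈ G.edgeSet)
    (he' : e' ∈ G.edgeSet) (hne : e ≠ e') : (te_rate G e ∩ te_rate G e').card ≤ 1 := by
  induction e using Sym2.ind with
  | _ a b =>
  induction e' using Sym2.ind with
  | _ c d =>
  have hab : G.Adj a b := he
  have hcd : G.Adj c d := he'
  have key : ∃ x, x ≠ a ∧ x ≠ b ∧ (x = c ∨ x = d) := by
    by_contra hcon
    push Not at hcon
    have h1 : c = a ∨ c = b := by
      by_contra h; push Not at h; exact (hcon c h.1 h.2).1 rfl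
    have h2 : d = a ∨ d = b := by
      by_contra h; push Not at h; exact (hcon d h.1 h.2).2 rfl
    rcases h1 with rfl | rfl <;> rcases h2 with rfl | rfl
    · exact hcd.ne rfl
    · exact hne rfl
    · exact hne Sym2.eq_swap
    · exact hcd.ne rfl
  obtain ⟨x, hxa, hxb, hx⟩ := key
  have main : ∀ T ∈ te_rate G s(a, b) ∩ te_rate G s(c, d), T = {a, b, x} := by
    intro T hT
    obtain ⟨h1, h2⟩ := Finset.mem_inter.mp hT
    obtain ⟨h3, h4, h5⟩ := mem_te_rate.mp h1
    obtain ⟨-, h6, h7⟩ := mem_te_rate.mp h2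
    have hxT : x ∈ T := by rcases hx with rfl | rfl <;> assumption
    obtain ⟨v, -, -, rfl⟩ := third_rate h3.card_eq hab.ne h4 h5
    simp only [Finset.mem_insert, Finset.mem_singleton] at hxT
    rcases hxT with h | h | h
    · exact absurd h hxa
    · exact absurd h hxb
    · rw [h]
  exact Finset.card_le_one.mpr fun S hS T hT => (main S hS).trans (main T hT).symm

lemma lower_rate {G : SimpleGraph V} (H : Finset (Sym2 V)) (hH : ∀ e ∈ H, e ∈ G.edgeSet) :
    ∑ e ∈ H, ((te_rate G e).card : ℝ) - (H.card : ℝ) ^ 2 ≤ (H.biUnion (te_rate G)).card := by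
  classical
  induction H using Finset.induction_on with
  | empty => simp
  | insert e H he ih =>
    have ih' := ih fun x hx => hH x (Finset.mem_insert_of_mem hx)
    have h1 : (te_rate G e ∩ H.biUnion (te_rate G)).card ≤ H.card := by
      rw [Finset.inter_biUnion]
      refine Finset.card_biUnion_le.trans ?_
      refine (Finset.sum_le_sum (g := fun _ => 1) fun x hx => ?_).trans (by simp)
      exact inter_te_rate (hH e (Finset.mem_insert_self _ _))
        (hH x (Finset.mem_insert_of_mem hx)) fun h => he (h ▸ hx)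
    have h2 := Finset.card_union_add_card_inter (te_rate G e) (H.biUnion (te_rate G))
    have h3 : ((te_rate G e ∪ H.biUnion (te_rate G)).card : ℝ)
        + (te_rate G e ∩ H.biUnion (te_rate G)).card
        = (te_rate G e).card + (H.biUnion (te_rate G)).card := by exact_mod_cast h2
    have h4 : ((te_rate G e ∩ H.biUnion (te_rate G)).card : ℝ) ≤ H.card := by exact_mod_cast h1
    have h5 : (0 : ℝ) ≤ H.card := Nat.cast_nonneg _
    rw [Finset.biUnion_insert, Finset.sum_insert he, Finset.card_insert_of_notMem he]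
    push_cast
    nlinarith

lemma ind_lz_rate {G : SimpleGraph V} {H : Finset (Sym2 V)} (hH : ∀ e ∈ H, e ∈ G.edgeSet)
    (T : Finset V) :
    ind H (lz G T) = 1 - if T ∈ H.biUnion (te_rate G) then 1 else 0 := by
  split_ifs with h
  · obtain ⟨e, he, hT⟩ := Finset.mem_biUnion.mp h
    rw [ind_of_not, sub_self]
    intro h2
    have h3 := h2 e he
    induction e using Sym2.ind with
    | _ a b => exact (lz_adj.mp h3).2 (mem_te_rate.mp hT)
  · rw [ind_of, sub_zero]
    intro e he
    have h3 := hH e he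
    induction e using Sym2.ind with
    | _ a b =>
      exact lz_adj.mpr ⟨h3, fun h4 => h (Finset.mem_biUnion.mpr ⟨_, he, mem_te_rate.mpr h4⟩)⟩

theorem rate_ok : RateS := by
  intro V _ _ G H hne hH
  have hN : (0 : ℝ) < (triples V).card := by exact_mod_cast hne.card_pos
  have hsub : H.biUnion (te_rate G) ⊆ triples V := by
    intro T hT
    obtain ⟨e, -, h⟩ := Finset.mem_biUnion.mp hT
    exact tris_subset G (Finset.mem_of_mem_filter T h)
  have hE : ((FP.unif (triples V)).E fun T => ind H (lz G T))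
      = 1 - ((H.biUnion (te_rate G)).card : ℝ) / (triples V).card := by
    rw [FP.E_unif hne]
    simp only [ind_lz_rate hH]
    rw [Finset.sum_sub_distrib, ← Finset.sum_filter, Finset.filter_mem_eq_inter,
      Finset.inter_eq_right.mpr hsub]
    simp only [Finset.sum_const, nsmul_eq_mul, mul_one]
    field_simp
  have h1 : ∑ e ∈ H, codS G e = ∑ e ∈ H, ((te_rate G e).card : ℝ) :=
    Finset.sum_congr rfl fun e he => (card_te_rate (hH e he)).symm
  have h2 : ((H.biUnion (te_rate G)).card : ℝ) ≤ ∑ e ∈ H, ((te_rate G e).card : ℝ) := by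
    exact_mod_cast Finset.card_biUnion_le
  have h3 := lower_rate H hH
  rw [hE, h1]
  exact ⟨sub_le_sub_left (div_le_div_of_nonneg_right h2 hN.le) 1,
    sub_le_sub_left (div_le_div_of_nonneg_right h3 hN.le) 1⟩

end Vale.Agent.P046
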