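import Vale.Agent.P046.Walk

/-! # P046: one step of the tree recursion -/

namespace Vale.Agent.P046

open Finset Vale.Agent.P015

lemma ratio_res {z η ι P : ℝ} (hz : |z| ≤ 2 * η) (hη : η ≤ 1 / 10) (hι : ι ≤ 1 / 10)
    (hP1 : 1 - 3 * ι ≤ P) (hP2 : P ≤ 1) :
    0 ≤ Real.exp z / P ∧ Real.exp z / P ≤ 2 ∧ |Real.exp z / P - 1 - z| ≤ 4 * η ^ 2 + 6 * ι := by
  have hP0 : 0 < P := by linarith
  have h0 : 0 ≤ η := by linarith [abs_nonneg z]
  have h1 := abs_le.1 (Real.abs_exp_sub_one_sub_id_le (x := z) (by linarith))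
  have h2 : z ^ 2 ≤ 4 * η ^ 2 := by
    rw [← sq_abs]; nlinarith [abs_nonneg z]
  have h3 := abs_le.1 hz
  have h4 : 0 ≤ Real.exp z / P := by positivity
  have h5 : Real.exp z / P ≤ 2 := by
    rw [div_le_iff₀ hP0]; nlinarith
  have h6 : Real.exp z / P - Real.exp z = Real.exp z / P * (1 - P) := by field_simp
  refine ⟨h4, h5, abs_le.2 ⟨?_, ?_⟩⟩
  · nlinarith [mul_nonneg h4 (sub_nonneg.2 hP2)]
  · nlinarith [mul_le_mul h5 (show 1 - P ≤ 3 * ι by linarith) (sub_nonneg.2 hP2) (by norm_num)]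

lemma log_res {t : ℝ} (h : |t| ≤ 1 / 5) : |Real.log (1 - t) + t| ≤ 5 / 4 * t ^ 2 := by
  have h1 := Real.abs_log_sub_add_sum_range_le (x := t) (by linarith) 1
  simp only [range_one, sum_singleton, zero_add, pow_one, Nat.cast_zero, div_one] at h1
  rw [add_comm]
  refine h1.trans ?_
  rw [div_le_iff₀ (by linarith), show 1 + 1 = 2 from rfl, sq_abs]
  nlinarith [sq_nonneg t]

lemma point_res {c m x y η ι I₁ I₂ I₃ Δ : ℝ} (hc : 0 ≤ c) (hcm : c ≤ m) (hm : m ≤ 1 / 10)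
    (hx : |x| ≤ η) (hy : |y| ≤ η) (hη : η ≤ 1 / 10) (hι : ι ≤ 1 / 10)
    (h₁ : 0 ≤ I₁ ∧ I₁ ≤ ι) (h₂ : 0 ≤ I₂ ∧ I₂ ≤ ι) (h₃ : 0 ≤ I₃ ∧ I₃ ≤ ι)
    (hΔ : Δ = c * (Real.exp (x + y) / ((1 - I₁) * (1 - I₂)))) :
    0 ≤ Δ ∧ Δ ≤ 2 * c ∧ |Real.log (1 - (I₃ + Δ)) - Real.log (1 - I₃) + c * (1 + x + y)|
      ≤ c * (4 * η ^ 2 + 6 * ι + 5 * m) := by
  have hz : |x + y| ≤ 2 * η := (abs_add_le x y).trans (by linarith)
  have p1 : 1 - 2 * ι ≤ (1 - I₁) * (1 - I₂) := by nlinarith [mul_nonneg h₁.1 h₂.1]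
  have p2 : (1 - I₁) * (1 - I₂) ≤ 1 := by nlinarith
  obtain ⟨a1, a2, -⟩ := ratio_res hz hη hι (P := (1 - I₁) * (1 - I₂)) (by linarith) p2
  obtain ⟨b1, b2, b3⟩ := ratio_res hz hη hι (P := (1 - I₁) * (1 - I₂) * (1 - I₃))
    (by nlinarith) (by nlinarith)
  refine ⟨hΔ ▸ mul_nonneg hc a1, by rw [hΔ]; nlinarith, ?_⟩
  generalize hq : Real.exp (x + y) / ((1 - I₁) * (1 - I₂) * (1 - I₃)) = q at b1 b2 b3
  have n1 : 1 - I₁ ≠ 0 := by linarith
  have n2 : 1 - I₂ ≠ 0 := by linarith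
  have n3 : 1 - I₃ ≠ 0 := by linarith
  have e : 1 - (I₃ + Δ) = (1 - I₃) * (1 - c * q) := by
    rw [hΔ, ← hq]; field_simp; ring
  have t0 : 0 ≤ c * q := mul_nonneg hc b1
  have t1 : c * q ≤ 2 * c := by nlinarith
  have l1 := abs_le.1 (log_res (t := c * q) (by rw [abs_of_nonneg t0]; linarith))
  have l2 : (c * q) ^ 2 ≤ 4 * (c * m) := by nlinarith
  have l3 := abs_le.1 b3
  rw [e, Real.log_mul n3 (by linarith)]
  refine abs_le.2 ⟨?_, ?_⟩
  · nlinarith [mul_le_mul_of_nonneg_left l3.2 hc]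
  · nlinarith [mul_le_mul_of_nonneg_left l3.1 hc]

lemma rbar_res {D : ℝ} (hD : 0 ≤ D) (M s : ℕ) :
    Real.log (rbar D M (s + 1)) - Real.log (rbar D M s) =
      -(Real.log (1 + 2 * (D * rbar D M s ^ 2 / M)) / 2) := by
  have h : ∀ r : ℕ, Real.log (rbar D M r) = -(Real.log (1 + 2 * D * r / M) / 2) := fun r => by
    rw [rbar, one_div, Real.log_inv, Real.log_sqrt (by positivity)]
  rw [h (s + 1), h s, rbar_step hD, Real.log_mul (by positivity) (by positivity)]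
  ring

variable {V : Type} [Fintype V] [DecidableEq V]

lemma rho_res {G : SimpleGraph V} {D : ℝ} (hD : 0 ≤ D) {M s : ℕ} {a v b : V} (hb : b ∈ nb G a v)
    (h : ∀ u ∈ nb G a v, II G M s a v u < 1) :
    rho G (II G M s) a v b = rbar D M s * Real.exp (xi G D M s a v) / (1 - II G M s a v b) := by
  have h0 := rbar_pos hD M s
  have h1 : 1 - II G M s a v b ≠ 0 := (sub_pos.2 (h b hb)).ne'
  rw [xi, Real.exp_sub, Real.exp_log h0, Real.exp_sum,
    prod_congr rfl fun u hu => Real.exp_log (sub_pos.2 (h u hu)),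
    ← mul_prod_erase _ _ hb, rho]
  field_simp

omit [DecidableEq V] in
lemma opS_res {G : SimpleGraph V} {φ : V → V → ℝ} {η : ℝ} {a b : V} (h0 : 0 < cod G a b)
    (h : ∀ v ∈ nb G a b, |φ a v| ≤ η) :
    ∑ v ∈ nb G a b, φ a v = cod G a b * opS G φ a b ∧ |opS G φ a b| ≤ η := by
  refine ⟨by rw [opS]; field_simp, ?_⟩
  rw [opS, abs_div, abs_of_pos h0, div_le_iff₀ h0]
  refine (abs_sum_le_sum_abs _ _).trans ((sum_le_sum h).trans (le_of_eq ?_))
  rw [sum_const, nsmul_eq_mul, cod, mul_comm]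

lemma final_res {c D N δ η ι m A B S L : ℝ} (hc : 0 ≤ c) (hD : 1 ≤ D) (hN : |N - D| ≤ δ * D)
    (hδ0 : 0 ≤ δ) (hδ : δ ≤ 1 / 10) (hη : η ≤ 1 / 10) (hι : 0 ≤ ι) (hm : 0 ≤ m)
    (hA : |A| ≤ η) (hB : |B| ≤ η) (hS : |S + c * (N * (1 + A + B))| ≤
      N * (c * (4 * η ^ 2 + 6 * ι + 5 * m))) (hL : |L + D * c| ≤ D * c * (3 * m)) :
    |S - L + D * c * (A + B)| ≤ D * c * (10 * (δ + η ^ 2 + ι + m)) := by
  have e : S - L + D * c * (A + B) =
      (S + c * (N * (1 + A + B))) - (L + D * c) - c * ((N - D) * (1 + A + B)) := by ring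
  have h1 : |1 + A + B| ≤ 2 := by
    have := abs_le.1 hA
    have := abs_le.1 hB
    exact abs_le.2 ⟨by linarith, by linarith⟩
  have h2 : |c * ((N - D) * (1 + A + B))| ≤ c * (δ * D * 2) := by
    rw [abs_mul, abs_mul, abs_of_nonneg hc]
    exact mul_le_mul_of_nonneg_left (mul_le_mul hN h1 (abs_nonneg _) (by positivity)) hc
  have h3 : N ≤ 11 / 10 * D := by nlinarith [(abs_le.1 hN).2]
  have h4 : N * (c * (4 * η ^ 2 + 6 * ι + 5 * m)) ≤
      11 / 10 * D * (c * (4 * η ^ 2 + 6 * ι + 5 * m)) :=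
    mul_le_mul_of_nonneg_right h3 (by positivity)
  have hw : 0 ≤ D * c := by positivity
  rw [e]
  refine (abs_sub _ _).trans ((add_le_add ((abs_sub _ _).trans (add_le_add (hS.trans h4) hL))
    h2).trans ?_)
  nlinarith [mul_nonneg hw hδ0, mul_nonneg hw (sq_nonneg η), mul_nonneg hw hι, mul_nonneg hw hm]

theorem res_ok : ∃ C, 0 ≤ C ∧ ResS C := by
  refine ⟨10, by norm_num, ?_⟩
  intro V _ _ G D δ η ι M s hR hδ0 hδ hη hι hD hM hm hI hx a b hab
  have hD0 : 0 ≤ D := by linarith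
  have hM0 : (0 : ℝ) < M := by exact_mod_cast hM
  have r0 := rbar_pos hD0 M s
  have r1 : rbar D M s ^ 2 ≤ 1 := pow_le_one₀ r0.le (rbar_le_one hD0 M s)
  have c0 : 0 ≤ rbar D M s ^ 2 / M := by positivity
  have c1 : rbar D M s ^ 2 / M ≤ D / M := div_le_div_of_nonneg_right (by linarith) hM0.le
  have hN : 0 < cod G a b := lt_of_lt_of_le (by nlinarith) (hR.ge hab)
  have key : ∀ v ∈ nb G a b, 0 ≤ rho G (II G M s) a v b * rho G (II G M s) b v a / M ∧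
      rho G (II G M s) a v b * rho G (II G M s) b v a / M ≤ 2 * (rbar D M s ^ 2 / M) ∧
      |Real.log (1 - II G M (s + 1) a b v) - Real.log (1 - II G M s a b v) +
        rbar D M s ^ 2 / M * (1 + xi G D M s a v + xi G D M s b v)| ≤
        rbar D M s ^ 2 / M * (4 * η ^ 2 + 6 * ι + 5 * (D / M)) := fun v hv => by
    obtain ⟨h1, h2⟩ := mem_nb.1 hv
    have hb : b ∈ nb G a v := mem_nb.2 ⟨hab, h2.symm⟩
    have ha : a ∈ nb G b v := mem_nb.2 ⟨hab.symm, h1.symm⟩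
    refine point_res c0 c1 hm (hx a v h1) (hx b v h2) hη hι (hI a v b h1 hb) (hI b v a h2 ha)
      (hI a b v hab hv) ?_
    rw [rho_res hD0 hb fun u hu => by linarith [(hI a v u h1 hu).2],
      rho_res hD0 ha fun u hu => by linarith [(hI b v u h2 hu).2], Real.exp_add,
      div_mul_div_comm]
    generalize (1 - II G M s a v b) * (1 - II G M s b v a) = P
    ring
  refine ⟨fun v hv => ⟨le_add_of_nonneg_right (key v hv).1, ?_⟩, ?_⟩
  · rw [mul_div_assoc]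
    exact add_le_add_right (key v hv).2.1 _
  obtain ⟨v₀, hv₀⟩ : (nb G a b).Nonempty := card_pos.1 (by rw [cod] at hN; exact_mod_cast hN)
  have hι0 : 0 ≤ ι := (hI a b v₀ hab hv₀).1.trans (hI a b v₀ hab hv₀).2
  obtain ⟨hA1, hA2⟩ := opS_res (φ := xi G D M s) hN fun v hv => hx a v (mem_nb.1 hv).1
  obtain ⟨hB1, hB2⟩ := opS_res (φ := xi G D M s) (cod_comm G a b ▸ hN)
    fun v hv => hx b v (mem_nb.1 hv).1
  rw [nb_comm G b a, cod_comm G b a] at hB1
  have w1 : D * (rbar D M s ^ 2 / M) ≤ D / M := by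
    rw [← mul_div_assoc]
    exact div_le_div_of_nonneg_right (mul_le_of_le_one_right hD0 r1) hM0.le
  have w0 : 0 ≤ D * (rbar D M s ^ 2 / M) := by positivity
  have h := final_res (S := ∑ v ∈ nb G a b, Real.log (1 - II G M (s + 1) a b v) -
      ∑ v ∈ nb G a b, Real.log (1 - II G M s a b v))
    (L := Real.log (rbar D M (s + 1)) - Real.log (rbar D M s)) (m := D / M)
    c0 hD (hR a b hab) hδ0 hδ hη hι0 (by positivity) hA2 hB2 ?_ ?_
  · rw [mul_div_assoc]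
    refine le_trans (le_of_eq (congrArg abs ?_)) h
    simp only [xi]
    ring
  · have h1 := (abs_sum_le_sum_abs _ _).trans (sum_le_sum fun v hv => (key v hv).2.2)
    rw [sum_const, nsmul_eq_mul, sum_add_distrib, sum_sub_distrib, ← mul_sum, sum_add_distrib,
      sum_add_distrib, hA1, hB1, sum_const, nsmul_eq_mul] at h1
    refine le_trans (le_of_eq (congrArg abs ?_)) h1
    rw [cod]
    ring
  · rw [rbar_res hD0, mul_div_assoc]
    generalize D * (rbar D M s ^ 2 / M) = w at w0 w1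
    have h1 := abs_le.1 (log_res (t := -(2 * w))
      (by rw [abs_neg, abs_of_nonneg (by linarith)]; linarith))
    rw [sub_neg_eq_add] at h1
    have h2 : w * w ≤ w * (D / M) := mul_le_mul_of_nonneg_left w1 w0
    exact abs_le.2 ⟨by nlinarith, by nlinarith⟩

end Vale.Agent.P046
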