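import Vale.Agent.P046.Walk

/-! # P046: the output of the first phase -/

set_option linter.unusedSectionVars false

namespace Vale.Agent.P046

open Finset Vale.Agent.P015

variable {V : Type} [Fintype V] [DecidableEq V]

lemma ae_good_st1 {good : ℕ → SimpleGraph V → Prop} (h0 : good 0 ⊤) :
    ∀ k, (klaw good k).Ae fun o => ∀ G, o = some G → good k G
  | 0 => FP.ae_pure fun G hG => by cases hG; exact h0
  | k + 1 => by
    refine FP.ae_bind (FP.ae_of_all _ fun o => ?_)
    cases o with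
    | none => exact FP.ae_pure fun G hG => by cases hG
    | some G =>
      refine FP.ae_map.mpr (FP.ae_of_all _ fun T G' hG => ?_)
      split_ifs at hG with h
      cases hG; exact h

lemma chain_up_st1 {good : ℕ → SimpleGraph V → Prop} (h0 : good 0 ⊤) {F : SimpleGraph V → ℝ}
    (hF : ∀ G, 0 ≤ F G) {c : ℕ → ℝ} (hc : ∀ k, 0 ≤ c k) : ∀ K : ℕ,
    (∀ k < K, ∀ G, good k G → ((FP.unif (triples V)).E fun T => F (lz G T)) ≤ c k * F G) →
    ((klaw good K).E fun o => o.elim 0 F) ≤ (∏ k ∈ range K, c k) * F ⊤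
  | 0, _ => by simp [klaw]
  | K + 1, h => by
    have ih := chain_up_st1 h0 hF hc K fun k hk => h k (by omega)
    rw [klaw, FP.E_bind, Finset.prod_range_succ, mul_right_comm]
    refine le_trans ?_ (mul_le_mul_of_nonneg_right ih (hc K))
    rw [← FP.E_mul_right]
    refine FP.E_mono_ae _ ((ae_good_st1 h0 K).mono fun o ho => ?_)
    cases o with
    | none => simp [kstep]
    | some G =>
      simp only [kstep, FP.E_map, Option.elim_some]
      rw [mul_comm]
      refine le_trans (FP.E_mono _ fun T => ?_) (h K (by omega) G (ho G rfl))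
      split_ifs
      · exact le_rfl
      · exact hF _

lemma chain_lo_st1 {good : ℕ → SimpleGraph V → Prop} (h0 : good 0 ⊤) {F : SimpleGraph V → ℝ}
    {B : ℝ} (hF : ∀ G, F G ≤ B) {c : ℕ → ℝ} (hc : ∀ k, 0 ≤ c k) (hB : ∀ k, B * c k ≤ B) : ∀ K : ℕ,
    (∀ k < K, ∀ G, good k G → c k * F G ≤ (FP.unif (triples V)).E fun T => F (lz G T)) →
    (∏ k ∈ range K, c k) * F ⊤ ≤ (klaw good K).E fun o => o.elim B F
  | 0, _ => by simp [klaw]
  | K + 1, h => by
    have ih := chain_lo_st1 h0 hF hc hB K fun k hk => h k (by omega)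
    rw [klaw, FP.E_bind, Finset.prod_range_succ, mul_right_comm]
    refine le_trans (mul_le_mul_of_nonneg_right ih (hc K)) ?_
    rw [← FP.E_mul_right]
    refine FP.E_mono_ae _ ((ae_good_st1 h0 K).mono fun o ho => ?_)
    cases o with
    | none => simpa [kstep] using hB K
    | some G =>
      simp only [kstep, FP.E_map, Option.elim_some]
      rw [mul_comm]
      refine le_trans (h K (by omega) G (ho G rfl)) (FP.E_mono _ fun T => ?_)
      split_ifs
      · exact le_rfl
      · exact hF _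

lemma harm_step_st1 (hne : (triples V).Nonempty) {f h : SimpleGraph V → ℝ} (hh : Harm f h)
    (G : SimpleGraph V) : ((FP.unif (triples V)).E fun T => h (lz G T)) = h G := by
  have h1 : ∑ T ∈ triples V, (h (lz G T) - h G) = 0 := by
    rw [← hh.1 G, ← Finset.sum_subset (tris_subset G)]
    · exact Finset.sum_congr rfl fun T hT => by rw [lz, if_pos (mem_tris.mp hT)]
    · intro T _ hT
      rw [lz, if_neg fun h' => hT (mem_tris.mpr h'), sub_self]
  have h2 : ((FP.unif (triples V)).E fun T => h (lz G T) - h G) = 0 := by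
    rw [FP.E_unif hne, h1, zero_div]
  rw [FP.E_sub, FP.E_const] at h2
  linarith

lemma up_step_st1 (hR : RateS) (hne : (triples V).Nonempty) {G : SimpleGraph V} {D δ : ℝ}
    (hG : Reg G D δ) (H : Finset (Sym2 V)) (hH : (H.card : ℝ) ≤ δ * D) :
    ((FP.unif (triples V)).E fun T => ind H (lz G T))
      ≤ Real.exp (-(H.card * (1 - 2 * δ)) * (D / (triples V).card)) * ind H G := by
  rcases ind_cases H G with h | h
  · rw [h.1, mul_one]
    refine (hR V G H hne h.2).2.trans (le_trans ?_ (Real.add_one_le_exp _))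
    have hN : (0 : ℝ) < (triples V).card := by exact_mod_cast hne.card_pos
    have h1 : (H.card : ℝ) * (D - δ * D) ≤ ∑ e ∈ H, codS G e := by
      rw [← nsmul_eq_mul, ← Finset.sum_const]
      exact Finset.sum_le_sum fun e he => by
        have := (abs_le.mp (hG.absS (h.2 e he))).1; linarith
    have h2 : (H.card : ℝ) ^ 2 ≤ H.card * (δ * D) := by
      rw [sq]; exact mul_le_mul_of_nonneg_left hH (Nat.cast_nonneg _)
    have h3 : H.card * (1 - 2 * δ) * D / (triples V).card
        ≤ (∑ e ∈ H, codS G e - (H.card : ℝ) ^ 2) / (triples V).card :=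
      div_le_div_of_nonneg_right (by nlinarith) hN.le
    rw [neg_mul, ← mul_div_assoc]
    linarith
  · rw [h.1, mul_zero]
    exact FP.E_le_of_ae _ (FP.ae_of_all _ fun T => (ind_mono (lz_le G T) H).trans h.1.le)

lemma exp_le_st1 {t : ℝ} (h0 : 0 ≤ t) (h1 : t ≤ 1 / 2) : Real.exp (-(t * (1 + 2 * t))) ≤ 1 - t := by
  have h := Real.add_one_le_exp (t * (1 + 2 * t))
  have h2 : 0 < t * (1 + 2 * t) + 1 := by positivity
  rw [Real.exp_neg, inv_eq_one_div, div_le_iff₀ (Real.exp_pos _)]
  have h3 : 1 ≤ (1 - t) * (t * (1 + 2 * t) + 1) := by nlinarith [mul_nonneg (sq_nonneg t) (sub_nonneg.mpr h1)]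
  exact h3.trans (mul_le_mul_of_nonneg_left h (by linarith))

lemma lo_step_st1 (hR : RateS) (hne : (triples V).Nonempty) {G : SimpleGraph V} {D δ : ℝ}
    (hG : Reg G D δ) (hD : 0 ≤ D) (hδ : 0 ≤ δ) (hδ1 : δ ≤ 1)
    (ha : D / (triples V).card ≤ δ / 10) (e : Sym2 V) :
    Real.exp (-(1 + 2 * δ) * (D / (triples V).card)) * ind {e} G
      ≤ (FP.unif (triples V)).E fun T => ind {e} (lz G T) := by
  rcases ind_cases {e} G with h | h
  · rw [h.1, mul_one]
    refine le_trans ?_ (hR V G {e} hne h.2).1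
    have hN : (0 : ℝ) < (triples V).card := by exact_mod_cast hne.card_pos
    have h1 := (abs_le.mp (hG.absS (h.2 e (Finset.mem_singleton_self e)))).2
    have h2 : codS G e / (triples V).card ≤ (1 + δ) * (D / (triples V).card) := by
      rw [← mul_div_assoc]; exact div_le_div_of_nonneg_right (by linarith) hN.le
    have h3 : 0 ≤ D / (triples V).card := div_nonneg hD hN.le
    rw [Finset.sum_singleton]
    generalize D / (triples V).card = a at *
    have h4 : (1 + δ) * a ≤ δ / 5 := by nlinarith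
    have h5 : 0 ≤ (1 + δ) * a := by positivity
    have h6 := exp_le_st1 h5 (by linarith)
    refine le_trans (Real.exp_le_exp.mpr ?_) (h6.trans (by linarith))
    have h7 : (1 + δ) * (1 + 2 * ((1 + δ) * a)) ≤ 1 + 2 * δ := by nlinarith
    nlinarith [mul_le_mul_of_nonneg_right h7 h3]
  · rw [h.1, mul_zero]
    exact FP.E_nonneg _ fun T => ind_nonneg _ _

lemma log_bounds_st1 {n : ℕ} (hn : 4 ≤ n) {θ : ℝ} (hθ : ∀ k, Dk n k / (n.choose 3 : ℝ) ≤ θ)
    (K : ℕ) :
    Real.log (((n : ℝ) - 2) / Dk n K) ≤ 2 * ∑ k ∈ range K, Dk n k / (n.choose 3 : ℝ) ∧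
    (2 - 4 * θ) * ∑ k ∈ range K, Dk n k / (n.choose 3 : ℝ) ≤ Real.log (((n : ℝ) - 2) / Dk n K) := by
  have h : (4 : ℝ) ≤ n := by exact_mod_cast hn
  induction K with
  | zero => rw [Dk_zero, div_self (by linarith)]; simp
  | succ K ih =>
    have h1 := Dk_pos hn K
    have h2 : 0 ≤ Dk n K / (n.choose 3 : ℝ) := by positivity
    have h4 : (0 : ℝ) < n - 2 := by linarith
    have h3 := hθ K
    rw [Finset.sum_range_succ, Dk_succ hn, div_div_eq_mul_div, mul_div_right_comm,
      Real.log_mul (by positivity) (by positivity)]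
    generalize Dk n K / (n.choose 3 : ℝ) = a at *
    have h5 := Real.log_le_sub_one_of_pos (show 0 < 1 + 2 * a by linarith)
    have h6 := Real.one_sub_inv_le_log_of_pos (show 0 < 1 + 2 * a by linarith)
    have h7 : (1 + 2 * a)⁻¹ ≤ 1 - 2 * a + 4 * a ^ 2 := by
      rw [inv_eq_one_div, div_le_iff₀ (by linarith)]
      nlinarith [pow_nonneg h2 3]
    have h8 : a ^ 2 ≤ θ * a := by rw [sq]; exact mul_le_mul_of_nonneg_right h3 h2
    constructor <;> nlinarith [ih.1, ih.2]

lemma exists_K_st1 {n : ℕ} (hn : 4 ≤ n) {x : ℝ} (hx : 1 ≤ x) (hxn : x ≤ n - 2) :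
    ∃ K, x ≤ Dk n K ∧ Dk n K ≤ 2 * x := by
  have h : (4 : ℝ) ≤ n := by exact_mod_cast hn
  have h3 : (0 : ℝ) < (n.choose 3 : ℝ) := by exact_mod_cast Nat.choose_pos (by omega)
  have hex : ∃ k, Dk n k < x := by
    refine ⟨n.choose 3, lt_of_lt_of_le ?_ hx⟩
    have h4 : (0 : ℝ) < 1 / ((n : ℝ) - 2) := one_div_pos.mpr (by linarith)
    rw [Dk, mul_div_assoc, div_self h3.ne', div_lt_one (by linarith)]
    linarith
  have h0 : Nat.find hex ≠ 0 := fun h0 => by
    have := Nat.find_spec hex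
    rw [h0, Dk_zero] at this; linarith
  obtain ⟨K, hK⟩ := Nat.exists_eq_succ_of_ne_zero h0
  refine ⟨K, not_lt.mp (Nat.find_min hex (by omega)), ?_⟩
  have h1 := Nat.find_spec hex
  have h2 := Dk_pos hn K
  have h5 : Dk n K / (n.choose 3 : ℝ) ≤ 1 / 2 := (a_le hn K).trans (by
    rw [div_le_iff₀ (by nlinarith)]; nlinarith)
  rw [hK, Dk_succ hn, div_lt_iff₀ (by positivity)] at h1
  nlinarith

lemma kill_small_st1 {p n x : ℝ} (p0 : 0 < p) (hn : 0 < n - 2) (h : 1 ≤ p ^ 2 * (n - 2))
    (hx : 0 < x) (hxn : x ≤ n) : 1 / n ^ 2 ≤ p * (1 / x) := by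
  have h6 : 1 / n ≤ p := by
    by_contra h7
    push Not at h7
    have h8 : p * n < 1 := by rwa [lt_div_iff₀ (by linarith)] at h7
    have h9 : p ^ 2 * (n - 2) ≤ (p * n) * (p * n) := by nlinarith [sq_nonneg p]
    have : 0 ≤ p * n := mul_nonneg p0.le (by linarith)
    nlinarith
  rw [sq, ← one_div_mul_one_div]
  exact mul_le_mul h6 (one_div_le_one_div_of_le hx hxn) (one_div_nonneg.mpr (by linarith)) p0.le

theorem st1_ok (hK : KillS) (hR : RateS) : St1S := by
  obtain ⟨C1, hK⟩ := hK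
  obtain ⟨C2, hC2, hlog⟩ := polylog 4000 1
  refine ⟨max (max C1 C2) 10, fun V _ _ ν hν hn => ?_⟩
  have hν1 : C1 ≤ ν := (le_max_left _ _).trans ((le_max_left _ _).trans hν)
  have hν2 : C2 ≤ ν := (le_max_right _ _).trans ((le_max_left _ _).trans hν)
  have hν3 : 10 ≤ ν := (le_max_right _ _).trans hν
  have hν0 : 0 < ν := by linarith
  have hν4 : 1 ≤ ν := by linarith
  set n := Fintype.card V with hnd
  have e1 : ν ^ 100 * 10 ≤ n := by
    rw [← hn, show 4000 = 100 + 3900 by norm_num, pow_add]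
    exact mul_le_mul_of_nonneg_left (hν3.trans (le_self_pow₀ hν4 (by norm_num))) (by positivity)
  have e2 : 1 ≤ ν ^ 100 := one_le_pow₀ hν4
  have hn4 : 4 ≤ n := by
    have : (4 : ℝ) ≤ n := by linarith
    exact_mod_cast this
  have hn0 : (0 : ℝ) < n - 2 := by linarith
  obtain ⟨K, hK1, hK2⟩ := exists_K_st1 hn4 e2 (by linarith)
  obtain ⟨good, g0, g1, g2⟩ := hK V ν hν1 hn K hK1
  have hne : (triples V).Nonempty := by
    rw [← Finset.card_pos, card_triples]; exact Nat.choose_pos (by omega)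
  have hDp := Dk_pos hn4
  -- numerics
  set δ : ℝ := 1 / ν ^ 46 with hδ
  have e46 : ν ^ 46 ≤ ν ^ 100 := pow_le_pow_right₀ hν4 (by norm_num)
  have δ0 : 0 < δ := by positivity
  have δν : δ * ν = 1 / ν ^ 45 := by rw [hδ, pow_succ ν 45]; field_simp
  have e45 : 10 * (1 / ν ^ 45) ≤ 1 / ν ^ 44 := by
    rw [pow_succ ν 44, mul_one_div, div_le_div_iff₀ (by positivity) (by positivity)]
    nlinarith [pow_pos hν0 44]
  have e44 : 1 / ν ^ 44 ≤ 1 := div_le_one_of_le₀ (one_le_pow₀ hν4) (by positivity)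
  have δ1 : δ ≤ 1 := div_le_one_of_le₀ (one_le_pow₀ hν4) (by positivity)
  have hθ : ∀ k, Dk n k / (n.choose 3 : ℝ) ≤ δ / 10 := fun k => (a_le hn4 k).trans (by
    rw [hδ, div_div, div_le_div_iff₀ (by nlinarith) (by positivity)]
    have : (0 : ℝ) < ν ^ 46 := by positivity
    nlinarith)
  obtain ⟨l1, l2⟩ := log_bounds_st1 hn4 hθ K
  have l3 := sum_a_le hn4 K
  have l4 : Real.log (((n : ℝ) - 2) / Dk n K) ≤ ν := by
    have h1 := hlog ν hν2
    rw [pow_one] at h1
    refine le_trans ?_ h1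
    have h2 : 4000 * Real.log ν = Real.log n := by rw [← hn, Real.log_pow]; norm_num
    rw [h2]
    refine Real.log_le_log (div_pos hn0 (hDp K)) ?_
    rw [div_le_iff₀ (hDp K)]; nlinarith
  set S := ∑ k ∈ range K, Dk n k / (n.choose 3 : ℝ) with hS
  have S0 : 0 ≤ S := Finset.sum_nonneg fun k _ => div_nonneg (hDp k).le (Nat.cast_nonneg _)
  set L := Real.log (((n : ℝ) - 2) / Dk n K) with hL
  have hp2 : Real.exp (-L / 2) ^ 2 * ((n : ℝ) - 2) = Dk n K := by
    rw [← Real.exp_nat_mul, show ((2 : ℕ) : ℝ) * (-L / 2) = -L by push_cast; ring, Real.exp_neg, hL,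
      Real.exp_log (div_pos hn0 (hDp K))]
    field_simp
  have δS : δ * S ≤ 1 / ν ^ 45 := δν ▸ mul_le_mul_of_nonneg_left (by linarith) δ0.le
  have δS0 : 0 ≤ δ * S := by positivity
  set p := Real.exp (-L / 2) with hp
  have p0 : 0 < p := Real.exp_pos _
  refine ⟨Dk n K, p, klaw good K, hK1, hK2, p0, hp2, ?_, g2,
    (ae_good_st1 g0 K).mono fun o ho G hG => g1 K le_rfl G (ho G hG), ?_, ?_⟩
  · intro f h B hh hB
    have := chain_lo_st1 g0 hB (c := fun _ => 1) (fun _ => zero_le_one) (fun _ => (mul_one B).le) K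
      fun k _ G _ => by rw [harm_step_st1 hne hh, one_mul]
    simpa using this
  · intro H hH
    have h1 := chain_up_st1 g0 (ind_nonneg H)
      (c := fun k => Real.exp (-(H.card * (1 - 2 * δ)) * (Dk n k / (n.choose 3 : ℝ))))
      (fun _ => (Real.exp_pos _).le) K fun k hk G hG => by
        have h2 : (H.card : ℝ) ≤ δ * Dk n k := by
          refine hH.trans (le_trans ?_ (mul_le_mul_of_nonneg_left
            (hK1.trans (Dk_anti hn4 hk.le)) δ0.le))
          rw [hδ, one_div_mul_eq_div, le_div_iff₀ (by positivity), ← pow_add]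
          exact pow_le_pow_right₀ hν4 (by norm_num)
        have := up_step_st1 hR hne (g1 k hk.le G hG) H h2
        rwa [card_triples] at this
    rw [← Real.exp_sum, ← Finset.mul_sum, ← hS] at h1
    refine h1.trans ((mul_le_of_le_one_right (Real.exp_pos _).le (ind_le_one _ _)).trans ?_)
    rw [show -(H.card * (1 - 2 * δ)) * S = H.card * (-S + 2 * (δ * S)) by ring, Real.exp_nat_mul]
    refine pow_le_pow_left₀ (Real.exp_pos _).le ?_ _
    rw [Real.exp_add]
    refine mul_le_mul (Real.exp_le_exp.mpr (by linarith)) ?_ (Real.exp_pos _).le p0.le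
    refine (Real.exp_bound_div_one_sub_of_interval (by linarith) (by linarith)).trans ?_
    rw [div_le_iff₀ (by linarith)]
    nlinarith
  · intro a b hab
    have h1 := chain_lo_st1 g0 (ind_le_one {s(a, b)})
      (c := fun k => Real.exp (-(1 + 2 * δ) * (Dk n k / (n.choose 3 : ℝ))))
      (fun _ => (Real.exp_pos _).le) (fun k => by
        rw [one_mul, Real.exp_le_one_iff]
        have := div_nonneg (hDp k).le (Nat.cast_nonneg (α := ℝ) (n.choose 3))
        nlinarith) K fun k hk G hG => by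
        have := lo_step_st1 hR hne (g1 k hk.le G hG) (hDp k).le δ0.le δ1
          (by rw [card_triples]; exact hθ k) s(a, b)
        rwa [card_triples] at this
    rw [← Real.exp_sum, ← Finset.mul_sum, ← hS, ind_of (by simpa using hab), mul_one] at h1
    have h2 : ((klaw good K).E fun o => o.elim 1 (ind {s(a, b)}))
        = ((klaw good K).E fun o => o.elim 0 (ind {s(a, b)}))
          + (klaw good K).Pr fun o => o = none := by
      classical
      rw [FP.Pr_eq_E, ← FP.E_add]
      congr 1; funext o; cases o <;> simp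
    have h3 : p * (1 - 3 * (1 / ν ^ 45)) ≤ Real.exp (-(1 + 2 * δ) * S) := by
      have h4 := Real.add_one_le_exp (-(3 * (δ * S)))
      refine le_trans (mul_le_mul_of_nonneg_left (le_trans (by linarith) h4) p0.le) ?_
      rw [hp, ← Real.exp_add]
      exact Real.exp_le_exp.mpr (by nlinarith)
    have h5 : 1 / (n : ℝ) ^ 2 ≤ p * (1 / ν ^ 45) :=
      kill_small_st1 p0 hn0 (by rw [hp2]; linarith) (by positivity) (by
        have : ν ^ 45 ≤ ν ^ 100 := pow_le_pow_right₀ hν4 (by norm_num)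
        linarith)
    have h8 : 0 ≤ p * (1 / ν ^ 45) := by positivity
    have h9 := mul_le_mul_of_nonneg_left e45 p0.le
    linarith

end Vale.Agent.P046
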