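import Vale.Agent.P046.Walk

/-! # P046: stability of the linearised recursion -/

set_option linter.unusedSectionVars false

namespace Vale.Agent.P046

open Finset

variable {V : Type} [Fintype V] [DecidableEq V]

open Classical in
/-- restriction to the edges. -/
noncomputable def cutStab (G : SimpleGraph V) : (V → V → ℝ) →ₗ[ℝ] (V × V → ℝ) where
  toFun φ e := if G.Adj e.1 e.2 then φ e.1 e.2 else 0
  map_add' φ ψ := by
    funext e
    simp only [Pi.add_apply]
    split_ifs <;> simp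
  map_smul' c φ := by
    funext e
    simp only [Pi.smul_apply, RingHom.id_apply]
    split_ifs <;> simp

open Classical in
/-- weighted restriction to the edges. -/
noncomputable def wtdStab (G : SimpleGraph V) :
    (V → V → ℝ) →ₗ[ℝ] EuclideanSpace ℝ (V × V) where
  toFun φ := WithLp.toLp 2 fun e =>
    if G.Adj e.1 e.2 then Real.sqrt (cod G e.1 e.2) * φ e.1 e.2 else 0
  map_add' φ ψ := by
    ext e
    simp only [Pi.add_apply, PiLp.add_apply]
    split_ifs <;> simp [mul_add]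
  map_smul' c φ := by
    ext e
    simp only [Pi.smul_apply, RingHom.id_apply, PiLp.smul_apply, smul_eq_mul]
    split_ifs
    · ring
    · simp

noncomputable def pStab (G : SimpleGraph V) : Seminorm ℝ (V → V → ℝ) :=
  (normSeminorm ℝ (V × V → ℝ)).comp (cutStab G)

noncomputable def qStab (G : SimpleGraph V) : Seminorm ℝ (V → V → ℝ) :=
  (normSeminorm ℝ (EuclideanSpace ℝ (V × V))).comp (wtdStab G)

def flipStab (V : Type) : (V → V → ℝ) →ₗ[ℝ] (V → V → ℝ) where
  toFun φ a b := φ b a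
  map_add' _ _ := rfl
  map_smul' _ _ := rfl

noncomputable def opSStab (G : SimpleGraph V) : (V → V → ℝ) →ₗ[ℝ] (V → V → ℝ) where
  toFun := opS G
  map_add' φ ψ := by
    funext a b
    simp only [opS, Pi.add_apply, sum_add_distrib, add_div]
  map_smul' c φ := by
    funext a b
    simp only [opS, Pi.smul_apply, RingHom.id_apply, smul_eq_mul, ← mul_sum, mul_div_assoc]

noncomputable def opPStab (G : SimpleGraph V) : (V → V → ℝ) →ₗ[ℝ] (V → V → ℝ) where
  toFun := opP G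
  map_add' φ ψ := by
    funext a b
    simp only [opP, Pi.add_apply, mul_add, sum_add_distrib, add_div]
  map_smul' c φ := by
    funext a b
    simp only [opP, Pi.smul_apply, RingHom.id_apply, smul_eq_mul, mul_left_comm _ c, ← mul_sum,
      mul_div_assoc]

variable {G : SimpleGraph V}

lemma le_p_stab (φ : V → V → ℝ) {a b : V} (h : G.Adj a b) : |φ a b| ≤ pStab G φ := by
  have := norm_le_pi_norm (cutStab G φ) (a, b)
  simp only [cutStab, LinearMap.coe_mk, AddHom.coe_mk, h, if_true] at this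
  exact this

lemma p_le_stab {φ : V → V → ℝ} {c : ℝ} (hc : 0 ≤ c) (h : ∀ a b, G.Adj a b → |φ a b| ≤ c) :
    pStab G φ ≤ c := by
  refine (pi_norm_le_iff_of_nonneg hc).2 fun e => ?_
  simp only [cutStab, LinearMap.coe_mk, AddHom.coe_mk]
  split_ifs with he
  · exact h _ _ he
  · simpa using hc

lemma q_sq_stab (φ : V → V → ℝ) : qStab G φ ^ 2 = sq2 G φ := by
  classical
  change ‖wtdStab G φ‖ ^ 2 = _
  rw [EuclideanSpace.real_norm_sq_eq, Fintype.sum_prod_type, sq2]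
  refine sum_congr rfl fun u _ => ?_
  rw [nb, sum_filter]
  refine sum_congr rfl fun v _ => ?_
  simp only [wtdStab, LinearMap.coe_mk, AddHom.coe_mk, and_self]
  split_ifs
  · rw [mul_pow, Real.sq_sqrt (cod_nonneg _ _ _)]
  · simp

lemma q_le_stab {φ : V → V → ℝ} {c : ℝ} (hc : 0 ≤ c) (h : sq2 G φ ≤ c ^ 2) : qStab G φ ≤ c := by
  rw [← q_sq_stab] at h
  exact (pow_le_pow_iff_left₀ (apply_nonneg _ _) hc two_ne_zero).1 h

lemma avg_le_stab {X : Finset V} {c f : V → ℝ} {M : ℝ} (hM : 0 ≤ M) (hc : ∀ x, 0 ≤ c x)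
    (hf : ∀ x ∈ X, |f x| ≤ M) : |(∑ x ∈ X, c x * f x) / ∑ x ∈ X, c x| ≤ M := by
  have hZ : 0 ≤ ∑ x ∈ X, c x := sum_nonneg fun x _ => hc x
  rw [abs_div, abs_of_nonneg hZ]
  refine div_le_of_le_mul₀ hZ hM ((abs_sum_le_sum_abs _ _).trans ?_)
  rw [mul_sum]
  refine sum_le_sum fun x hx => ?_
  rw [abs_mul, abs_of_nonneg (hc x), mul_comm]
  exact mul_le_mul_of_nonneg_right (hf x hx) (hc x)

lemma opP_le_stab (φ : V → V → ℝ) (a b : V) : |opP G φ a b| ≤ pStab G φ :=
  avg_le_stab (apply_nonneg _ _) (cod_nonneg G a) fun _ hx => le_p_stab φ (mem_nb.1 hx).1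

lemma opS_le_stab (φ : V → V → ℝ) (a b : V) : |opS G φ a b| ≤ pStab G φ := by
  have := avg_le_stab (X := nb G a b) (c := fun _ => 1) (f := φ a) (apply_nonneg (pStab G) φ)
    (fun _ => zero_le_one) fun _ hx => le_p_stab φ (mem_nb.1 hx).1
  simp only [one_mul, sum_const, nsmul_eq_mul, mul_one] at this
  exact this

lemma sq2_flip_stab (φ : V → V → ℝ) : sq2 G (flipStab V φ) = sq2 G φ := by
  unfold sq2
  rw [sum_comm' (s' := fun v => nb G v v) (t' := univ)]
  · exact sum_congr rfl fun u _ => sum_congr rfl fun v _ => by rw [cod_comm]; rfl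
  · intro x y
    simp [G.adj_comm]

lemma sq2_opP_stab (φ : V → V → ℝ) : sq2 G (opP G φ) ≤ sq2 G φ := by
  refine sum_le_sum fun u _ => ?_
  simp only [opP]
  rw [← sum_mul]
  generalize hZ : ∑ x ∈ nb G u u, cod G u x = Z
  generalize hm : (∑ x ∈ nb G u u, cod G u x * φ u x) / Z = m
  by_cases h0 : Z = 0
  · rw [h0, zero_mul]
    exact sum_nonneg fun x _ => mul_nonneg (cod_nonneg _ _ _) (sq_nonneg _)
  have h1 : ∑ x ∈ nb G u u, cod G u x * φ u x = Z * m := by rw [← hm, mul_div_cancel₀ _ h0]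
  have e2 : ∀ x, cod G u x * φ u x ^ 2 = cod G u x * (φ u x - m) ^ 2
      + 2 * m * (cod G u x * φ u x) - m ^ 2 * cod G u x := fun x => by ring
  simp only [e2]
  rw [sum_sub_distrib, sum_add_distrib, ← mul_sum, ← mul_sum, h1, hZ]
  have := sum_nonneg fun x (_ : x ∈ nb G u u) =>
    mul_nonneg (cod_nonneg G u x) (sq_nonneg (φ u x - m))
  nlinarith

lemma opP_opP_stab (φ : V → V → ℝ) : opP G (opP G φ) = opP G φ := by
  funext a b
  simp only [opP]
  rw [← sum_mul]
  by_cases h0 : ∑ x ∈ nb G a a, cod G a x = 0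
  · rw [h0, div_zero, div_zero]
  · rw [mul_div_cancel_left₀ _ h0]

lemma p_le_q_stab (hc : ∀ a b, G.Adj a b → 1 ≤ cod G a b) (φ : V → V → ℝ) :
    pStab G φ ≤ 1 * qStab G φ := by
  rw [one_mul]
  refine p_le_stab (apply_nonneg _ _) fun a b h => ?_
  refine (pow_le_pow_iff_left₀ (abs_nonneg _) (apply_nonneg _ _) two_ne_zero).1 ?_
  rw [q_sq_stab, sq_abs]
  have h0 : ∀ u v, 0 ≤ cod G u v * φ u v ^ 2 := fun u v =>
    mul_nonneg (cod_nonneg G u v) (sq_nonneg _)
  calc φ a b ^ 2 ≤ cod G a b * φ a b ^ 2 := le_mul_of_one_le_left (sq_nonneg _) (hc a b h)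
    _ ≤ ∑ v ∈ nb G a a, cod G a v * φ a v ^ 2 :=
        single_le_sum (fun v _ => h0 a v) (mem_nb.2 ⟨h, h⟩)
    _ ≤ sq2 G φ := single_le_sum (f := fun u => ∑ v ∈ nb G u u, cod G u v * φ u v ^ 2)
        (fun u _ => sum_nonneg fun v _ => h0 u v) (mem_univ a)

lemma sq2_le_stab (φ : V → V → ℝ) : sq2 G φ ≤ (Fintype.card V : ℝ) ^ 3 * pStab G φ ^ 2 := by
  have h1 : ∀ u, ∑ v ∈ nb G u u, cod G u v * φ u v ^ 2
      ≤ Fintype.card V * (Fintype.card V * pStab G φ ^ 2) := fun u => by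
    refine (sum_le_card_nsmul _ _ (Fintype.card V * pStab G φ ^ 2) fun v hv => ?_).trans ?_
    · refine mul_le_mul (cod_le_card G u v) ?_ (sq_nonneg _) (Nat.cast_nonneg _)
      rw [← sq_abs]
      exact pow_le_pow_left₀ (abs_nonneg _) (le_p_stab φ (mem_nb.1 hv).1) 2
    · rw [nsmul_eq_mul]
      exact mul_le_mul_of_nonneg_right (cod_le_card G u u) (by positivity)
  refine (sum_le_card_nsmul _ _ _ fun u _ => h1 u).trans_eq ?_
  rw [nsmul_eq_mul, card_univ]
  ring

lemma num_stab (B : ℝ) (k : ℕ) :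
    ∃ C : ℝ, ∀ ν : ℝ, C ≤ ν → B * (480000 * Real.log ν ^ 2) ^ k ≤ ν := by
  obtain ⟨C, -, h⟩ := polylog (B * 480000 ^ k) (2 * k)
  refine ⟨C, fun ν hν => le_trans (le_of_eq ?_) (h ν hν)⟩
  rw [mul_pow, ← pow_mul, mul_assoc]

lemma small_stab {ν γ y : ℝ} (hν : 2 ≤ ν) (hγ : 0 ≤ γ) (h16 : γ ^ 16 ≤ 1 / ν) (hy : 0 ≤ y)
    (h32 : y ^ 32 ≤ ν) (k : ℕ) : ν ^ k * (γ * y) ^ (32 * (k + 1)) ≤ 1 / 2 := by
  have hν0 : 0 < ν := by linarith
  have h1 : (γ * y) ^ 32 ≤ 1 / ν := by
    calc (γ * y) ^ 32 = γ ^ 16 * γ ^ 16 * y ^ 32 := by ring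
      _ ≤ 1 / ν * (1 / ν) * ν := by gcongr
      _ = 1 / ν := by field_simp
  calc ν ^ k * (γ * y) ^ (32 * (k + 1)) ≤ ν ^ k * (1 / ν) ^ (k + 1) := by
        rw [pow_mul]
        gcongr
    _ = 1 / ν := by
        rw [pow_succ, ← mul_assoc, ← mul_pow, mul_one_div_cancel hν0.ne', one_pow, one_mul]
    _ ≤ 1 / 2 := one_div_le_one_div_of_le (by norm_num) hν

theorem stab_ok (h : LinS) : StabS := by
  obtain ⟨k, hk⟩ : ∃ k : ℕ, 2 * k = 4000 * 3 := ⟨6000, rfl⟩
  obtain ⟨J, hJ⟩ : ∃ J : ℕ, J = 32 * (k + 1) := ⟨_, rfl⟩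
  obtain ⟨C1, hC1⟩ := num_stab (2 * J) (J + 1)
  obtain ⟨C2, hC2⟩ := num_stab 1 32
  refine ⟨max 3 (max C1 C2), fun V _ _ ν hν hn G γ g ξ w s hc hγ h16 hgap hw hτ hg h0 hrec => ?_⟩
  have hν3 : 3 ≤ ν := (le_max_left _ _).trans hν
  have n1 := hC1 ν (((le_max_left _ _).trans (le_max_right _ _)).trans hν)
  have n2 := hC2 ν (((le_max_right _ _).trans (le_max_right _ _)).trans hν)
  have hL : 1 ≤ Real.log ν := by
    rw [Real.le_log_iff_exp_le (by linarith)]
    linarith [Real.exp_one_lt_d9]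
  obtain ⟨r0, hr0, hmax⟩ := exists_max_image (range (s + 1)) (fun r => pStab G (ξ r))
    ⟨0, by simp⟩
  have key := h (V → V → ℝ) (pStab G) (qStab G) (flipStab V) (opPStab G)
    (opSStab G - opPStab G) γ 1 (ν ^ k) (200 * Real.log ν) g (pStab G (ξ r0)) w ξ
    (fun r => (w r)⁻¹ • (ξ (r + 1) - ξ r) + (opS G (ξ r) + flipStab V (opS G (ξ r)))) s J
    (fun φ => p_le_stab (apply_nonneg _ _) fun a b hab => le_p_stab φ hab.symm)
    (fun φ => q_le_stab (apply_nonneg _ _) (by rw [sq2_flip_stab, q_sq_stab]))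
    (fun φ => p_le_stab (apply_nonneg _ _) fun a b _ => opP_le_stab φ a b)
    (fun φ => q_le_stab (apply_nonneg _ _) (by rw [q_sq_stab]; exact sq2_opP_stab φ))
    opP_opP_stab
    (fun φ => p_le_stab (by positivity) fun a b _ =>
      (abs_sub _ _).trans ((add_le_add (opS_le_stab φ a b) (opP_le_stab φ a b)).trans_eq
        (two_mul _).symm))
    (fun φ => q_le_stab (by positivity) (by rw [mul_pow, q_sq_stab]; exact hgap φ))
    hγ zero_le_one (by positivity) (p_le_q_stab hc)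
    (fun φ => q_le_stab (by positivity) (by
      rw [mul_pow, ← pow_mul, mul_comm k, hk, pow_mul, hn]
      exact sq2_le_stab φ))
    (fun r => ⟨(hw r).1.le, (hw r).2⟩) hτ hg h0
    (fun r _ => by
      have e : opPStab G (ξ r) + (opSStab G - opPStab G) (ξ r) = opS G (ξ r) := by
        rw [LinearMap.sub_apply, add_sub_cancel]
        rfl
      rw [e, smul_add (w r) ((w r)⁻¹ • _), smul_inv_smul₀ (hw r).1.ne']
      abel)
    (fun r hr => p_le_stab hg fun a b hab => by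
      refine le_of_mul_le_mul_left (le_trans (le_of_eq ?_) (hrec r hr a b hab)) (hw r).1
      have hw0 := (hw r).1
      have e : ξ (r + 1) a b - ξ r a b + w r * (opS G (ξ r) a b + opS G (ξ r) b a)
          = w r * ((w r)⁻¹ * (ξ (r + 1) a b - ξ r a b)
            + (opS G (ξ r) a b + opS G (ξ r) b a)) := by
        field_simp
      rw [e, abs_mul, abs_of_pos hw0]
      rfl)
    (fun r hr => hmax r (mem_range.2 (by omega))) r0 (by simpa [Nat.lt_succ_iff] using hr0)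
  generalize Real.log ν = L at hL n1 n2 key
  generalize hΛ : 200 * L + 2 * (200 * L) ^ 2 = Λ at key
  have hΛ0 : 0 ≤ Λ := by rw [← hΛ]; positivity
  have hΛ1 : 4 * Λ ≤ 480000 * L ^ 2 := by rw [← hΛ]; nlinarith
  have hx1 : 1 ≤ 480000 * L ^ 2 := by nlinarith
  generalize 480000 * L ^ 2 = x at hΛ1 hx1 n1 n2
  have a1 : ∑ i ∈ range J, (4 * Λ) ^ i ≤ J * x ^ J := by
    refine (sum_le_card_nsmul _ _ (x ^ J) fun i hi => ?_).trans_eq (by simp)
    exact (pow_le_pow_left₀ (by positivity) hΛ1 i).trans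
      (pow_le_pow_right₀ hx1 (mem_range.1 hi).le)
  have a2 : (∑ i ∈ range J, (4 * Λ) ^ i) * (Λ * g) ≤ ν / 2 * g := by
    rw [← mul_assoc]
    refine mul_le_mul_of_nonneg_right ?_ hg
    have : (∑ i ∈ range J, (4 * Λ) ^ i) * Λ ≤ J * x ^ J * x :=
      mul_le_mul a1 (by linarith) hΛ0 (by positivity)
    rw [pow_succ] at n1
    linarith
  have a3 := small_stab (y := 2 * Λ) (by linarith) hγ h16 (by positivity)
    ((pow_le_pow_left₀ (by positivity) (show 2 * Λ ≤ x by linarith) 32).trans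
      (by simpa using n2)) k
  rw [← hJ, mul_left_comm, ← mul_assoc 2] at a3
  have a4 := mul_le_mul_of_nonneg_right a3 (apply_nonneg (pStab G) (ξ r0))
  rw [one_mul] at key
  intro a b hab
  have a5 := hmax s (mem_range.2 (by omega))
  have a6 := le_p_stab (ξ s) hab
  linarith

end Vale.Agent.P046
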