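import Vale.Agent.P046.Walk

/-! # P046: coupling along a stopping set -/

namespace Vale.Agent.P046

open Finset Vale.Agent.P015

lemma iid_w_stop {ι α : Type} [Fintype ι] [DecidableEq ι] (p : FP α) (η : ι → α) :
    (FP.iid ι p).w η = ∏ i, p.w (η i) := by
  classical
  have h2 : (fun ω : ι → α => if ω = η then (1 : ℝ) else 0)
      = fun ω => ∏ j, if ω j = η j then (1 : ℝ) else 0 := by
    funext ω
    rw [Finset.prod_boole]; simp [funext_iff]
  rw [FP.w_eq_Pr, FP.Pr_eq_E, h2, FP.E_iid_prod ι p (fun j a => if a = η j then (1 : ℝ) else 0)]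
  exact Finset.prod_congr rfl fun i _ => by rw [FP.w_eq_Pr, FP.Pr_eq_E]

lemma agree_stop {A B α : Type} [Fintype A] [DecidableEq A] [Fintype B] [DecidableEq B]
    (p : FP α) (π : A → B) (S : Set A) (hS : Set.InjOn π S) (ω : A → α) :
    ((FP.iid B p).Pr fun σ => ∀ x ∈ S, (σ ∘ π) x = ω x)
      = (FP.iid A p).Pr fun ω' => ∀ x ∈ S, ω' x = ω x := by
  classical
  have h1 := FP.iid_map_comp p (fun x : S => π x.1) fun x y e => Subtype.ext (hS x.2 y.2 e)
  have h2 := FP.iid_map_comp p (fun x : S => x.1) Subtype.val_injective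
  have h3 := congrArg (fun q : FP (S → α) => q.Pr fun η => ∀ x : S, η x = ω x) (h1.trans h2.symm)
  simp only [FP.Pr_map] at h3
  refine Eq.trans (FP.Pr_congr _ fun σ => ?_) (h3.trans (FP.Pr_congr _ fun σ => ?_)) <;> simp

lemma key_stop {A B α : Type} [Fintype A] [DecidableEq A] [Fintype B] [DecidableEq B]
    (p : FP α) (π : A → B) (Q : (A → α) → Set A) (P : (A → α) → Prop)
    (h : ∀ ω ω', (∀ x ∈ Q ω, ω' x = ω x) → Q ω' = Q ω ∧ (P ω' ↔ P ω)) :
    ((FP.iid B p).Pr fun σ => Set.InjOn π (Q (σ ∘ π)) ∧ P (σ ∘ π))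
      = (FP.iid A p).Pr fun ω => Set.InjOn π (Q ω) ∧ P ω := by
  classical
  set R : (A → α) → (A → α) → Prop := fun ω ω' => ∀ x ∈ Q ω, ω' x = ω x with hR
  have hsymm : ∀ ω ω', R ω ω' → R ω' ω := fun ω ω' e x hx =>
    (e x ((h ω ω' e).1 ▸ hx)).symm
  have htr : ∀ ω ω' ω'', R ω ω' → R ω' ω'' → R ω ω'' := fun ω ω' ω'' e e' x hx =>
    (e' x ((h ω ω' e).1.symm ▸ hx)).trans (e x hx)
  set c : (A → α) → ℝ := fun ω => (FP.iid A p).Pr (R ω) with hc
  have hcc : ∀ ω ω', R ω ω' → c ω' = c ω := fun ω ω' e =>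
    FP.Pr_congr _ fun η => ⟨htr _ _ _ e, htr _ _ _ (hsymm _ _ e)⟩
  have hpos : ∀ ω : A → α, (∀ x, p.w (ω x) ≠ 0) → c ω ≠ 0 := fun ω hω =>
    (FP.Pr_pos _ (a := ω) (by rw [iid_w_stop]; exact Finset.prod_ne_zero_iff.2 fun x _ => hω x)
      fun _ _ => rfl).ne'
  set G : (A → α) → ℝ := fun ω => if Set.InjOn π (Q ω) ∧ P ω then 1 else 0 with hG
  have hGG : ∀ ω ω', R ω ω' → G ω' = G ω := fun ω ω' e => by
    simp only [hG, (h ω ω' e).1, (h ω ω' e).2]
  rw [FP.Pr_eq_E, FP.Pr_eq_E]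
  calc ((FP.iid B p).E fun σ => G (σ ∘ π))
      = (FP.iid B p).E fun σ => (FP.iid A p).E fun ω =>
          (if R ω (σ ∘ π) then 1 else 0) * (G ω / c ω) := by
        refine FP.E_congr_ae _ ((FP.ae_iid B (P := fun r => p.w r ≠ 0) fun _ h => h).mono
          fun σ hσ => ?_)
        have e : (fun ω => (if R ω (σ ∘ π) then 1 else 0) * (G ω / c ω)) =
            fun ω => (if R (σ ∘ π) ω then 1 else 0) * (G (σ ∘ π) / c (σ ∘ π)) := by
          funext ω
          by_cases hω : R ω (σ ∘ π)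
          · rw [if_pos hω, if_pos (hsymm _ _ hω), hGG _ _ hω, hcc _ _ hω]
          · rw [if_neg hω, if_neg (mt (hsymm _ _) hω), zero_mul, zero_mul]
        beta_reduce
        rw [e, FP.E_mul_right, ← FP.Pr_eq_E]
        have := hpos (σ ∘ π) fun x => hσ (π x)
        simp only [hc] at this ⊢
        field_simp
    _ = (FP.iid A p).E G := by
        rw [FP.E_comm]
        refine FP.E_congr_ae _ ((FP.ae_iid A (P := fun r => p.w r ≠ 0) fun _ h => h).mono
          fun ω hω => ?_)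
        beta_reduce
        rw [FP.E_mul_right, ← FP.Pr_eq_E]
        by_cases hI : Set.InjOn π (Q ω)
        · have e := agree_stop p π (Q ω) hI ω
          have := hpos ω hω
          simp only [hc, hR] at this ⊢
          rw [e]
          field_simp
        · simp [hG, hI]

lemma split_stop {α : Type} (μ : FP α) (I P : α → Prop) :
    μ.Pr (fun a => I a ∧ P a) ≤ μ.Pr P ∧
      μ.Pr P ≤ μ.Pr (fun a => I a ∧ P a) + μ.Pr fun a => ¬ I a :=
  ⟨μ.Pr_mono fun _ h => h.2, le_trans (μ.Pr_mono fun a h => by tauto) (Pr_or_le μ _ _)⟩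

theorem stop_ok : StopS := by
  intro A B α _ _ _ _ p π Q P h
  have h1 := key_stop p π Q P h
  have h2 := key_stop p π Q (fun _ => True) fun ω ω' e => ⟨(h ω ω' e).1, Iff.rfl⟩
  simp only [and_true] at h2
  obtain ⟨a1, a2⟩ := split_stop (FP.iid A p) (fun ω => Set.InjOn π (Q ω)) P
  obtain ⟨b1, b2⟩ := split_stop (FP.iid B p) (fun σ => Set.InjOn π (Q (σ ∘ π))) fun σ => P (σ ∘ π)
  rw [Pr_not] at a2 b2 ⊢
  rw [abs_le]
  constructor <;> linarith

end Vale.Agent.P046
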