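import Vale.Agent.P046.Walk

/-! # P046: counting degenerate pairs of walks -/

namespace Vale.Agent.P046

open Finset Vale.Agent.P015

variable {V : Type} [Fintype V] [DecidableEq V]

open Classical in
/-- number of valid programs. -/
noncomputable def cA_tt (G : SimpleGraph V) (σ : PS V) (L : ℕ) : ℝ :=
  sumL L fun l => if pvalid G ppar pnx σ l then 1 else 0

open Classical in
/-- number of valid degenerate programs. -/
noncomputable def cB_tt (G : SimpleGraph V) (σ : PS V) (U : Finset V) (H : Finset (Sym2 V))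
    (L : ℕ) : ℝ :=
  sumL L fun l => if pvalid G ppar pnx σ l ∧ pbad ppar pnx σ U H l then 1 else 0

/-- all four nodes satisfy `R`. -/
def Inv_tt (R : V → V → Prop) (σ : PS V) : Prop :=
  ∀ β, R (σ.1 β).1 (σ.1 β).2.1 ∧ R (σ.2.1 β).1 (σ.2.1 β).2.1

omit [Fintype V] [DecidableEq V] in
lemma Inv_tt.par {R : V → V → Prop} {σ : PS V} (h : Inv_tt R σ) (β : Bool) :
    R (ppar σ β).1 (ppar σ β).2 := by
  unfold ppar
  split_ifs
  · exact (h β).2
  · exact (h β).1

omit [Fintype V] [DecidableEq V] in
lemma nxt_tt {R : V → V → Prop} {st : St V} {x : Bool × V} (h1 : R (st x.1).1 x.2)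
    (h2 : R (st x.1).2.1 x.2) (β : Bool) : R (nxt st x β).1 (nxt st x β).2.1 := by
  cases β
  · exact h1
  · exact h2

omit [Fintype V] [DecidableEq V] in
lemma Inv_tt.next {R : V → V → Prop} {σ : PS V} (h : Inv_tt R σ) {x : Bool × V}
    (h1 : R (ppar σ x.1).1 x.2) (h2 : R (ppar σ x.1).2 x.2) : Inv_tt R (pnx σ x) := by
  intro β
  unfold ppar at h1 h2
  unfold pnx
  by_cases a1 : σ.2.2.1 = 0
  · by_cases a2 : σ.2.2.2 = 0
    · rw [if_pos ⟨a1, a2⟩] at h1 h2
      rw [if_neg (not_not.2 a1), if_neg (not_not.2 a2)]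
      exact ⟨(h β).1, nxt_tt h1 h2 β⟩
    · rw [if_neg fun hc => a2 hc.2] at h1 h2
      rw [if_neg (not_not.2 a1), if_pos a2]
      exact ⟨nxt_tt h1 h2 β, (h β).2⟩
  · rw [if_neg fun hc => a1 hc.1] at h1 h2
    rw [if_pos a1]
    exact ⟨nxt_tt h1 h2 β, nxt_tt h1 h2 β⟩

open Classical in
lemma cA_succ_tt (G : SimpleGraph V) (σ : PS V) (L : ℕ) : cA_tt G σ (L + 1) =
    ∑ x : Bool × V, if x.2 ∈ nb G (ppar σ x.1).1 (ppar σ x.1).2 then cA_tt G (pnx σ x) L else 0 := by
  unfold cA_tt
  rw [sumL]
  refine Finset.sum_congr rfl fun x _ => ?_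
  split_ifs with h
  · exact sumL_congr L fun l _ => if_congr (by simp only [pvalid, h, true_and]) rfl rfl
  · exact (sumL_congr L fun l _ => if_neg fun hc => h hc.1).trans (sumL_zero L)

open Classical in
lemma cB_succ_tt (G : SimpleGraph V) (σ : PS V) (U : Finset V) (H : Finset (Sym2 V)) (L : ℕ) :
    cB_tt G σ U H (L + 1) = ∑ x : Bool × V, if x.2 ∈ nb G (ppar σ x.1).1 (ppar σ x.1).2 then
      (if x.2 ∈ U then (if s((ppar σ x.1).1, x.2) ∈ H ∧ s((ppar σ x.1).2, x.2) ∈ H then 0
        else cA_tt G (pnx σ x) L)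
      else cB_tt G (pnx σ x) (insert x.2 U)
        (insert s((ppar σ x.1).1, x.2) (insert s((ppar σ x.1).2, x.2) H)) L) else 0 := by
  unfold cA_tt cB_tt
  rw [sumL]
  refine Finset.sum_congr rfl fun x _ => ?_
  split_ifs with h h1 h2
  · refine (sumL_congr L fun l _ => if_neg fun hc => ?_).trans (sumL_zero L)
    have h3 := hc.2
    rw [pbad, if_pos h1] at h3
    exact h3 h2
  · refine sumL_congr L fun l _ => if_congr ?_ rfl rfl
    rw [pvalid, pbad, if_pos h1]
    exact ⟨fun hc => hc.1.2, fun hc => ⟨⟨h, hc⟩, h2⟩⟩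
  · refine sumL_congr L fun l _ => if_congr ?_ rfl rfl
    rw [pvalid, pbad, if_neg h1]
    exact ⟨fun hc => ⟨hc.1.2, hc.2⟩, fun hc => ⟨⟨h, hc.1⟩, hc.2⟩⟩
  · exact (sumL_congr L fun l _ => if_neg fun hc => h hc.1.1).trans (sumL_zero L)

lemma cA_le_tt {B : ℝ} {G : SimpleGraph V} (hB : ∀ a b, G.Adj a b → cod G a b ≤ B) (L : ℕ) :
    ∀ σ : PS V, Inv_tt G.Adj σ → cA_tt G σ L ≤ (2 * B) ^ L := by
  induction L with
  | zero =>
    intro σ _
    simp [cA_tt, sumL, pvalid]
  | succ L ih =>
    intro σ hσ
    have B0 : 0 ≤ B := (cod_nonneg G _ _).trans (hB _ _ (hσ.par true))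
    have P0 : 0 ≤ (2 * B) ^ L := by positivity
    rw [cA_succ_tt]
    calc _ ≤ ∑ x : Bool × V,
          if x.2 ∈ nb G (ppar σ x.1).1 (ppar σ x.1).2 then (2 * B) ^ L else 0 := by
          refine Finset.sum_le_sum fun x _ => ?_
          split_ifs with h
          · exact ih _ (hσ.next (mem_nb.1 h).1 (mem_nb.1 h).2)
          · exact le_rfl
      _ = ∑ β : Bool, cod G (ppar σ β).1 (ppar σ β).2 * (2 * B) ^ L := by
          rw [Fintype.sum_prod_type]
          refine Finset.sum_congr rfl fun β _ => ?_
          dsimp only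
          rw [← Finset.sum_filter, Finset.filter_mem_eq_inter, Finset.univ_inter, Finset.sum_const,
            nsmul_eq_mul, cod]
      _ ≤ ∑ β : Bool, B * (2 * B) ^ L := Finset.sum_le_sum fun β _ =>
          mul_le_mul_of_nonneg_right (hB _ _ (hσ.par β)) P0
      _ = _ := by
          rw [Fintype.sum_bool]
          ring

lemma old_tt {B q hm : ℝ} {μ : FP (Option (SimpleGraph V))} (hD : Dom μ q hm) (B0 : 0 ≤ B)
    (hae : μ.Ae fun o => ∀ G, o = some G → ∀ a b, G.Adj a b → cod G a b ≤ B)
    {σ : PS V} {H : Finset (Sym2 V)} (hσ : Inv_tt (fun a b => s(a, b) ∈ H) σ) (L : ℕ)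
    (hH : (H.card : ℝ) + 1 ≤ hm) (x : Bool × V) {e : Sym2 V} (he : e ∉ H)
    (he' : e = s((ppar σ x.1).1, x.2) ∨ e = s((ppar σ x.1).2, x.2)) :
    (μ.E fun o => o.elim 0 fun G => ind H G *
      if x.2 ∈ nb G (ppar σ x.1).1 (ppar σ x.1).2 then cA_tt G (pnx σ x) L else 0) ≤
      q ^ (H.card + 1) * (2 * B) ^ L := by
  have P0 : 0 ≤ (2 * B) ^ L := by positivity
  have h1 := hD (insert e H) (by rw [Finset.card_insert_of_notMem he]; exact_mod_cast hH)
  rw [Finset.card_insert_of_notMem he] at h1
  refine le_trans ?_ (mul_le_mul_of_nonneg_right h1 P0)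
  rw [← FP.E_mul_right]
  refine FP.E_mono_ae _ (hae.mono fun o ho => ?_)
  cases o with
  | none => simp
  | some G =>
    simp only [Option.elim]
    have Q0 := mul_nonneg (ind_nonneg (insert e H) G) P0
    rcases ind_cases H G with h2 | h2
    · split_ifs with h
      · obtain ⟨a1, a2⟩ := mem_nb.1 h
        have h3 : Inv_tt G.Adj σ := fun β => ⟨h2.2 _ (hσ β).1, h2.2 _ (hσ β).2⟩
        have h4 : ind (insert e H) G = 1 := ind_of fun e' h' => by
          rcases Finset.mem_insert.1 h' with rfl | h'
          · rcases he' with rfl | rfl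
            · exact a1
            · exact a2
          · exact h2.2 _ h'
        rw [h2.1, h4, one_mul, one_mul]
        exact cA_le_tt (ho G rfl) L _ (h3.next a1 a2)
      · rwa [mul_zero]
    · rwa [h2.1, zero_mul]

lemma cB_le_tt {B q hm : ℝ} {μ : FP (Option (SimpleGraph V))} (hD : Dom μ q hm) (q0 : 0 ≤ q)
    (hq : Fintype.card V * q ^ 2 ≤ B)
    (hae : μ.Ae fun o => ∀ G, o = some G → ∀ a b, G.Adj a b → cod G a b ≤ B) (L : ℕ) :
    ∀ (σ : PS V) (U : Finset V) (H : Finset (Sym2 V)), Inv_tt (fun a b => s(a, b) ∈ H) σ →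
      (∀ e ∈ H, ∀ v ∈ e, v ∈ U) → (H.card : ℝ) + 2 * L ≤ hm →
      (μ.E fun o => o.elim 0 fun G => ind H G * cB_tt G σ U H L)
        ≤ 2 * L * (U.card + L) * q ^ (H.card + 1) * (2 * B) ^ (L - 1) := by
  have B0 : 0 ≤ B := le_trans (by positivity) hq
  induction L with
  | zero =>
    intro σ U H _ _ _
    refine (FP.E_le_of_ae _ (c := 0) fun o _ => ?_).trans_eq (by simp)
    cases o <;> simp [cB_tt, sumL, pbad]
  | succ L ih =>
    intro σ U H hσ hU hH
    push_cast at hH
    have L0 : (0 : ℝ) ≤ L := Nat.cast_nonneg L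
    let t : Bool × V → SimpleGraph V → ℝ := fun x G =>
      if x.2 ∈ nb G (ppar σ x.1).1 (ppar σ x.1).2 then
        (if x.2 ∈ U then (if s((ppar σ x.1).1, x.2) ∈ H ∧ s((ppar σ x.1).2, x.2) ∈ H then 0
          else cA_tt G (pnx σ x) L)
        else cB_tt G (pnx σ x) (insert x.2 U)
          (insert s((ppar σ x.1).1, x.2) (insert s((ppar σ x.1).2, x.2) H)) L) else 0
    have h1 : (μ.E fun o => o.elim 0 fun G => ind H G * cB_tt G σ U H (L + 1)) =
        ∑ x : Bool × V, μ.E fun o => o.elim 0 fun G => ind H G * t x G := by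
      rw [← FP.E_sum]
      congr 1
      funext o
      cases o with
      | none => simp
      | some G =>
        simp only [Option.elim]
        rw [cB_succ_tt, Finset.mul_sum]
    have A1 : 0 ≤ q ^ (H.card + 1) * (2 * B) ^ L := by positivity
    have A2 : 0 ≤ 2 * L * (U.card + 1 + L) * q ^ (H.card + 2 + 1) * (2 * B) ^ (L - 1) := by
      positivity
    have h2 : ∀ x : Bool × V, (μ.E fun o => o.elim 0 fun G => ind H G * t x G) ≤
        (if x.2 ∈ U then q ^ (H.card + 1) * (2 * B) ^ L else 0) +
          2 * L * (U.card + 1 + L) * q ^ (H.card + 2 + 1) * (2 * B) ^ (L - 1) := by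
      intro x
      by_cases hx : x.2 ∈ U
      · rw [if_pos hx]
        refine le_trans ?_ (le_add_of_nonneg_right A2)
        by_cases hb : s((ppar σ x.1).1, x.2) ∈ H ∧ s((ppar σ x.1).2, x.2) ∈ H
        · refine (FP.E_le_of_ae _ (c := 0) fun o _ => ?_).trans A1
          cases o <;> simp [t, hx, hb]
        · simp only [t, hx, hb, if_true, if_false]
          rcases not_and_or.1 hb with hb | hb
          · exact old_tt hD B0 hae hσ L (by linarith) x hb (Or.inl rfl)
          · exact old_tt hD B0 hae hσ L (by linarith) x hb (Or.inr rfl)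
      · rw [if_neg hx, zero_add]
        by_cases hp : (ppar σ x.1).1 = (ppar σ x.1).2
        · refine (FP.E_le_of_ae _ (c := 0) fun o _ => ?_).trans A2
          cases o with
          | none => exact le_rfl
          | some G =>
            have h3 : ind H G = 0 := ind_of_not fun hc => (hc _ (hσ.par x.1)).ne hp
            simp [h3]
        · have n1 : s((ppar σ x.1).2, x.2) ∉ H := fun hc => hx (hU _ hc _ (by simp))
          have n2 : s((ppar σ x.1).1, x.2) ∉ insert s((ppar σ x.1).2, x.2) H := by
            intro hc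
            rcases Finset.mem_insert.1 hc with hc | hc
            · exact hp (Sym2.congr_left.1 hc)
            · exact hx (hU _ hc _ (by simp))
          have hpU := hU _ (hσ.par x.1)
          have h3 := ih (pnx σ x) (insert x.2 U)
            (insert s((ppar σ x.1).1, x.2) (insert s((ppar σ x.1).2, x.2) H))
            (Inv_tt.next (fun β => ⟨by simp [(hσ β).1], by simp [(hσ β).2]⟩) (by simp) (by simp))
            (by
              intro e he v hv
              rcases Finset.mem_insert.1 he with rfl | he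
              · rcases Sym2.mem_iff.1 hv with rfl | rfl
                · exact Finset.mem_insert_of_mem (hpU _ (by simp))
                · exact Finset.mem_insert_self _ _
              rcases Finset.mem_insert.1 he with rfl | he
              · rcases Sym2.mem_iff.1 hv with rfl | rfl
                · exact Finset.mem_insert_of_mem (hpU _ (by simp))
                · exact Finset.mem_insert_self _ _
              · exact Finset.mem_insert_of_mem (hU e he v hv))
            (by
              rw [Finset.card_insert_of_notMem n2, Finset.card_insert_of_notMem n1]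
              push_cast
              linarith)
          rw [Finset.card_insert_of_notMem n2, Finset.card_insert_of_notMem n1,
            Finset.card_insert_of_notMem hx] at h3
          push_cast at h3
          refine le_trans (le_of_eq ?_) h3
          congr 1
          funext o
          cases o with
          | none => rfl
          | some G =>
            simp only [Option.elim, t, hx, if_false]
            rw [ind_two]
            split_ifs <;> simp
    rw [h1]
    refine (Finset.sum_le_sum fun x _ => h2 x).trans ?_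
    rw [Finset.sum_add_distrib, Finset.sum_const, Fintype.sum_prod_type]
    simp only [← Finset.sum_filter, Finset.filter_mem_eq_inter, Finset.univ_inter, Finset.sum_const,
      nsmul_eq_mul, Finset.card_univ, Fintype.card_prod, Fintype.card_bool, Nat.add_sub_cancel]
    push_cast
    have h4 : (L : ℝ) * (2 * B * (2 * B) ^ (L - 1)) = L * (2 * B) ^ L := by
      cases L with
      | zero => simp
      | succ L => rw [Nat.add_sub_cancel, pow_succ']
    have h5 : 0 ≤ 2 * L * (U.card + 1 + L) * q ^ (H.card + 1) * (2 * B) ^ (L - 1) := by positivity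
    have h6 := mul_le_mul_of_nonneg_left hq h5
    have h7 : 0 ≤ (L + 1) * (q ^ (H.card + 1) * (2 * B) ^ L) := by positivity
    have h8 : 2 * L * (U.card + 1 + L) * q ^ (H.card + 1) * (2 * B) ^ (L - 1) * B * 2 =
        2 * L * (U.card + 1 + L) * (q ^ (H.card + 1) * (2 * B) ^ L) := by
      linear_combination (2 * (U.card + 1 + L) * q ^ (H.card + 1)) * h4
    have h9 : q ^ (H.card + 2 + 1) = q ^ (H.card + 1) * q ^ 2 := by ring
    rw [h9]
    nlinarith

theorem twoTree_ok : TwoTreeS := by
  intro V _ _ B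
  exact ⟨fun G σ L hB h1 h2 => cA_le_tt hB L σ fun β => ⟨h1 β, h2 β⟩,
    fun μ q hm σ U H L hD q0 hq hae hσ hU hH => cB_le_tt hD q0 hq hae L σ U H hσ hU hH⟩

end Vale.Agent.P046
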