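import Vale.Agent.P046.Walk

/-! # P046: union bound for conflicts -/

namespace Vale.Agent.P046

open Finset Vale.Agent.P015

lemma split_union {X : Type} : ∀ l1 l2 : List X, l1 ≠ l2 →
    ∃ c b1 b2, l1 = c ++ b1 ∧ l2 = c ++ b2 ∧ b1.head? ≠ b2.head?
  | [], [], h => absurd rfl h
  | [], y :: l2, _ => ⟨[], [], y :: l2, rfl, rfl, by simp⟩
  | x :: l1, [], _ => ⟨[], x :: l1, [], rfl, rfl, by simp⟩
  | x :: l1, y :: l2, h => by
    by_cases hxy : x = y
    · subst hxy
      obtain ⟨c, b1, b2, h1, h2, h3⟩ := split_union l1 l2 fun h' => h (by rw [h'])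
      exact ⟨x :: c, b1, b2, by rw [h1]; rfl, by rw [h2]; rfl, h3⟩
    · exact ⟨[], x :: l1, y :: l2, rfl, rfl, by simpa using hxy⟩

lemma wt_nonneg_union (u : ℕ → ℝ) (M m : ℕ) : 0 ≤ wt (kap u M M) m := by
  unfold wt kap
  positivity

open Classical in
theorem union_ok (h1 : QuerS) (h2 : WeightS) (h3 : BadS) : UnionS := by
  intro V _ _ G M u a b c d hM hU hab hcd hdis
  have hst : StAdj G (st0 a b c d) := fun β => by cases β <;> simpa [st0]
  set st := st0 a b c d with hstdef
  let bad : ℕ → ℕ → List (Bool × V) → Prop := fun i k l =>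
    pvalid G ppar pnx (st, st, i, k) l ∧
      pbad ppar pnx (st, st, i, k) {a, b, c, d} {s(a, b), s(c, d)} l
  let cond : ℕ → ℕ → List (Bool × V) → Prop := fun i k l =>
    l.drop (i + k) ≠ [] ∧ ((l.drop i).take k).head? ≠ (l.drop (i + k)).head? ∧ bad i k l
  let ev : ℕ → ℕ → List (Bool × V) → Lab V → Prop := fun i k l ω =>
    querT G M st ω (l.take i ++ (l.drop i).take k) ∧ querT G M st ω (l.take i ++ l.drop (i + k))
  let F : ℕ → ℕ → Lab V → List (Bool × V) → ℝ := fun i k ω l =>
    (if cond i k l then 1 else 0) * (if ev i k l ω then 1 else 0)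
  have hF : ∀ i k ω l, 0 ≤ F i k ω l := fun i k ω l => by
    simp only [F]
    split_ifs <;> norm_num
  have hq := (h1 V G M st).1
  have main : ∀ (ω : Lab V) (e b1 b2 : List (Bool × V)), b2 ≠ [] → b1.head? ≠ b2.head? →
      querT G M st ω (e ++ b1) → querT G M st ω (e ++ b2) → tri st (e ++ b1) = tri st (e ++ b2) →
      (1 : ℝ) ≤ ∑ i ∈ range (M + 1), ∑ k ∈ range (M + 1), ∑ m ∈ range (M + 1),
        sumL (i + k + m) (F i k ω) := fun ω e b1 b2 hb2 hh q1 q2 ht => by
    obtain ⟨n1, l1, o1⟩ := hq ω _ q1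
    obtain ⟨-, l2, o2⟩ := hq ω _ q2
    rw [List.length_append] at l1 l2
    have hb := h3 V G a b c d e b1 b2 hab hcd hdis o1 o2 n1 hb2 hh ht
    have t1 : (e ++ b1 ++ b2).take e.length = e := by simp [List.append_assoc]
    have t2 : ((e ++ b1 ++ b2).drop e.length).take b1.length = b1 := by simp [List.append_assoc]
    have t3 : (e ++ b1 ++ b2).drop (e.length + b1.length) = b2 := by
      rw [← List.length_append, List.drop_left]
    have hc : cond e.length b1.length (e ++ b1 ++ b2) := by
      simp only [cond, t2, t3]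
      exact ⟨hb2, hh, hb⟩
    have he : ev e.length b1.length (e ++ b1 ++ b2) ω := by
      simp only [ev, t1, t2, t3]
      exact ⟨q1, q2⟩
    have h0 : F e.length b1.length ω (e ++ b1 ++ b2) = 1 := by
      simp only [F, if_pos hc, if_pos he, mul_one]
    have h4 := single_le_sumL (e ++ b1 ++ b2) (hF e.length b1.length ω)
    rw [h0, List.length_append, List.length_append] at h4
    have nn : ∀ i k m, 0 ≤ sumL (i + k + m) (F i k ω) := fun i k m =>
      sumL_nonneg _ fun l _ => hF i k ω l
    refine h4.trans ?_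
    refine le_trans ?_ (Finset.single_le_sum (f := fun i => ∑ k ∈ range (M + 1),
      ∑ m ∈ range (M + 1), sumL (i + k + m) (F i k ω))
      (fun i _ => Finset.sum_nonneg fun k _ => Finset.sum_nonneg fun m _ => nn i k m)
      (Finset.mem_range.2 (by omega : e.length < M + 1)))
    refine le_trans ?_ (Finset.single_le_sum (f := fun k =>
      ∑ m ∈ range (M + 1), sumL (e.length + k + m) (F e.length k ω))
      (fun k _ => Finset.sum_nonneg fun m _ => nn _ k m)
      (Finset.mem_range.2 (by omega : b1.length < M + 1)))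
    exact Finset.single_le_sum
      (f := fun m => sumL (e.length + b1.length + m) (F e.length b1.length ω))
      (fun m _ => nn _ _ m) (Finset.mem_range.2 (by omega : b2.length < M + 1))
  have point : ∀ ω : Lab V, (if ¬ Set.InjOn (tri st) {l | querT G M st ω l} then (1 : ℝ) else 0)
      ≤ ∑ i ∈ range (M + 1), ∑ k ∈ range (M + 1), ∑ m ∈ range (M + 1),
        sumL (i + k + m) (F i k ω) := fun ω => by
    split_ifs with h
    · exact Finset.sum_nonneg fun i _ => Finset.sum_nonneg fun k _ =>
        Finset.sum_nonneg fun m _ => sumL_nonneg _ fun l _ => hF i k ω l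
    · unfold Set.InjOn at h
      push Not at h
      obtain ⟨l1, q1, l2, q2, ht, hne⟩ := h
      obtain ⟨e, b1, b2, rfl, rfl, hh⟩ := split_union l1 l2 hne
      by_cases hb2 : b2 = []
      · have hb1 : b1 ≠ [] := fun h => hh (by rw [h, hb2])
        exact main ω e b2 b1 hb1 hh.symm q2 q1 ht.symm
      · exact main ω e b1 b2 hb2 hh q1 q2 ht
  unfold confP conf
  rw [FP.Pr_eq_E]
  refine ((tlaw V M M).E_mono point).trans ?_
  rw [FP.E_sum]
  refine Finset.sum_le_sum fun i _ => ?_
  rw [FP.E_sum]
  refine Finset.sum_le_sum fun k _ => ?_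
  rw [FP.E_sum]
  refine Finset.sum_le_sum fun m _ => ?_
  rw [E_sumL, cnt, ← sumL_mul_left]
  refine sumL_mono _ fun l hl => ?_
  simp only [F]
  rw [FP.E_mul_left]
  have hw : 0 ≤ wt (kap u M M) (i - 1) * wt (kap u M M) (k - 2) * wt (kap u M M) (m - 2) :=
    mul_nonneg (mul_nonneg (wt_nonneg_union _ _ _) (wt_nonneg_union _ _ _))
      (wt_nonneg_union _ _ _)
  by_cases hc : cond i k l
  · rw [if_pos hc, one_mul, if_pos hc.2.2, mul_one, ← FP.Pr_eq_E]
    have := h2 V G M u st (l.take i) ((l.drop i).take k) (l.drop (i + k)) hM hU hst hc.1 hc.2.1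
    rwa [List.length_take, List.length_take, List.length_drop, List.length_drop, hl,
      min_eq_left (by omega), min_eq_left (by omega), show i + k + m - (i + k) = m by omega] at this
  · rw [if_neg hc, zero_mul]
    exact mul_nonneg hw (by split_ifs <;> norm_num)

end Vale.Agent.P046
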