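import Vale.Agent.P046.Walk

/-! # P046: probability that two addresses of the cover are both queried -/

namespace Vale.Agent.P046

open Finset Vale.Agent.P015

variable {V : Type} [Fintype V] [DecidableEq V]

lemma kap_nonneg_weight (u : ℕ → ℝ) (M s : ℕ) : 0 ≤ kap u M s := by
  unfold kap; positivity

lemma kap_succ_weight (u : ℕ → ℝ) (M s : ℕ) : kap u M (s + 1) = kap u M s + u s ^ 2 / M := by
  unfold kap; rw [Finset.sum_range_succ, add_div]

lemma kap_mono_weight (u : ℕ → ℝ) (M : ℕ) : Monotone (kap u M) :=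
  monotone_nat_of_le_succ fun s => by
    rw [kap_succ_weight]; exact le_add_of_nonneg_right (by positivity)

lemma wt_nonneg_weight {κ : ℝ} (h : 0 ≤ κ) (m : ℕ) : 0 ≤ wt κ m := by
  unfold wt; positivity

lemma wt_zero_weight (κ : ℝ) : wt κ 0 = 1 := by simp [wt]

lemma wt_mono_weight {κ κ' : ℝ} (h : 0 ≤ κ) (h' : κ ≤ κ') (m : ℕ) : wt κ m ≤ wt κ' m := by
  unfold wt; gcongr

lemma sum_wt_weight (u : ℕ → ℝ) (M m : ℕ) : ∀ s,
    ∑ r ∈ range s, u r ^ 2 / M * wt (kap u M r) m ≤ wt (kap u M s) (m + 1)
  | 0 => by simpa using wt_nonneg_weight (kap_nonneg_weight u M 0) _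
  | s + 1 => by
    rw [Finset.sum_range_succ, kap_succ_weight]
    refine (add_le_add_left (sum_wt_weight u M m s) _).trans ?_
    have hk := kap_nonneg_weight u M s
    have ht : 0 ≤ u s ^ 2 / M := by positivity
    generalize kap u M s = k at *
    generalize u s ^ 2 / M = t at *
    have h1 := pow_add_mul_le_add_pow hk (show 0 ≤ 2 * k + t by positivity) (m + 1)
    have h2 : (0 : ℝ) < m.factorial := by exact_mod_cast m.factorial_pos
    unfold wt
    rw [Nat.factorial_succ]
    push_cast at h1 ⊢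
    rw [le_div_iff₀ (by positivity)]
    refine le_trans (le_of_eq ?_) h1
    field_simp

lemma alive_congr_weight (G : SimpleGraph V) (h : ℕ) (st : St V) (β : Bool) {η η' : Lab V}
    (e : ∀ l, l ≠ [] → η l = η' l) (s : ℕ) : alive G h st β η s ↔ alive G h st β η' s := by
  cases h with
  | zero => exact Iff.rfl
  | succ h =>
    have e1 : ∀ x, sub η x = sub η' x := fun x => funext fun l => e _ (by simp)
    have e2 : ∀ x, η [x] = η' [x] := fun x => e _ (by simp)
    simp only [alive, e1, e2]

lemma quer_nil_weight (G : SimpleGraph V) (h : ℕ) (st : St V) (cap : ℕ) (η : Lab V) :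
    quer G h st cap η [] := by
  cases h <;> simp [quer]

lemma quer_congr_weight (G : SimpleGraph V) (h : ℕ) (st : St V) (cap : ℕ) {η η' : Lab V}
    (e : ∀ l, l ≠ [] → η l = η' l) (l : List (Bool × V)) :
    quer G h st cap η l ↔ quer G h st cap η' l := by
  cases l with
  | nil => simp [quer_nil_weight]
  | cons x l =>
    cases h with
    | zero => exact Iff.rfl
    | succ h =>
      have e1 : ∀ x, sub η x = sub η' x := fun x => funext fun l => e _ (by simp)
      have e2 : ∀ x, η [x] = η' [x] := fun x => e _ (by simp)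
      simp only [quer, e1, e2, alive_congr_weight G (h + 1) st _ e]

lemma stAdj_nxt_weight {G : SimpleGraph V} {st : St V} {x : Bool × V} (h : ok G st x) :
    StAdj G (nxt st x) := by
  have := mem_nb.1 h.1
  intro β
  cases β
  · exact this.1
  · exact this.2

lemma ae_lt_weight {M : ℕ} (hM : 0 < M) (h : ℕ) : (tlaw V M h).Ae fun ω => ∀ l, ω l < M := by
  refine FP.ae_map.2 ((FP.ae_iid _ (FP.ae_unif ⟨0, Finset.mem_range.2 hM⟩)).mono fun ω hω l => ?_)
  simp only [ext]
  split_ifs
  · exact Finset.mem_range.1 (hω _)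
  · exact hM

lemma Pr_false_weight {α : Type} (μ : FP α) {P : α → Prop} (h : ∀ a, ¬ P a) : μ.Pr P = 0 := by
  rw [μ.Pr_congr (Q := fun _ => False) fun a => iff_false_intro (h a)]
  simp [FP.Pr]

lemma Pr_true_weight {α : Type} (μ : FP α) {P : α → Prop} (h : ∀ a, P a) : μ.Pr P = 1 := by
  rw [μ.Pr_congr (Q := fun _ => True) fun a => iff_true_intro (h a)]
  simp [FP.Pr]

lemma Pr_all_weight (h1 : LawS) (M h : ℕ) (P : Bool × V → Lab V → Prop) :
    ((tlaw V M (h + 1)).Pr fun ω => ∀ x, P x (sub ω x)) = ∏ x, (tlaw V M h).Pr (P x) := by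
  classical
  have h2 := (h1 V M h).1 fun x η => if P x η then 1 else 0
  simp only [← FP.Pr_eq_E] at h2
  rw [← h2, FP.Pr_eq_E]
  congr 1
  funext ω
  rw [Finset.prod_boole]
  simp

lemma Pr_one_weight (h1 : LawS) (M h : ℕ) (x : Bool × V) (P : Lab V → Prop) :
    ((tlaw V M (h + 1)).Pr fun ω => P (sub ω x)) = (tlaw V M h).Pr P := by
  have h2 := Pr_all_weight h1 M h fun z η => z = x → P η
  rw [Finset.prod_eq_single x (fun z _ hz => Pr_true_weight _ fun η e => (hz e).elim)
    (by simp)] at h2
  simpa using h2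

lemma Pr_two_weight (h1 : LawS) (M h : ℕ) {x y : Bool × V} (hxy : x ≠ y) (P Q : Lab V → Prop) :
    ((tlaw V M (h + 1)).Pr fun ω => P (sub ω x) ∧ Q (sub ω y))
      = (tlaw V M h).Pr P * (tlaw V M h).Pr Q := by
  have h2 := Pr_all_weight h1 M h fun z η => (z = x → P η) ∧ (z = y → Q η)
  rw [Finset.prod_eq_mul x y hxy (fun z _ hz => Pr_true_weight _ fun η =>
    ⟨fun e => (hz.1 e).elim, fun e => (hz.2 e).elim⟩) (by simp) (by simp)] at h2
  simpa [hxy, hxy.symm, forall_and] using h2

lemma Pr_root_weight (h1 : LawS) {M : ℕ} (hM : 0 < M) (h : ℕ) (P : ℕ → Lab V → Prop)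
    (hP : ∀ r η η', (∀ l, l ≠ [] → η l = η' l) → (P r η ↔ P r η')) :
    ((tlaw V M h).Pr fun η => P (η []) η) = (∑ r ∈ range M, (tlaw V M h).Pr (P r)) / M := by
  classical
  have h2 := (h1 V M h).2 hM (fun r η => if P r η then 1 else 0) fun r η η' e => by
    simp only [hP r η η' e]
  simpa only [← FP.Pr_eq_E] using h2

lemma Pr_root_le_weight (h1 : LawS) {M : ℕ} (hM : 0 < M) (h : ℕ) (P : ℕ → Lab V → Prop)
    (hP : ∀ r η η', (∀ l, l ≠ [] → η l = η' l) → (P r η ↔ P r η')) {B : ℝ}
    (hB : ∀ r < M, (tlaw V M h).Pr (P r) ≤ B) : ((tlaw V M h).Pr fun η => P (η []) η) ≤ B := by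
  have hM' : (0 : ℝ) < M := by exact_mod_cast hM
  rw [Pr_root_weight h1 hM h P hP, div_le_iff₀ hM']
  have := Finset.sum_le_card_nsmul (range M) _ B fun r hr => hB r (Finset.mem_range.1 hr)
  rwa [Finset.card_range, nsmul_eq_mul, mul_comm] at this

/-- one explored step. -/
lemma step_weight (h1 : LawS) (h2 : AliveS) {G : SimpleGraph V} {M : ℕ} {u : ℕ → ℝ} (hM : 0 < M)
    (hu : UB G M u) {st : St V} (hst : StAdj G st) (h cap : ℕ) (hc : cap ≤ h + 1) (hcM : cap ≤ M)
    (x : Bool × V) (P : ℕ → Lab V → Prop)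
    (hP : ∀ r η η', (∀ l, l ≠ [] → η l = η' l) → (P r η ↔ P r η')) :
    ((tlaw V M (h + 1)).Pr fun ω => ω [x] < cap ∧ alive G (h + 1) st false ω (ω [x]) ∧
      alive G (h + 1) st true ω (ω [x]) ∧ P (ω [x]) (sub ω x))
      ≤ ∑ r ∈ range cap, u r ^ 2 / M * (tlaw V M h).Pr (P r) := by
  classical
  let F : ℕ → Bool × V → Lab V → Prop := fun r z η =>
    if z = x then η [] = r ∧ P r η else ok G st z → ¬ (η [] < r ∧
      alive G h (nxt st z) false η (η []) ∧ alive G h (nxt st z) true η (η []))
  refine (FP.Pr_mono _ (Q := fun ω => ∃ r ∈ range cap, ∀ z, F r z (sub ω z)) ?_).trans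
    ((Pr_exists_le _ _ _).trans (Finset.sum_le_sum fun r hr => ?_))
  · rintro ω ⟨p1, p2, p3, p4⟩
    refine ⟨ω [x], Finset.mem_range.2 p1, fun z => ?_⟩
    simp only [F]
    split_ifs with hz
    · subst hz; exact ⟨rfl, p4⟩
    · obtain ⟨β, v⟩ := z
      cases β
      · exact p2 v
      · exact p3 v
  have hr' := Finset.mem_range.1 hr
  have hM' : (0 : ℝ) < M := by exact_mod_cast hM
  rw [Pr_all_weight h1, ← Finset.mul_prod_erase _ _ (mem_univ x)]
  have e1 : (tlaw V M h).Pr (F r x) = (tlaw V M h).Pr (P r) / M := by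
    simp only [F, if_true]
    rw [Pr_root_weight h1 hM h (fun r' η => r' = r ∧ P r η) fun r' η η' e => by
      simp only [hP r η η' e]]
    congr 1
    rw [Finset.sum_eq_single r (fun r' _ hne => Pr_false_weight _ fun η e => hne e.1)
      (fun hn => (hn (Finset.mem_range.2 (by omega))).elim)]
    simp
  have hI : ∀ z : Bool × V, ((tlaw V M h).Pr fun η => ¬ (η [] < r ∧
      alive G h (nxt st z) false η (η []) ∧ alive G h (nxt st z) true η (η [])))
      = 1 - II G M r (st z.1).1 (st z.1).2.1 z.2 := fun z => by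
    rw [Pr_not, (h2 V G M h st hM).2 z r (by omega) (by omega)]
  let T : Bool → Finset V := fun β => ((nb G (st β).1 (st β).2.1).erase (st β).2.2).erase
    (if β = x.1 then x.2 else (st β).2.2)
  have e2 : ∏ z ∈ univ.erase x, (tlaw V M h).Pr (F r z)
      = ∏ β, ∏ v ∈ T β, (1 - II G M r (st β).1 (st β).2.1 v) := by
    have e3 : ∀ z : Bool × V, (if z ∈ univ.erase x then (tlaw V M h).Pr (F r z) else 1)
        = if z.2 ∈ T z.1 then 1 - II G M r (st z.1).1 (st z.1).2.1 z.2 else 1 := by
      intro z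
      have hT : z.2 ∈ T z.1 ↔ z ≠ x ∧ ok G st z := by
        simp only [T, Finset.mem_erase, ok]
        by_cases hβ : z.1 = x.1
        · rw [if_pos hβ]
          have : z.2 ≠ x.2 ↔ z ≠ x := by simp [Prod.ext_iff, hβ]
          rw [this]; tauto
        · rw [if_neg hβ]
          have : z ≠ x := fun e => hβ (by rw [e])
          tauto
      by_cases hz : z = x
      · rw [if_neg (by simp [hz]), if_neg fun e => (hT.1 e).1 hz]
      · rw [if_pos (by simp [hz])]
        simp only [F, if_neg hz]
        by_cases hok : ok G st z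
        · rw [if_pos (hT.2 ⟨hz, hok⟩), ← hI z]
          simp only [hok, true_imp_iff]
        · rw [if_neg fun e => hok (hT.1 e).2]
          exact Pr_true_weight _ fun η e => (hok e).elim
    rw [← Finset.univ_inter (univ.erase x), ← Finset.prod_ite_mem]
    simp only [e3]
    rw [Fintype.prod_prod_type]
    simp only [Finset.prod_ite_mem, Finset.univ_inter]
  have e4 : ∀ β, 0 ≤ ∏ v ∈ T β, (1 - II G M r (st β).1 (st β).2.1 v) := fun β =>
    Finset.prod_nonneg fun v _ => by rw [← hI (β, v)]; exact FP.Pr_nonneg _ _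
  have e5 : ∀ β, ∏ v ∈ T β, (1 - II G M r (st β).1 (st β).2.1 v) ≤ u r := fun β =>
    hu r (by omega) _ _ (hst β) _ _
  rw [e1, e2, Fintype.prod_bool]
  have e6 := mul_le_mul (e5 true) (e5 false) (e4 false) ((e4 true).trans (e5 true))
  have e7 : 0 ≤ (tlaw V M h).Pr (P r) / M := div_nonneg (FP.Pr_nonneg _ _) hM'.le
  refine (mul_le_mul_of_nonneg_left e6 e7).trans (le_of_eq ?_)
  ring

lemma single_weight (h1 : LawS) (h2 : AliveS) {G : SimpleGraph V} {M : ℕ} {u : ℕ → ℝ}
    (hM : 0 < M) (hu : UB G M u) : ∀ (l : List (Bool × V)) (h : ℕ) (st : St V) (cap : ℕ),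
    StAdj G st → cap ≤ h → cap ≤ M →
    ((tlaw V M h).Pr fun ω => quer G h st cap ω l) ≤ wt (kap u M cap) (l.length - 1)
  | [], h, st, cap, _, _, _ => by
    simpa [wt_zero_weight] using FP.Pr_le_one _ _
  | [x], h, st, cap, _, _, _ => by
    simpa [wt_zero_weight] using FP.Pr_le_one _ _
  | x :: y :: l, 0, st, cap, _, _, _ => by
    rw [Pr_false_weight _ fun ω => by simp [quer]]
    exact wt_nonneg_weight (kap_nonneg_weight _ _ _) _
  | x :: y :: l, h + 1, st, cap, hst, hc, hcM => by
    by_cases hok : ok G st x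
    swap
    · rw [Pr_false_weight _ fun ω e => hok e.1]
      exact wt_nonneg_weight (kap_nonneg_weight _ _ _) _
    refine (FP.Pr_mono _ fun ω e => e.2.resolve_left (by simp)).trans
      ((step_weight h1 h2 hM hu hst h cap hc hcM x (fun r η => quer G h (nxt st x) r η (y :: l))
        fun r η η' e => quer_congr_weight G h _ r e _).trans ?_)
    refine le_trans (Finset.sum_le_sum fun r hr => ?_) (sum_wt_weight u M l.length cap)
    have hr' := Finset.mem_range.1 hr
    exact mul_le_mul_of_nonneg_left (single_weight h1 h2 hM hu (y :: l) h _ r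
      (stAdj_nxt_weight hok) (by omega) (by omega)) (by positivity)

/-- the event that the subtree at `x` queries `l`. -/
def brT_weight (G : SimpleGraph V) (h : ℕ) (st : St V) (x : Bool × V) (l : List (Bool × V))
    (η : Lab V) : Prop :=
  ok G st x ∧ (l = [] ∨ η [] ≤ h) ∧ quer G h (nxt st x) (η []) η l

lemma brT_le_weight (h1 : LawS) (h2 : AliveS) {G : SimpleGraph V} {M : ℕ} {u : ℕ → ℝ}
    (hM : 0 < M) (hu : UB G M u) (h : ℕ) (st : St V) (x : Bool × V) (l : List (Bool × V)) :
    (tlaw V M h).Pr (brT_weight G h st x l) ≤ wt (kap u M M) (l.length + 1 - 2) := by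
  have hw := wt_nonneg_weight (kap_nonneg_weight u M M) (l.length + 1 - 2)
  refine Pr_root_le_weight h1 hM h
    (fun r η => ok G st x ∧ (l = [] ∨ r ≤ h) ∧ quer G h (nxt st x) r η l)
    (fun r η η' e => by simp only [quer_congr_weight G h _ r e]) fun r hr => ?_
  by_cases hok : ok G st x
  swap
  · rw [Pr_false_weight _ fun ω e => hok e.1]; exact hw
  by_cases hl : l = []
  · subst hl
    simpa [wt_zero_weight] using FP.Pr_le_one _ _
  by_cases hrh : r ≤ h
  swap
  · rw [Pr_false_weight _ fun ω e => e.2.1.elim hl hrh]; exact hw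
  refine (FP.Pr_mono _ fun η e => e.2.2).trans
    ((single_weight h1 h2 hM hu l h _ r (stAdj_nxt_weight hok) hrh hr.le).trans ?_)
  exact wt_mono_weight (kap_nonneg_weight _ _ _) (kap_mono_weight u M hr.le) _

lemma brT_of_quer_weight {G : SimpleGraph V} {h cap : ℕ} (hc : cap ≤ h + 1) {st : St V}
    {x : Bool × V} {l : List (Bool × V)} {ω : Lab V} (H : quer G (h + 1) st cap ω (x :: l)) :
    brT_weight G h st x l (sub ω x) := by
  refine ⟨H.1, ?_⟩
  rcases H.2 with rfl | H2
  · exact ⟨Or.inl rfl, quer_nil_weight _ _ _ _ _⟩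
  · have : ω [x] < cap := H2.1
    exact ⟨Or.inr (show ω [x] ≤ h by omega), H2.2.2.2⟩

lemma pair_weight (h1 : LawS) (h2 : AliveS) {G : SimpleGraph V} {M : ℕ} {u : ℕ → ℝ}
    (hM : 0 < M) (hu : UB G M u) {b1 b2 : List (Bool × V)} (hb2 : b2 ≠ [])
    (hb : b1.head? ≠ b2.head?) : ∀ (c : List (Bool × V)) (h : ℕ) (st : St V) (cap : ℕ),
    StAdj G st → cap ≤ h → cap ≤ M →
    ((tlaw V M h).Pr fun ω => quer G h st cap ω (c ++ b1) ∧ quer G h st cap ω (c ++ b2))
      ≤ wt (kap u M cap) c.length *
        (wt (kap u M M) (b1.length - 2) * wt (kap u M M) (b2.length - 2)) := by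
  have hw := wt_nonneg_weight (kap_nonneg_weight u M M)
  have hw2 := mul_nonneg (hw (b1.length - 2)) (hw (b2.length - 2))
  intro c
  induction c with
  | nil =>
    intro h st cap hst hc hcM
    obtain ⟨y, l2, rfl⟩ := List.exists_cons_of_ne_nil hb2
    simp only [List.nil_append, List.length_nil, wt_zero_weight, one_mul]
    cases h with
    | zero => rw [Pr_false_weight _ fun ω e => by simpa [quer] using e.2]; exact hw2
    | succ h =>
      cases b1 with
      | nil =>
        refine (FP.Pr_mono _ fun ω e => brT_of_quer_weight hc e.2).trans ?_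
        rw [Pr_one_weight h1]
        simpa [wt_zero_weight] using brT_le_weight h1 h2 hM hu h st y l2
      | cons x l1 =>
        refine (FP.Pr_mono _ fun ω e => And.intro (brT_of_quer_weight hc e.1)
          (brT_of_quer_weight hc e.2)).trans ?_
        rw [Pr_two_weight h1 M h (by simpa using hb)]
        exact mul_le_mul (brT_le_weight h1 h2 hM hu h st x l1)
          (brT_le_weight h1 h2 hM hu h st y l2) (FP.Pr_nonneg _ _) (hw _)
  | cons x c ih =>
    intro h st cap hst hc hcM
    have hw3 := mul_nonneg (wt_nonneg_weight (kap_nonneg_weight u M cap) (x :: c).length) hw2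
    cases h with
    | zero => rw [Pr_false_weight _ fun ω e => by simpa [quer] using e.2]; exact hw3
    | succ h =>
      by_cases hok : ok G st x
      swap
      · rw [Pr_false_weight _ fun ω e => hok e.1.1]; exact hw3
      refine (FP.Pr_mono _ fun ω e => ?_).trans
        ((step_weight h1 h2 hM hu hst h cap hc hcM x (fun r η =>
          quer G h (nxt st x) r η (c ++ b1) ∧ quer G h (nxt st x) r η (c ++ b2))
          fun r η η' e => by simp only [quer_congr_weight G h _ r e]).trans ?_)
      · have e2 := e.2.2.resolve_left (by simp [hb2])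
        exact ⟨e2.1, e2.2.1, e2.2.2.1, (brT_of_quer_weight hc e.1).2.2, e2.2.2.2⟩
      · refine le_trans (Finset.sum_le_sum fun r hr => ?_)
          ((Finset.sum_mul _ _ _).ge.trans
            (mul_le_mul_of_nonneg_right (sum_wt_weight u M c.length cap) hw2))
        have hr' := Finset.mem_range.1 hr
        rw [mul_assoc]
        exact mul_le_mul_of_nonneg_left (ih h _ r (stAdj_nxt_weight hok) (by omega) (by omega))
          (by positivity)

theorem weight_ok (h1 : LawS) (h2 : AliveS) : WeightS := by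
  intro V _ _ G M u st c b1 b2 hM hu hst hb2 hb
  have hw := wt_nonneg_weight (kap_nonneg_weight u M M)
  have hw3 := mul_nonneg (mul_nonneg (hw (c.length - 1)) (hw (b1.length - 2))) (hw (b2.length - 2))
  obtain ⟨h, hh⟩ : ∃ h, M = h + 1 := ⟨M - 1, by omega⟩
  have key : ∀ h', h' = h + 1 → ((tlaw V M h').Pr fun ω =>
      querT G h' st ω (c ++ b1) ∧ querT G h' st ω (c ++ b2))
      ≤ wt (kap u M M) (c.length - 1) * wt (kap u M M) (b1.length - 2)
        * wt (kap u M M) (b2.length - 2) := by
    rintro _ rfl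
    cases c with
    | nil =>
      obtain ⟨y, l2, rfl⟩ := List.exists_cons_of_ne_nil hb2
      cases b1 with
      | nil => rw [Pr_false_weight _ fun ω e => by simpa [querT] using e.1]; exact hw3
      | cons x l1 =>
        have hq : ∀ (ω : Lab V) z l, (∀ l, ω l < M) → querT G (h + 1) st ω (z :: l) →
            brT_weight G h st z l (sub ω z) := fun ω z l hω e =>
          ⟨e.1, Or.inr (show ω [z] ≤ h by have := hω [z]; omega), e.2⟩
        refine (FP.Pr_mono_ae _ ((ae_lt_weight hM _).mono fun ω hω e =>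
          And.intro (hq ω x l1 hω e.1) (hq ω y l2 hω e.2))).trans ?_
        rw [Pr_two_weight h1 M h (by simpa using hb)]
        simp only [List.length_nil, Nat.zero_sub, wt_zero_weight, one_mul]
        exact mul_le_mul (brT_le_weight h1 h2 hM hu h st x l1)
          (brT_le_weight h1 h2 hM hu h st y l2) (FP.Pr_nonneg _ _) (hw _)
    | cons x c =>
      by_cases hok : ok G st x
      swap
      · rw [Pr_false_weight _ fun ω e => hok e.1.1]; exact hw3
      refine (FP.Pr_mono _ (Q := fun ω => (fun η : Lab V =>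
        quer G h (nxt st x) (η []) η (c ++ b1) ∧ quer G h (nxt st x) (η []) η (c ++ b2))
          (sub ω x)) fun ω e => ⟨e.1.2, e.2.2⟩).trans ?_
      refine (Pr_one_weight h1 M h x fun η : Lab V =>
        quer G h (nxt st x) (η []) η (c ++ b1) ∧ quer G h (nxt st x) (η []) η (c ++ b2)).trans_le ?_
      refine Pr_root_le_weight h1 hM h (fun r η =>
        quer G h (nxt st x) r η (c ++ b1) ∧ quer G h (nxt st x) r η (c ++ b2))
        (fun r η η' e => by simp only [quer_congr_weight G h _ r e]) fun r hr => ?_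
      refine (pair_weight h1 h2 hM hu hb2 hb c h _ r (stAdj_nxt_weight hok) (by omega)
        hr.le).trans ?_
      rw [mul_assoc]
      exact mul_le_mul_of_nonneg_right (wt_mono_weight (kap_nonneg_weight _ _ _)
        (kap_mono_weight u M hr.le) _) (mul_nonneg (hw _) (hw _))
  exact key M hh

end Vale.Agent.P046
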