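import Vale.Agent.P046.Proc
import Vale.Agent.P046.Rank
import Vale.Agent.P046.Rate
import Vale.Agent.P046.Drift
import Vale.Agent.P046.QV
import Vale.Agent.P046.Pow
import Vale.Agent.P046.Bar
import Vale.Agent.P046.Kill
import Vale.Agent.P046.St1
import Vale.Agent.P046.Link
import Vale.Agent.P046.Mix
import Vale.Agent.P046.Gap
import Vale.Agent.P046.Lin
import Vale.Agent.P046.Stab
import Vale.Agent.P046.Res
import Vale.Agent.P046.Ode
import Vale.Agent.P046.Law
import Vale.Agent.P046.Stop
import Vale.Agent.P046.Quer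
import Vale.Agent.P046.Couple
import Vale.Agent.P046.Weight
import Vale.Agent.P046.Bad
import Vale.Agent.P046.Union
import Vale.Agent.P046.TwoTree
import Vale.Agent.P046.Conf
import Vale.Agent.P046.Edge
import Vale.Agent.P046.Main
import Vale.Agent.P046.Final

/-! # P046: all steps together -/

namespace Vale.Agent.P046

theorem mainS_all : MainS := by
  obtain ⟨C1, -, h1⟩ := drift_ok rate_ok
  obtain ⟨C2, -, h2⟩ := qv_ok rate_ok
  obtain ⟨C3, h0, h3⟩ := res_ok
  exact main_ok harmBd_ok rank_ok (st1_ok (kill_ok h1 h2 pow_ok bar_ok) rate_ok)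
    (good_ok (mix_ok link_ok) gap_ok (ode_ok h0 h3 (stab_ok lin_ok))) (conf_ok twoTree_ok)
    (var_ok (couple_ok alive_ok stop_ok quer_ok)
      (union_ok quer_ok (weight_ok law_ok alive_ok) bad_ok)) edge_ok

end Vale.Agent.P046
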