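import Vale.Agent.P046.Defs

/-! # P046: basic lemmas -/

set_option linter.unusedSectionVars false

namespace Vale.Agent.P046

open Finset Vale.Agent.P015

variable {V : Type} [Fintype V] [DecidableEq V]

@[simp] lemma mem_nb {G : SimpleGraph V} {a b v : V} : v ∈ nb G a b ↔ G.Adj a v ∧ G.Adj b v := by
  simp [nb]

@[simp] lemma codS_mk (G : SimpleGraph V) (a b : V) : codS G s(a, b) = cod G a b := rfl

lemma cod_nonneg (G : SimpleGraph V) (a b : V) : 0 ≤ cod G a b := Nat.cast_nonneg _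

lemma codS_nonneg (G : SimpleGraph V) (e : Sym2 V) : 0 ≤ codS G e := by
  induction e using Sym2.ind with | _ a b => exact cod_nonneg G a b

lemma cod_le_card (G : SimpleGraph V) (a b : V) : cod G a b ≤ Fintype.card V := by
  unfold cod; exact_mod_cast Finset.card_le_univ _

lemma Reg.le {G : SimpleGraph V} {D δ : ℝ} (h : Reg G D δ) {a b : V} (hab : G.Adj a b) :
    cod G a b ≤ D * (1 + δ) := by
  have := (abs_le.mp (h a b hab)).2; linarith

lemma Reg.ge {G : SimpleGraph V} {D δ : ℝ} (h : Reg G D δ) {a b : V} (hab : G.Adj a b) :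
    D * (1 - δ) ≤ cod G a b := by
  have := (abs_le.mp (h a b hab)).1; linarith

lemma Reg.absS {G : SimpleGraph V} {D δ : ℝ} (h : Reg G D δ) {e : Sym2 V} (he : e ∈ G.edgeSet) :
    |codS G e - D| ≤ δ * D := by
  induction e using Sym2.ind with | _ a b => exact h a b he

lemma ind_of {H : Finset (Sym2 V)} {G : SimpleGraph V} (h : ∀ e ∈ H, e ∈ G.edgeSet) :
    ind H G = 1 := if_pos h

lemma ind_of_not {H : Finset (Sym2 V)} {G : SimpleGraph V} (h : ¬ ∀ e ∈ H, e ∈ G.edgeSet) :
    ind H G = 0 := if_neg h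

lemma ind_cases (H : Finset (Sym2 V)) (G : SimpleGraph V) :
    (ind H G = 1 ∧ ∀ e ∈ H, e ∈ G.edgeSet) ∨ (ind H G = 0 ∧ ¬ ∀ e ∈ H, e ∈ G.edgeSet) := by
  by_cases h : ∀ e ∈ H, e ∈ G.edgeSet
  · exact Or.inl ⟨ind_of h, h⟩
  · exact Or.inr ⟨ind_of_not h, h⟩

lemma ind_nonneg (H : Finset (Sym2 V)) (G : SimpleGraph V) : 0 ≤ ind H G := by
  rcases ind_cases H G with h | h <;> rw [h.1] <;> norm_num

lemma ind_le_one (H : Finset (Sym2 V)) (G : SimpleGraph V) : ind H G ≤ 1 := by
  rcases ind_cases H G with h | h <;> rw [h.1] <;> norm_num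

@[simp] lemma ind_empty (G : SimpleGraph V) : ind ∅ G = 1 := ind_of (by simp)

lemma ind_union (H H' : Finset (Sym2 V)) (G : SimpleGraph V) :
    ind (H ∪ H') G = ind H G * ind H' G := by
  rcases ind_cases H G with h | h <;> rcases ind_cases H' G with h' | h' <;> rw [h.1, h'.1]
  · rw [ind_of fun e he => (Finset.mem_union.mp he).elim (h.2 e) (h'.2 e)]; norm_num
  · rw [ind_of_not fun h2 => h'.2 fun e he => h2 e (Finset.mem_union_right _ he)]; norm_num
  · rw [ind_of_not fun h2 => h.2 fun e he => h2 e (Finset.mem_union_left _ he)]; norm_num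
  · rw [ind_of_not fun h2 => h.2 fun e he => h2 e (Finset.mem_union_left _ he)]; norm_num

lemma ind_insert (e : Sym2 V) (H : Finset (Sym2 V)) (G : SimpleGraph V) :
    ind (insert e H) G = ind {e} G * ind H G := by
  rw [Finset.insert_eq, ind_union]

open Classical in
lemma ind_single (a b : V) (G : SimpleGraph V) :
    ind {s(a, b)} G = if G.Adj a b then 1 else 0 := by
  simp [ind]

open Classical in
lemma ind_two (x y v : V) (H : Finset (Sym2 V)) (G : SimpleGraph V) :
    ind (insert s(x, v) (insert s(y, v) H)) G = if v ∈ nb G x y then ind H G else 0 := by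
  rw [ind_insert, ind_insert, ind_single, ind_single]
  by_cases h1 : G.Adj x v <;> by_cases h2 : G.Adj y v <;> simp [h1, h2]

lemma sum_ind_two (x y : V) (H : Finset (Sym2 V)) (G : SimpleGraph V) :
    ∑ v, ind (insert s(x, v) (insert s(y, v) H)) G = cod G x y * ind H G := by
  classical
  simp only [ind_two]
  rw [← Finset.sum_filter, Finset.filter_mem_eq_inter, Finset.univ_inter, Finset.sum_const, cod,
    nsmul_eq_mul]

lemma ind_mono {G G' : SimpleGraph V} (h : G ≤ G') (H : Finset (Sym2 V)) : ind H G ≤ ind H G' := by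
  rcases ind_cases H G with h1 | h1
  · rw [h1.1, ind_of fun e he => SimpleGraph.edgeSet_mono h (h1.2 e he)]
  · rw [h1.1]; exact ind_nonneg _ _

lemma ind_anti {H H' : Finset (Sym2 V)} (h : H ⊆ H') (G : SimpleGraph V) :
    ind H' G ≤ ind H G := by
  rcases ind_cases H' G with h1 | h1
  · rw [h1.1, ind_of fun e he => h1.2 e (h he)]
  · rw [h1.1]; exact ind_nonneg _ _

@[simp] lemma rem_adj {G : SimpleGraph V} {T : Finset V} {a b : V} :
    (rem G T).Adj a b ↔ G.Adj a b ∧ ¬(a ∈ T ∧ b ∈ T) := Iff.rfl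

lemma rem_le (G : SimpleGraph V) (T : Finset V) : rem G T ≤ G := fun _ _ h => h.1

lemma lz_le (G : SimpleGraph V) (T : Finset V) : lz G T ≤ G := by
  unfold lz; split_ifs
  · exact rem_le G T
  · exact le_rfl

lemma lz_adj {G : SimpleGraph V} {T : Finset V} {a b : V} :
    (lz G T).Adj a b ↔ G.Adj a b ∧ ¬(G.IsNClique 3 T ∧ a ∈ T ∧ b ∈ T) := by
  unfold lz; split_ifs with h <;> simp [h]

@[simp] lemma mem_tris {G : SimpleGraph V} {T : Finset V} : T ∈ tris G ↔ G.IsNClique 3 T := by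
  simp [tris]

@[simp] lemma mem_triples {T : Finset V} : T ∈ triples V ↔ T.card = 3 := by
  simp [triples]

lemma card_triples : (triples V).card = (Fintype.card V).choose 3 := by
  simp [triples]

lemma tris_subset (G : SimpleGraph V) : tris G ⊆ triples V := fun _ h =>
  mem_triples.mpr (mem_tris.mp h).card_eq

lemma tris_rem_subset (G : SimpleGraph V) (T : Finset V) : tris (rem G T) ⊆ (tris G).erase T := by
  intro S hS
  have h := mem_tris.mp hS
  refine Finset.mem_erase.mpr ⟨?_, mem_tris.mpr (h.mono (rem_le G T))⟩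
  rintro rfl
  obtain ⟨a, b, c, hab, -, -, rfl⟩ := SimpleGraph.is3Clique_iff.mp h
  exact hab.2 ⟨by simp, by simp⟩

/-! ### sums over lists -/

section sumL
variable {X : Type} [Fintype X]

lemma sumL_mono : ∀ (L : ℕ) {F F' : List X → ℝ}, (∀ l, l.length = L → F l ≤ F' l) →
    sumL L F ≤ sumL L F'
  | 0, _, _, h => h [] rfl
  | L + 1, _, _, h => Finset.sum_le_sum fun x _ =>
      sumL_mono L fun l hl => h (x :: l) (by simp [hl])

lemma sumL_congr (L : ℕ) {F F' : List X → ℝ} (h : ∀ l, l.length = L → F l = F' l) :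
    sumL L F = sumL L F' :=
  le_antisymm (sumL_mono L fun l hl => (h l hl).le) (sumL_mono L fun l hl => (h l hl).ge)

lemma sumL_add : ∀ (L : ℕ) (F F' : List X → ℝ),
    sumL L (fun l => F l + F' l) = sumL L F + sumL L F'
  | 0, _, _ => rfl
  | L + 1, F, F' => by
    simp only [sumL, ← Finset.sum_add_distrib]
    exact Finset.sum_congr rfl fun x _ => sumL_add L _ _

lemma sumL_mul_left : ∀ (L : ℕ) (c : ℝ) (F : List X → ℝ),
    sumL L (fun l => c * F l) = c * sumL L F
  | 0, _, _ => rfl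
  | L + 1, c, F => by
    simp only [sumL, Finset.mul_sum]
    exact Finset.sum_congr rfl fun x _ => sumL_mul_left L _ _

lemma sumL_mul_right (L : ℕ) (c : ℝ) (F : List X → ℝ) :
    sumL L (fun l => F l * c) = sumL L F * c := by
  simp only [mul_comm _ c, sumL_mul_left]

lemma sumL_const : ∀ (L : ℕ) (c : ℝ), sumL L (fun _ : List X => c) = (Fintype.card X : ℝ) ^ L * c
  | 0, _ => by simp [sumL]
  | L + 1, c => by simp only [sumL, sumL_const L c]; simp; ring

@[simp] lemma sumL_zero (L : ℕ) : sumL L (fun _ : List X => (0 : ℝ)) = 0 := by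
  simp [sumL_const]

lemma sumL_nonneg (L : ℕ) {F : List X → ℝ} (h : ∀ l, l.length = L → 0 ≤ F l) : 0 ≤ sumL L F := by
  simpa using sumL_mono L (F := fun _ => 0) h

lemma sumL_sum {ι : Type} (S : Finset ι) (L : ℕ) (F : ι → List X → ℝ) :
    sumL L (fun l => ∑ i ∈ S, F i l) = ∑ i ∈ S, sumL L (F i) := by
  classical
  induction S using Finset.induction_on with
  | empty => simp
  | insert i S hi ih => simp only [Finset.sum_insert hi, sumL_add, ih]

lemma E_sumL {α : Type} (μ : FP α) : ∀ (L : ℕ) (F : α → List X → ℝ),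
    (μ.E fun a => sumL L (F a)) = sumL L fun l => μ.E fun a => F a l
  | 0, _ => rfl
  | L + 1, F => by
    simp only [sumL, FP.E_sum]
    exact Finset.sum_congr rfl fun x _ => E_sumL μ L fun a l => F a (x :: l)

lemma single_le_sumL : ∀ (l0 : List X) {F : List X → ℝ}, (∀ l, 0 ≤ F l) →
    F l0 ≤ sumL l0.length F
  | [], _, _ => le_rfl
  | x :: l0, F, h => by
    refine (single_le_sumL l0 (F := fun l => F (x :: l)) fun l => h _).trans ?_
    exact Finset.single_le_sum (f := fun y => sumL l0.length fun l => F (y :: l))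
      (fun y _ => sumL_nonneg _ fun l _ => h _) (Finset.mem_univ x)

end sumL

/-! ### sums over walks -/

lemma sumW_mono : ∀ (π : List Bool) {F F' : List (Bool × V) → ℝ},
    (∀ l, l.map Prod.fst = π → F l ≤ F' l) → sumW π F ≤ sumW π F'
  | [], _, _, h => h [] rfl
  | β :: π, _, _, h => sumW_mono π fun l hl => Finset.sum_le_sum fun v _ =>
      h ((β, v) :: l) (by simp [hl])

lemma sumW_congr (π : List Bool) {F F' : List (Bool × V) → ℝ}
    (h : ∀ l, l.map Prod.fst = π → F l = F' l) : sumW π F = sumW π F' :=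
  le_antisymm (sumW_mono π fun l hl => (h l hl).le) (sumW_mono π fun l hl => (h l hl).ge)

lemma sumW_add : ∀ (π : List Bool) (F F' : List (Bool × V) → ℝ),
    sumW π (fun l => F l + F' l) = sumW π F + sumW π F'
  | [], _, _ => rfl
  | β :: π, F, F' => by simp only [sumW, Finset.sum_add_distrib, sumW_add π]

lemma sumW_mul_left : ∀ (π : List Bool) (c : ℝ) (F : List (Bool × V) → ℝ),
    sumW π (fun l => c * F l) = c * sumW π F
  | [], _, _ => rfl
  | β :: π, c, F => by simp only [sumW, ← Finset.mul_sum, sumW_mul_left π]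

lemma sumW_mul_right (π : List Bool) (c : ℝ) (F : List (Bool × V) → ℝ) :
    sumW π (fun l => F l * c) = sumW π F * c := by
  simp only [mul_comm _ c, sumW_mul_left]

lemma sumW_neg (π : List Bool) (F : List (Bool × V) → ℝ) :
    sumW π (fun l => -F l) = -sumW π F := by
  simpa using sumW_mul_left π (-1) F

lemma sumW_sub (π : List Bool) (F F' : List (Bool × V) → ℝ) :
    sumW π (fun l => F l - F' l) = sumW π F - sumW π F' := by
  simp only [sub_eq_add_neg, sumW_add, sumW_neg]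

@[simp] lemma sumW_zero (π : List Bool) : sumW π (fun _ : List (Bool × V) => (0 : ℝ)) = 0 := by
  simpa using sumW_mul_left (V := V) π 0 fun _ => 0

lemma sumW_nonneg (π : List Bool) {F : List (Bool × V) → ℝ}
    (h : ∀ l, l.map Prod.fst = π → 0 ≤ F l) : 0 ≤ sumW π F := by
  simpa using sumW_mono π (F := fun _ => 0) h

lemma abs_sumW_le (π : List Bool) {F F' : List (Bool × V) → ℝ}
    (h : ∀ l, l.map Prod.fst = π → |F l| ≤ F' l) : |sumW π F| ≤ sumW π F' := by
  refine abs_le.mpr ⟨?_, sumW_mono π fun l hl => (abs_le.mp (h l hl)).2⟩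
  rw [← sumW_neg]
  exact sumW_mono π fun l hl => (abs_le.mp (h l hl)).1

lemma E_sumW {α : Type} (μ : FP α) : ∀ (π : List Bool) (F : α → List (Bool × V) → ℝ),
    (μ.E fun a => sumW π (F a)) = sumW π fun l => μ.E fun a => F a l
  | [], _ => rfl
  | β :: π, F => by
    simp only [sumW, ← FP.E_sum]
    exact E_sumW μ π fun a l => ∑ v, F a ((β, v) :: l)

/-! ### expectations -/

lemma abs_E_le {α : Type} (μ : FP α) {f g : α → ℝ} (h : μ.Ae fun a => |f a| ≤ g a) :
    |μ.E f| ≤ μ.E g := by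
  refine abs_le.mpr ⟨?_, μ.E_mono_ae (h.mono fun a ha => (abs_le.mp ha).2)⟩
  rw [← FP.E_neg]
  exact μ.E_mono_ae (h.mono fun a ha => (abs_le.mp ha).1)

lemma Pr_not {α : Type} (μ : FP α) (P : α → Prop) : (μ.Pr fun a => ¬ P a) = 1 - μ.Pr P := by
  classical
  rw [FP.Pr_eq_E, FP.Pr_eq_E, ← μ.E_const 1, ← FP.E_sub]
  simp only [FP.E_const]
  congr 1; funext a; by_cases h : P a <;> simp [h]

lemma Pr_exists_le {α ι : Type} (μ : FP α) (S : Finset ι) (P : ι → α → Prop) :
    (μ.Pr fun a => ∃ i ∈ S, P i a) ≤ ∑ i ∈ S, μ.Pr (P i) := by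
  classical
  simp only [FP.Pr_eq_E, ← FP.E_sum]
  refine μ.E_mono fun a => ?_
  split_ifs with h
  · obtain ⟨i, hi, hP⟩ := h
    refine le_trans (by rw [if_pos hP]) (Finset.single_le_sum
      (f := fun i => if P i a then (1 : ℝ) else 0) (fun j _ => ?_) hi)
    split_ifs <;> norm_num
  · exact Finset.sum_nonneg fun j _ => by split_ifs <;> norm_num

lemma Pr_or_le {α : Type} (μ : FP α) (P Q : α → Prop) :
    (μ.Pr fun a => P a ∨ Q a) ≤ μ.Pr P + μ.Pr Q := by
  classical
  simp only [FP.Pr_eq_E, ← FP.E_add]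
  refine μ.E_mono fun a => ?_
  by_cases hP : P a <;> by_cases hQ : Q a <;> simp [hP, hQ]

/-! ### the trajectories -/

lemma choose3 (n : ℕ) : (n.choose 3 : ℝ) = n * (n - 1) * (n - 2) / 6 := by
  rw [Nat.cast_choose_eq_descPochhammer_div]
  simp [descPochhammer_succ_right, Nat.factorial]

lemma Dk_zero (n : ℕ) : Dk n 0 = n - 2 := by simp [Dk]

lemma Dk_pos {n : ℕ} (hn : 4 ≤ n) (k : ℕ) : 0 < Dk n k := by
  have h : (4 : ℝ) ≤ n := by exact_mod_cast hn
  have h2 : (0 : ℝ) < n - 2 := by linarith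
  unfold Dk; positivity

lemma Dk_succ {n : ℕ} (hn : 4 ≤ n) (k : ℕ) :
    Dk n (k + 1) = Dk n k / (1 + 2 * (Dk n k / (n.choose 3 : ℝ))) := by
  have h : (4 : ℝ) ≤ n := by exact_mod_cast hn
  have h2 : (0 : ℝ) < n - 2 := by linarith
  have h3 : (0 : ℝ) < (n.choose 3 : ℝ) := by exact_mod_cast Nat.choose_pos (by omega)
  have h4 : (0 : ℝ) < 1 / ((n : ℝ) - 2) + 2 * k / (n.choose 3 : ℝ) := by positivity
  have h5 : 1 / ((n : ℝ) - 2) + 2 * ((k + 1 : ℕ) : ℝ) / (n.choose 3 : ℝ)
      = (1 / ((n : ℝ) - 2) + 2 * k / (n.choose 3 : ℝ)) + 2 / (n.choose 3 : ℝ) := by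
    push_cast; ring
  unfold Dk
  rw [h5]
  generalize 1 / ((n : ℝ) - 2) + 2 * k / (n.choose 3 : ℝ) = u at *
  field_simp

lemma Dk_anti {n : ℕ} (hn : 4 ≤ n) : Antitone (Dk n) := by
  refine antitone_nat_of_succ_le fun k => ?_
  rw [Dk_succ hn]
  have := Dk_pos hn k
  exact div_le_self this.le (le_add_of_nonneg_right (by positivity))

lemma Dk_le {n : ℕ} (hn : 4 ≤ n) (k : ℕ) : Dk n k ≤ n - 2 :=
  Dk_zero n ▸ Dk_anti hn (Nat.zero_le k)

/-- `a = D / N ≤ 6 / (n (n - 1))`. -/
lemma a_le {n : ℕ} (hn : 4 ≤ n) (k : ℕ) :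
    Dk n k / (n.choose 3 : ℝ) ≤ 6 / ((n : ℝ) * (n - 1)) := by
  have h : (4 : ℝ) ≤ n := by exact_mod_cast hn
  have h1 := Dk_le hn k
  have h2 : (0 : ℝ) < n - 2 := by linarith
  have h3 : (0 : ℝ) < n - 1 := by linarith
  rw [choose3, div_le_div_iff₀ (by positivity) (by positivity)]
  have : (0 : ℝ) ≤ n * (n - 1) := by positivity
  nlinarith

lemma le_log_one_add {a : ℝ} (h0 : 0 ≤ a) (h1 : a ≤ 1 / 2) : a ≤ Real.log (1 + 2 * a) := by
  have h := Real.one_sub_inv_le_log_of_pos (show 0 < 1 + 2 * a by linarith)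
  refine le_trans ?_ h
  rw [le_sub_comm, inv_eq_one_div, div_le_iff₀ (by linarith)]
  nlinarith

lemma sum_a_le {n : ℕ} (hn : 4 ≤ n) (K : ℕ) :
    ∑ k ∈ range K, Dk n k / (n.choose 3 : ℝ) ≤ Real.log (((n : ℝ) - 2) / Dk n K) := by
  have h : (4 : ℝ) ≤ n := by exact_mod_cast hn
  induction K with
  | zero => rw [Dk_zero, div_self (by linarith)]; simp
  | succ K ih =>
    have h1 := Dk_pos hn K
    have h2 : 0 ≤ Dk n K / (n.choose 3 : ℝ) := by positivity
    have h3 : Dk n K / (n.choose 3 : ℝ) ≤ 1 / 2 := (a_le hn K).trans (by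
      rw [div_le_iff₀ (by nlinarith)]; nlinarith)
    have h4 : (0 : ℝ) < n - 2 := by linarith
    rw [Finset.sum_range_succ, Dk_succ hn, div_div_eq_mul_div, mul_div_right_comm,
      Real.log_mul (by positivity) (by positivity)]
    linarith [le_log_one_add h2 h3]

lemma rbar_pos {D : ℝ} (hD : 0 ≤ D) (M s : ℕ) : 0 < rbar D M s := by
  unfold rbar; positivity

lemma rbar_sq {D : ℝ} (hD : 0 ≤ D) (M s : ℕ) : rbar D M s ^ 2 = 1 / (1 + 2 * D * s / M) := by
  unfold rbar; rw [div_pow, Real.sq_sqrt (by positivity), one_pow]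

lemma rbar_le_one {D : ℝ} (hD : 0 ≤ D) (M s : ℕ) : rbar D M s ≤ 1 := by
  unfold rbar
  exact div_le_one_of_le₀ (Real.one_le_sqrt.mpr (le_add_of_nonneg_right (by positivity)))
    (Real.sqrt_nonneg _)

lemma rbar_zero (D : ℝ) (M : ℕ) : rbar D M 0 = 1 := by simp [rbar]

lemma rbar_self (D : ℝ) {M : ℕ} (hM : 0 < M) : rbar D M M = 1 / Real.sqrt (1 + 2 * D) := by
  have : (M : ℝ) ≠ 0 := by exact_mod_cast hM.ne'
  rw [rbar, mul_div_assoc, div_self this, mul_one]

/-- `1 + 2 D (s + 1) / M = (1 + 2 D s / M) (1 + 2 w)`. -/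
lemma rbar_step {D : ℝ} (hD : 0 ≤ D) (M s : ℕ) :
    1 + 2 * D * ((s + 1 : ℕ) : ℝ) / M = (1 + 2 * D * s / M) * (1 + 2 * (D * rbar D M s ^ 2 / M)) := by
  have h : (0 : ℝ) < 1 + 2 * D * s / M := by positivity
  rw [rbar_sq hD]
  push_cast
  generalize hu : 1 + 2 * D * s / M = u at *
  have : 1 + 2 * D * (s + 1) / M = u + 2 * D / M := by rw [← hu]; ring
  rw [this]; field_simp

lemma sum_w_le {D : ℝ} {M : ℕ} (hD : 0 ≤ D) (hM : D / M ≤ 1 / 2) (s : ℕ) :
    ∑ r ∈ range s, D * rbar D M r ^ 2 / M ≤ Real.log (1 + 2 * D * s / M) := by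
  induction s with
  | zero => simp
  | succ s ih =>
    have h1 : 0 ≤ D * rbar D M s ^ 2 / M := by positivity
    have h2 : D * rbar D M s ^ 2 / M ≤ 1 / 2 := by
      refine le_trans ?_ hM
      have := pow_le_one₀ (n := 2) (rbar_pos hD M s).le (rbar_le_one hD M s)
      exact div_le_div_of_nonneg_right (mul_le_of_le_one_right hD this) (Nat.cast_nonneg _)
    rw [Finset.sum_range_succ, rbar_step hD, Real.log_mul (by positivity) (by positivity)]
    linarith [le_log_one_add h1 h2]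

lemma II_eq_sum (G : SimpleGraph V) (M : ℕ) (a b v : V) : ∀ s, II G M s a b v
    = ∑ r ∈ range s, rho G (II G M r) a v b * rho G (II G M r) b v a / M
  | 0 => rfl
  | s + 1 => by rw [Finset.sum_range_succ, ← II_eq_sum G M a b v s]; rfl

/-- polylogarithmic quantities are eventually smaller than `ν`. -/
lemma polylog (A : ℝ) (k : ℕ) : ∃ C : ℝ, 1 ≤ C ∧ ∀ ν : ℝ, C ≤ ν → A * Real.log ν ^ k ≤ ν := by
  have h := (Real.isLittleO_pow_log_id_atTop (n := k)).def (c := 1 / (|A| + 1)) (by positivity)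
  obtain ⟨C, hC⟩ := Filter.eventually_atTop.mp h
  refine ⟨max C 1, le_max_right _ _, fun ν hν => ?_⟩
  have h1 : 1 ≤ ν := (le_max_right _ _).trans hν
  have h2 := hC ν ((le_max_left _ _).trans hν)
  have h3 : 0 ≤ Real.log ν ^ k := pow_nonneg (Real.log_nonneg h1) k
  rw [Real.norm_of_nonneg h3, id, Real.norm_of_nonneg (by linarith), one_div_mul_eq_div,
    le_div_iff₀ (by positivity)] at h2
  nlinarith [le_abs_self A]

end Vale.Agent.P046
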