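import Vale.Agent.P046.Process
import Vale.Agent.P015.FP

/-! # P046: definitions for the proof (see notes/P046.md) -/

namespace Vale.Agent.P046

open Finset Vale.Agent.P015

variable {V : Type} [Fintype V] [DecidableEq V]

open Classical in
/-- common neighbours. -/
noncomputable def nb (G : SimpleGraph V) (a b : V) : Finset V :=
  univ.filter fun v => G.Adj a v ∧ G.Adj b v

/-- codegree. -/
noncomputable def cod (G : SimpleGraph V) (a b : V) : ℝ := (nb G a b).card

lemma nb_comm (G : SimpleGraph V) (a b : V) : nb G a b = nb G b a := by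
  unfold nb; congr 1; funext v; exact propext and_comm

lemma cod_comm (G : SimpleGraph V) (a b : V) : cod G a b = cod G b a := by
  unfold cod; rw [nb_comm]

/-- codegree of an unordered pair. -/
noncomputable def codS (G : SimpleGraph V) : Sym2 V → ℝ := Sym2.lift ⟨cod G, cod_comm G⟩

/-- all edges have codegree `D (1 ± δ)`. -/
def Reg (G : SimpleGraph V) (D δ : ℝ) : Prop := ∀ a b, G.Adj a b → |cod G a b - D| ≤ δ * D

open Classical in
/-- indicator that all pairs of `H` are edges. -/
noncomputable def ind (H : Finset (Sym2 V)) (G : SimpleGraph V) : ℝ :=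
  if ∀ e ∈ H, e ∈ G.edgeSet then 1 else 0

open Classical in
/-- the triangles. -/
noncomputable def tris (G : SimpleGraph V) : Finset (Finset V) :=
  univ.filter fun T => G.IsNClique 3 T

/-- all triples of vertices. -/
def triples (V : Type) [Fintype V] : Finset (Finset V) := (univ : Finset V).powersetCard 3

open Classical in
/-- lazy step. -/
noncomputable def lz (G : SimpleGraph V) (T : Finset V) : SimpleGraph V :=
  if G.IsNClique 3 T then rem G T else G

/-- `h` is harmonic for the process with boundary values `f`. -/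
def Harm (f h : SimpleGraph V → ℝ) : Prop :=
  (∀ G, ∑ T ∈ tris G, (h (rem G T) - h G) = 0) ∧ ∀ G, tris G = ∅ → h G = f G

open Classical in
/-- lazy step killed outside the good set. -/
noncomputable def kstep (good : SimpleGraph V → Prop) :
    Option (SimpleGraph V) → FP (Option (SimpleGraph V))
  | none => FP.pure none
  | some G => (FP.unif (triples V)).map fun T => if good (lz G T) then some (lz G T) else none

/-- law of the killed lazy chain. -/
noncomputable def klaw (good : ℕ → SimpleGraph V → Prop) : ℕ → FP (Option (SimpleGraph V))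
  | 0 => FP.pure (some ⊤)
  | k + 1 => (klaw good k).bind (kstep (good (k + 1)))

/-- the codegree trajectory. -/
noncomputable def Dk (n k : ℕ) : ℝ := 1 / (1 / ((n : ℝ) - 2) + 2 * k / (n.choose 3 : ℝ))

/-! ### walks -/

def sel (β : Bool) (e : V × V) : V := if β then e.2 else e.1

/-- current edge of a walk (newest step first). -/
def node (e : V × V) : List (Bool × V) → V × V
  | [] => e
  | x :: l => (sel x.1 (node e l), x.2)

/-- edges used by a walk (the root edge is not included). -/
def wedges (e : V × V) : List (Bool × V) → Finset (Sym2 V)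
  | [] => ∅
  | x :: l => insert s((node e l).1, x.2) (insert s((node e l).2, x.2) (wedges e l))

/-- vertices used by a walk (root vertices included). -/
def wv (e : V × V) : List (Bool × V) → Finset V
  | [] => {e.1, e.2}
  | x :: l => insert x.2 (wv e l)

/-- some step of the walk goes to a vertex of `Z (earlier steps)`. -/
def hit (Z : List (Bool × V) → Finset V) : List (Bool × V) → Prop
  | [] => False
  | x :: l => x.2 ∈ Z l ∨ hit Z l

/-- sum over walks with a given pattern. -/
noncomputable def sumW : List Bool → (List (Bool × V) → ℝ) → ℝ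
  | [], F => F []
  | β :: π, F => sumW π fun l => ∑ v, F ((β, v) :: l)

/-- normalised codegree deviation averaged over walks. -/
noncomputable def zz (G : SimpleGraph V) (D : ℝ) (e : V × V) (π : List Bool) : ℝ :=
  sumW π (fun l => ind (wedges e l) G * (cod G (node e l).1 (node e l).2 - D)) / D ^ (π.length + 1)

/-- the pattern has left the root vertices. -/
def Free (π : List Bool) : Prop := true ∈ π.dropLast

/-- hypotheses of one lazy step; `a = D / N`, next value `D / (1 + 2 a)`. -/
structure StepHyp (G : SimpleGraph V) (D δ a : ℝ) (j : ℕ) (e : V × V) (π : List Bool) : Prop where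
  reg : Reg G D δ
  adj : G.Adj e.1 e.2
  len : π.length ≤ j
  j1 : 1 ≤ j
  D1 : 10 ≤ D
  δ0 : 0 ≤ δ
  jδ : (j + 2) * δ ≤ 1 / 2
  ha : a * (triples V).card = D
  aj : a * j ^ 2 * D ≤ 1
  aD : a * D ^ 2 ≤ 6

/-- increment of `zz` in one lazy step. -/
noncomputable def dz (G : SimpleGraph V) (D a : ℝ) (e : V × V) (π : List Bool) (T : Finset V) : ℝ :=
  zz (lz G T) (D / (1 + 2 * a)) e π - zz G D e π

/-- slowly growing factor of the barriers. -/
noncomputable def gg (n D : ℝ) : ℝ := ((n - 2) / D) ^ ((1 : ℝ) / 4000)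

noncomputable def bS (ν n D : ℝ) : ℝ := ν ^ 2 * gg n D / Real.sqrt D

noncomputable def bF (ν n D : ℝ) : ℝ := ν ^ 9 * gg n D / D

noncomputable def bT (ν n D : ℝ) : ℝ := 4 * ν * gg n D * ((n - 2) / D) ^ 2

open Classical in
/-- barrier for `zz G D e π`. -/
noncomputable def bar (ν n D : ℝ) (j : ℕ) (π : List Bool) : ℝ :=
  (if π = [] then 2 * bS ν n D else if Free π then bF ν n D else bS ν n D)
    + 2 ^ π.length / 2 ^ j * bT ν n D

/-- subgraph probabilities are dominated by those of `G(n, q)`. -/
def Dom (μ : FP (Option (SimpleGraph V))) (q hm : ℝ) : Prop :=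
  ∀ H : Finset (Sym2 V), (H.card : ℝ) ≤ hm → (μ.E fun o => o.elim 0 (ind H)) ≤ q ^ H.card

/-- output of the first phase. -/
structure St1 (ν D p : ℝ) (μ : FP (Option (SimpleGraph V))) : Prop where
  lo : ν ^ 100 ≤ D
  hi : D ≤ 2 * ν ^ 100
  p0 : 0 < p
  pD : p ^ 2 * ((Fintype.card V : ℝ) - 2) = D
  harm : ∀ (f h : SimpleGraph V → ℝ) (B : ℝ), Harm f h → (∀ G, h G ≤ B) →
    h ⊤ ≤ μ.E fun o => o.elim B h
  kill : (μ.Pr fun o => o = none) ≤ 1 / (Fintype.card V : ℝ) ^ 2
  reg : μ.Ae fun o => ∀ G, o = some G → Reg G D (1 / ν ^ 46)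
  dom : Dom μ (p * (1 + 1 / ν ^ 44)) (ν ^ 13)
  low : ∀ a b : V, a ≠ b → p * (1 - 1 / ν ^ 44) ≤ μ.E fun o => o.elim 0 (ind {s(a, b)})

/-! ### mixing in links -/

/-- sum over lists of a given length. -/
noncomputable def sumL {X : Type} [Fintype X] : ℕ → (List X → ℝ) → ℝ
  | 0, F => F []
  | L + 1, F => ∑ x, sumL L fun l => F (x :: l)

/-- number of walks of length `k` from `x` to `y` in the link of `u`. -/
noncomputable def linkW (G : SimpleGraph V) (u : V) : ℕ → V → V → ℝ
  | 0, x, y => if x = y then 1 else 0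
  | k + 1, x, y => ∑ v ∈ nb G u x, linkW G u k v y

/-- edges of a walk `x, vs, y` in the link of `u`. -/
def lk (u : V) : V → List V → V → Finset (Sym2 V)
  | x, [], y => {s(x, y), s(u, y)}
  | x, v :: vs, y => insert s(x, v) (insert s(u, v) (lk u v vs y))

def Mix (G : SimpleGraph V) (Δ w : ℝ) : Prop :=
  (∀ u, cod G u u ≤ Δ) ∧ ∀ u x y, x ≠ y → G.Adj u x → G.Adj u y → linkW G u 128 x y ≤ w

/-- random walk operator in the links. -/
noncomputable def opS (G : SimpleGraph V) (φ : V → V → ℝ) : V → V → ℝ :=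
  fun u v => (∑ x ∈ nb G u v, φ u x) / cod G u v

/-- stationary average over the star. -/
noncomputable def opP (G : SimpleGraph V) (φ : V → V → ℝ) : V → V → ℝ :=
  fun u _ => (∑ x ∈ nb G u u, cod G u x * φ u x) / ∑ x ∈ nb G u u, cod G u x

/-- weighted square norm. -/
noncomputable def sq2 (G : SimpleGraph V) (φ : V → V → ℝ) : ℝ :=
  ∑ u, ∑ v ∈ nb G u u, cod G u v * φ u v ^ 2

def Gap (G : SimpleGraph V) (γ : ℝ) : Prop := ∀ φ, sq2 G (opS G φ - opP G φ) ≤ γ ^ 2 * sq2 G φ

/-! ### the tree recursion -/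

noncomputable def rho (G : SimpleGraph V) (I : V → V → V → ℝ) (a b w : V) : ℝ :=
  ∏ v ∈ (nb G a b).erase w, (1 - I a b v)

noncomputable def II (G : SimpleGraph V) (M : ℕ) : ℕ → V → V → V → ℝ
  | 0 => fun _ _ _ => 0
  | s + 1 => fun a b v => II G M s a b v + rho G (II G M s) a v b * rho G (II G M s) b v a / M

/-- mean field survival probability. -/
noncomputable def rbar (D : ℝ) (M s : ℕ) : ℝ := 1 / Real.sqrt (1 + 2 * D * s / M)

/-- logarithmic deviation from the mean field. -/
noncomputable def xi (G : SimpleGraph V) (D : ℝ) (M s : ℕ) : V → V → ℝ := fun a b =>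
  ∑ v ∈ nb G a b, Real.log (1 - II G M s a b v) - Real.log (rbar D M s)

/-- output of the analysis of the tree recursion. -/
def Ode (G : SimpleGraph V) (ν D : ℝ) (M : ℕ) : Prop := ∀ s ≤ M, ∀ a b, G.Adj a b →
  |rho G (II G M s) a b a - rbar D M s| ≤ rbar D M s / ν ^ 19 ∧
  ∀ w v, ∏ x ∈ ((nb G a b).erase w).erase v, (1 - II G M s a b x) ≤ 11 / 10 * rbar D M s

/-! ### ranks and the universal cover -/

/-- the edge `a b` is not covered before time `s` (ranks `ω` on triangles, fuel `h`). -/
def aliveF (G : SimpleGraph V) (ω : Finset V → ℕ) : ℕ → V → V → ℕ → Prop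
  | 0, _, _, _ => True
  | h + 1, a, b, s => ∀ v ∈ nb G a b, ¬(ω {a, b, v} < s ∧ aliveF G ω h a v (ω {a, b, v}) ∧
      aliveF G ω h b v (ω {a, b, v}))

/-- final graph of the greedy process with ranks `< M`. -/
def finG (G : SimpleGraph V) (M : ℕ) (ω : Finset V → ℕ) : SimpleGraph V where
  Adj a b := G.Adj a b ∧ aliveF G ω M a b M ∧ aliveF G ω M b a M
  symm := ⟨fun _ _ h => ⟨h.1.symm, h.2.2, h.2.1⟩⟩
  loopless := ⟨fun _ h => h.1.ne rfl⟩

/-- independent uniform ranks on vertex sets. -/
noncomputable def rlaw (V : Type) [Fintype V] [DecidableEq V] (M : ℕ) : FP (Finset V → ℕ) :=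
  FP.iid (Finset V) (FP.unif (range M))

/-- a pair of nodes of the cover; a node is an edge with an excluded apex. -/
abbrev St (V : Type) := Bool → V × V × V

/-- labels of the cover. -/
abbrev Lab (V : Type) := List (Bool × V) → ℕ

def nxt (st : St V) (x : Bool × V) : St V :=
  fun β => if β then ((st x.1).2.1, x.2, (st x.1).1) else ((st x.1).1, x.2, (st x.1).2.1)

def ok (G : SimpleGraph V) (st : St V) (x : Bool × V) : Prop :=
  x.2 ∈ nb G (st x.1).1 (st x.1).2.1 ∧ x.2 ≠ (st x.1).2.2

/-- a valid address. -/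
def okP (G : SimpleGraph V) : St V → List (Bool × V) → Prop
  | _, [] => True
  | st, x :: l => ok G st x ∧ okP G (nxt st x) l

def sub (ω : Lab V) (x : Bool × V) : Lab V := fun l => ω (x :: l)

def alive (G : SimpleGraph V) : ℕ → St V → Bool → Lab V → ℕ → Prop
  | 0, _, _, _, _ => True
  | h + 1, st, β, ω, s => ∀ v, ok G st (β, v) → ¬(ω [(β, v)] < s ∧
      alive G h (nxt st (β, v)) false (sub ω (β, v)) (ω [(β, v)]) ∧
      alive G h (nxt st (β, v)) true (sub ω (β, v)) (ω [(β, v)]))

/-- labels queried below a triangle of rank `cap`. -/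
def quer (G : SimpleGraph V) : ℕ → St V → ℕ → Lab V → List (Bool × V) → Prop
  | _, _, _, _, [] => True
  | 0, _, _, _, _ :: _ => False
  | h + 1, st, cap, ω, x :: l => ok G st x ∧ (l = [] ∨ (ω [x] < cap ∧
      alive G (h + 1) st false ω (ω [x]) ∧ alive G (h + 1) st true ω (ω [x]) ∧
      quer G h (nxt st x) (ω [x]) (sub ω x) l))

/-- labels queried from the two roots. -/
def querT (G : SimpleGraph V) : ℕ → St V → Lab V → List (Bool × V) → Prop
  | _, _, _, [] => False
  | 0, _, _, _ :: _ => False
  | h + 1, st, ω, x :: l => ok G st x ∧ quer G h (nxt st x) (ω [x]) (sub ω x) l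

/-- projection of an address to a triangle. -/
def tri : St V → List (Bool × V) → Finset V
  | _, [] => ∅
  | st, [x] => {(st x.1).1, (st x.1).2.1, x.2}
  | st, x :: y :: l => tri (nxt st x) (y :: l)

/-- addresses of depth at most `h`. -/
abbrev Addr (V : Type) (h : ℕ) := {l : List (Bool × V) // l.length ≤ h}

noncomputable instance addrFintype (h : ℕ) : Fintype (Addr V h) :=
  (List.finite_length_le (Bool × V) h).fintype

def ext {h : ℕ} (ω : Addr V h → ℕ) : Lab V := fun l => if hl : l.length ≤ h then ω ⟨l, hl⟩ else 0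

/-- independent uniform labels on the cover. -/
noncomputable def tlaw (V : Type) [Fintype V] [DecidableEq V] (M h : ℕ) : FP (Lab V) :=
  (FP.iid (Addr V h) (FP.unif (range M))).map ext

/-- the two roots. -/
def st0 (a b c d : V) : St V := fun β => if β then (c, d, c) else (a, b, a)

/-- probability of a conflict. -/
noncomputable def confP (G : SimpleGraph V) (M : ℕ) (st : St V) : ℝ :=
  (tlaw V M M).Pr fun ω => ¬ Set.InjOn (tri st) {l | querT G M st ω l}

/-! ### counting conflicts -/

/-- validity of a sequence of steps of a program. -/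
def pvalid {S : Type} (G : SimpleGraph V) (par : S → Bool → V × V) (nx : S → Bool × V → S) :
    S → List (Bool × V) → Prop
  | _, [] => True
  | σ, x :: l => x.2 ∈ nb G (par σ x.1).1 (par σ x.1).2 ∧ pvalid G par nx (nx σ x) l

/-- the first step to an old vertex exists and uses a new edge. -/
def pbad {S : Type} (par : S → Bool → V × V) (nx : S → Bool × V → S) :
    S → Finset V → Finset (Sym2 V) → List (Bool × V) → Prop
  | _, _, _, [] => False
  | σ, U, H, x :: l =>
    if x.2 ∈ U then ¬(s((par σ x.1).1, x.2) ∈ H ∧ s((par σ x.1).2, x.2) ∈ H)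
    else pbad par nx (nx σ x) (insert x.2 U)
      (insert s((par σ x.1).1, x.2) (insert s((par σ x.1).2, x.2) H)) l

/-- program state: current pair, saved pair, remaining common steps, remaining first branch. -/
abbrev PS (V : Type) := St V × St V × ℕ × ℕ

def ppar (σ : PS V) (β : Bool) : V × V :=
  if σ.2.2.1 = 0 ∧ σ.2.2.2 = 0 then ((σ.2.1 β).1, (σ.2.1 β).2.1) else ((σ.1 β).1, (σ.1 β).2.1)

def pnx (σ : PS V) (x : Bool × V) : PS V :=
  if σ.2.2.1 ≠ 0 then (nxt σ.1 x, nxt σ.1 x, σ.2.2.1 - 1, σ.2.2.2)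
  else if σ.2.2.2 ≠ 0 then (nxt σ.1 x, σ.2.1, 0, σ.2.2.2 - 1)
  else (σ.1, nxt σ.2.1 x, 0, 0)

open Classical in
/-- number of degenerate pairs of walks with `i` common steps and branches of lengths `k`, `m`. -/
noncomputable def cnt (G : SimpleGraph V) (a b c d : V) (i k m : ℕ) : ℝ :=
  sumL (i + k + m) fun l => if pvalid G ppar pnx (st0 a b c d, st0 a b c d, i, k) l ∧
    pbad ppar pnx (st0 a b c d, st0 a b c d, i, k) {a, b, c, d} {s(a, b), s(c, d)} l then 1 else 0

noncomputable def wt (κ : ℝ) (m : ℕ) : ℝ := κ ^ m / m.factorial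

noncomputable def conf (G : SimpleGraph V) (M : ℕ) (κ : ℝ) (a b c d : V) : ℝ :=
  ∑ i ∈ range (M + 1), ∑ k ∈ range (M + 1), ∑ m ∈ range (M + 1),
    wt κ (i - 1) * wt κ (k - 2) * wt κ (m - 2) * cnt G a b c d i k m

/-- cumulated squared survival bound. -/
noncomputable def kap (u : ℕ → ℝ) (M s : ℕ) : ℝ := (∑ r ∈ range s, u r ^ 2) / M

/-- survival bound with two exclusions. -/
def UB (G : SimpleGraph V) (M : ℕ) (u : ℕ → ℝ) : Prop := ∀ s ≤ M, ∀ a b, G.Adj a b →
  ∀ w v, ∏ x ∈ ((nb G a b).erase w).erase v, (1 - II G M s a b x) ≤ u s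

/-- number of ordered edges. -/
noncomputable def mE (G : SimpleGraph V) : ℝ := ∑ a, ∑ b, ind {s(a, b)} G

/-- expected number of surviving ordered edges on the cover. -/
noncomputable def yE (G : SimpleGraph V) (M : ℕ) : ℝ :=
  ∑ a, ∑ b, ind {s(a, b)} G * rho G (II G M M) a b a

/-- vertex-disjoint pairs. -/
def Dis (a b c d : V) : Prop := a ≠ c ∧ a ≠ d ∧ b ≠ c ∧ b ≠ d

/-- both nodes are edges of the graph. -/
def StAdj (G : SimpleGraph V) (st : St V) : Prop := ∀ β, G.Adj (st β).1 (st β).2.1

end Vale.Agent.P046
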