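import Vale.Agent.P046.Walk

/-! # P046: the process has a harmonic function and stops -/

namespace Vale.Agent.P046

open Finset Vale.Agent.P015

/-- expectation under a `PMF` on a finite type. -/
noncomputable def ex_proc {α : Type} [Fintype α] (μ : PMF α) (f : α → ℝ) : ℝ :=
  ∑ a, (μ a).toReal * f a

lemma pure_proc {α : Type} [Fintype α] (a : α) (f : α → ℝ) : ex_proc (PMF.pure a) f = f a := by
  classical
  unfold ex_proc
  rw [Finset.sum_eq_single a]
  · simp
  · intro b _ hb
    simp [PMF.pure_apply, hb]
  · simp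

lemma bind_proc {α β : Type} [Fintype α] [Fintype β] (μ : PMF α) (g : α → PMF β) (f : β → ℝ) :
    ex_proc (μ.bind g) f = ex_proc μ fun a => ex_proc (g a) f := by
  unfold ex_proc
  simp only [Finset.mul_sum]
  rw [Finset.sum_comm]
  refine Finset.sum_congr rfl fun b _ => ?_
  rw [PMF.bind_apply, tsum_fintype, ENNReal.toReal_sum
    (fun a _ => ENNReal.mul_ne_top (μ.apply_ne_top a) ((g a).apply_ne_top b)), Finset.sum_mul]
  refine Finset.sum_congr rfl fun a _ => ?_
  rw [ENNReal.toReal_mul, mul_assoc]

lemma map_proc {α β : Type} [Fintype α] [Fintype β] (μ : PMF α) (g : α → β) (f : β → ℝ) :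
    ex_proc (μ.map g) f = ex_proc μ fun a => f (g a) := by
  rw [PMF.map, bind_proc]
  simp only [Function.comp_apply, pure_proc]

lemma unif_proc {α : Type} [Fintype α] (s : Finset α) (h : s.Nonempty) (f : α → ℝ) :
    ex_proc (PMF.uniformOfFinset s h) f = (∑ a ∈ s, f a) / s.card := by
  classical
  unfold ex_proc
  rw [← Finset.sum_subset (Finset.subset_univ s), Finset.sum_div]
  · refine Finset.sum_congr rfl fun a ha => ?_
    rw [PMF.uniformOfFinset_apply_of_mem h ha, ENNReal.toReal_inv, ENNReal.toReal_natCast,
      div_eq_inv_mul]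
  · intro a _ ha
    rw [PMF.uniformOfFinset_apply_of_notMem h ha, ENNReal.toReal_zero, zero_mul]

variable {n : ℕ}

open Classical in
/-- the transition operator. -/
noncomputable def P_proc (f : SimpleGraph (Fin n) → ℝ) (G : SimpleGraph (Fin n)) : ℝ :=
  ex_proc (step G) f

open Classical in
lemma clique_proc (G : SimpleGraph (Fin n)) : G.cliqueFinset 3 = tris G := by
  ext T
  rw [SimpleGraph.mem_cliqueFinset_iff, mem_tris]

lemma step_empty_proc {G : SimpleGraph (Fin n)} (h : tris G = ∅) : step G = PMF.pure G := by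
  unfold step
  rw [dif_neg]
  rw [clique_proc, h]
  exact Finset.not_nonempty_empty

lemma step_ne_proc {G : SimpleGraph (Fin n)} (h : (tris G).Nonempty) :
    step G = (PMF.uniformOfFinset (tris G) h).map (rem G) := by
  unfold step
  rw [dif_pos (by rw [clique_proc]; exact h)]
  simp only [clique_proc]

lemma P_empty_proc (f : SimpleGraph (Fin n) → ℝ) {G : SimpleGraph (Fin n)} (h : tris G = ∅) :
    P_proc f G = f G := by
  rw [P_proc, step_empty_proc h, pure_proc]

lemma P_ne_proc (f : SimpleGraph (Fin n) → ℝ) {G : SimpleGraph (Fin n)} (h : (tris G).Nonempty) :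
    P_proc f G = (∑ T ∈ tris G, f (rem G T)) / (tris G).card := by
  rw [P_proc, step_ne_proc h, map_proc, unif_proc]

open Classical in
lemma law_proc (k : ℕ) : ∀ f : SimpleGraph (Fin n) → ℝ, ex_proc (law n k) f = P_proc^[k] f ⊤ := by
  induction k with
  | zero => intro f; exact pure_proc _ _
  | succ k ih =>
    intro f
    rw [law, bind_proc, Function.iterate_succ_apply]
    exact ih (P_proc f)

lemma edges_lt_proc {G : SimpleGraph (Fin n)} {T : Finset (Fin n)} (h : T ∈ tris G) :
    (rem G T).edgeSet.ncard < G.edgeSet.ncard := by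
  obtain ⟨a, b, c, hab, -, -, rfl⟩ := SimpleGraph.is3Clique_iff.mp (mem_tris.mp h)
  refine Set.ncard_lt_ncard ⟨SimpleGraph.edgeSet_mono (rem_le G _), fun h' => ?_⟩
  have : (rem G {a, b, c}).Adj a b := h' (show s(a, b) ∈ G.edgeSet from hab)
  exact this.2 ⟨by simp, by simp⟩

lemma iter_empty_proc (f : SimpleGraph (Fin n) → ℝ) {G : SimpleGraph (Fin n)} (h : tris G = ∅)
    (k : ℕ) : P_proc^[k] f G = f G := by
  induction k with
  | zero => rfl
  | succ k ih => rw [Function.iterate_succ_apply', P_empty_proc _ h, ih]

lemma stab_proc (f : SimpleGraph (Fin n) → ℝ) (k : ℕ) : ∀ G : SimpleGraph (Fin n),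
    G.edgeSet.ncard ≤ k → P_proc^[k + 1] f G = P_proc^[k] f G := by
  induction k with
  | zero =>
    intro G hG
    rcases (tris G).eq_empty_or_nonempty with h | ⟨T, hT⟩
    · rw [iter_empty_proc f h, iter_empty_proc f h]
    · have := edges_lt_proc hT
      omega
  | succ k ih =>
    intro G hG
    rcases (tris G).eq_empty_or_nonempty with h | h
    · rw [iter_empty_proc f h, iter_empty_proc f h]
    · rw [Function.iterate_succ_apply' P_proc (k + 1), P_ne_proc _ h,
        Finset.sum_congr rfl fun T hT => ih (rem G T) (by have := edges_lt_proc hT; omega),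
        ← P_ne_proc _ h, ← Function.iterate_succ_apply' P_proc k]

lemma edges_le_proc (G : SimpleGraph (Fin n)) : G.edgeSet.ncard ≤ n.choose 2 := by
  classical
  have := G.card_edgeFinset_le_card_choose_two
  rwa [Fintype.card_fin, ← Set.ncard_coe_finset, SimpleGraph.coe_edgeFinset] at this

lemma supp_proc (k : ℕ) : ∀ G ∈ (law n k).support,
    tris G = ∅ ∨ G.edgeSet.ncard + k ≤ n.choose 2 := by
  induction k with
  | zero => exact fun G _ => Or.inr (edges_le_proc G)
  | succ k ih =>
    intro G hG
    rw [law, PMF.mem_support_bind_iff] at hG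
    obtain ⟨G', h1, h2⟩ := hG
    rcases (tris G').eq_empty_or_nonempty with h | h
    · rw [step_empty_proc h, PMF.mem_support_pure_iff] at h2
      exact Or.inl (h2 ▸ h)
    · rw [step_ne_proc h, PMF.mem_support_map_iff] at h2
      obtain ⟨T, hT, rfl⟩ := h2
      rw [PMF.mem_support_uniformOfFinset_iff] at hT
      have := edges_lt_proc hT
      have h3 := (ih G' h1).resolve_left h.ne_empty
      exact Or.inr (by omega)

theorem proc_ok : ProcS := by
  intro n
  refine ⟨fun f => ⟨P_proc^[n.choose 2] f, ⟨fun G => ?_, fun G h => iter_empty_proc f h _⟩,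
    (law_proc (n.choose 2) f).symm⟩, fun G hG => ?_⟩
  · rcases (tris G).eq_empty_or_nonempty with h | h
    · rw [h, Finset.sum_empty]
    · have h1 := stab_proc f _ G (edges_le_proc G)
      have h2 : ((tris G).card : ℝ) ≠ 0 := by exact_mod_cast h.card_pos.ne'
      rw [Function.iterate_succ_apply', P_ne_proc _ h, div_eq_iff h2] at h1
      rw [Finset.sum_sub_distrib, h1, Finset.sum_const, nsmul_eq_mul, mul_comm, sub_self]
  · have h : tris G = ∅ := by
      rcases supp_proc _ G hG with h | h
      · exact h
      · refine Finset.eq_empty_of_forall_notMem fun T hT => ?_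
        have := edges_lt_proc hT
        omega
    intro T hT
    have := mem_tris.mpr hT
    rw [h] at this
    exact Finset.notMem_empty T this

end Vale.Agent.P046
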