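import Vale.Agent.P046.Walk

/-! # P046: queried labels determine survival; lifting to the cover -/

set_option linter.unusedSectionVars false

namespace Vale.Agent.P046

open Finset Vale.Agent.P015

variable {V : Type} [Fintype V] [DecidableEq V]

lemma len_quer (G : SimpleGraph V) : ∀ (h : ℕ) (st : St V) (cap : ℕ) (ω : Lab V)
    (l : List (Bool × V)), quer G h st cap ω l → l.length ≤ h ∧ okP G st l
  | _, _, _, _, [], _ => ⟨Nat.zero_le _, trivial⟩
  | 0, _, _, _, _ :: _, hq => by simp [quer] at hq
  | h + 1, st, cap, ω, x :: l, hq => by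
    rw [quer] at hq
    obtain ⟨hx, hl | hl⟩ := hq
    · subst hl
      exact ⟨by simp, hx, trivial⟩
    · have := len_quer G h _ _ _ l hl.2.2.2
      exact ⟨by simpa using this.1, hx, this.2⟩

lemma nil_quer (G : SimpleGraph V) (h : ℕ) (st : St V) (cap : ℕ) (ω : Lab V) :
    quer G h st cap ω [] := by
  cases h <;> simp [quer]

lemma alive_mono_quer (G : SimpleGraph V) (h : ℕ) (st : St V) (β : Bool) (ω : Lab V) {s t : ℕ}
    (hts : t ≤ s) (ha : alive G h st β ω s) : alive G h st β ω t := by
  cases h with
  | zero => trivial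
  | succ h =>
    rw [alive] at ha ⊢
    intro v hv hc
    exact ha v hv ⟨lt_of_lt_of_le hc.1 hts, hc.2⟩

lemma both_iff_quer (G : SimpleGraph V) (h : ℕ) (st : St V) (ω : Lab V) (s : ℕ) :
    (alive G (h + 1) st false ω s ∧ alive G (h + 1) st true ω s) ↔
      ∀ x, ok G st x → ¬(ω [x] < s ∧ alive G h (nxt st x) false (sub ω x) (ω [x]) ∧
        alive G h (nxt st x) true (sub ω x) (ω [x])) := by
  rw [alive, alive]
  constructor
  · rintro ⟨h0, h1⟩ ⟨β, v⟩
    cases β
    · exact h0 v
    · exact h1 v
  · intro H
    exact ⟨fun v => H _, fun v => H _⟩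

lemma inner_quer (G : SimpleGraph V) : ∀ (h : ℕ) (st : St V) (cap : ℕ) (w w' : Lab V),
    (∀ l, l ≠ [] → quer G h st cap w l → w' l = w l) →
    (∀ s ≤ cap, (alive G h st false w' s ∧ alive G h st true w' s) ↔
      (alive G h st false w s ∧ alive G h st true w s)) ∧
    ∀ l, quer G h st cap w' l ↔ quer G h st cap w l := by
  intro h
  induction h with
  | zero =>
    intro st cap w w' _
    refine ⟨fun s _ => by simp [alive], fun l => ?_⟩
    cases l <;> simp [quer]
  | succ h ih =>
    intro st cap w w' hw
    have h1 : ∀ x, ok G st x → w' [x] = w [x] := fun x hx =>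
      hw [x] (by simp) (by rw [quer]; exact ⟨hx, Or.inl rfl⟩)
    have h2 : ∀ x, ok G st x → w [x] < cap →
        (alive G (h + 1) st false w (w [x]) ∧ alive G (h + 1) st true w (w [x])) →
        ((alive G h (nxt st x) false (sub w' x) (w [x]) ∧
            alive G h (nxt st x) true (sub w' x) (w [x])) ↔
          (alive G h (nxt st x) false (sub w x) (w [x]) ∧
            alive G h (nxt st x) true (sub w x) (w [x]))) ∧
        ∀ l, quer G h (nxt st x) (w [x]) (sub w' x) l ↔
          quer G h (nxt st x) (w [x]) (sub w x) l := by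
      intro x hx hc hb
      have := ih (nxt st x) (w [x]) (sub w x) (sub w' x) fun l _ hq =>
        hw (x :: l) (by simp) (by rw [quer]; exact ⟨hx, Or.inr ⟨hc, hb.1, hb.2, hq⟩⟩)
      exact ⟨this.1 _ le_rfl, this.2⟩
    have h3 : ∀ s ≤ cap, (alive G (h + 1) st false w' s ∧ alive G (h + 1) st true w' s) ↔
        (alive G (h + 1) st false w s ∧ alive G (h + 1) st true w s) := by
      intro s
      induction s using Nat.strong_induction_on with
      | _ s ihs =>
        intro hs
        constructor
        · intro hb
          rw [both_iff_quer]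
          rintro x hx ⟨hlt, hacc⟩
          have hb' : alive G (h + 1) st false w' (w [x]) ∧ alive G (h + 1) st true w' (w [x]) :=
            ⟨alive_mono_quer G _ _ _ _ hlt.le hb.1, alive_mono_quer G _ _ _ _ hlt.le hb.2⟩
          have hb2 := (ihs _ hlt (hlt.le.trans hs)).1 hb'
          have hacc' := (h2 x hx (hlt.trans_le hs) hb2).1.2 hacc
          refine (both_iff_quer G h st w' s).1 hb x hx ?_
          rw [h1 x hx]
          exact ⟨hlt, hacc'⟩
        · intro hb
          rw [both_iff_quer]
          rintro x hx hc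
          rw [h1 x hx] at hc
          obtain ⟨hlt, hacc⟩ := hc
          have hb2 : alive G (h + 1) st false w (w [x]) ∧ alive G (h + 1) st true w (w [x]) :=
            ⟨alive_mono_quer G _ _ _ _ hlt.le hb.1, alive_mono_quer G _ _ _ _ hlt.le hb.2⟩
          have hacc' := (h2 x hx (hlt.trans_le hs) hb2).1.1 hacc
          exact (both_iff_quer G h st w s).1 hb x hx ⟨hlt, hacc'⟩
    refine ⟨h3, fun l => ?_⟩
    cases l with
    | nil => simp [nil_quer]
    | cons x l =>
      rw [quer, quer]
      refine and_congr_right fun hx => or_congr_right ?_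
      rw [h1 x hx]
      refine and_congr_right fun hc => ?_
      rw [← and_assoc, ← and_assoc, h3 _ hc.le]
      exact and_congr_right fun hb => (h2 x hx hc hb).2 l

lemma tri_cons_quer (st : St V) (x : Bool × V) {l : List (Bool × V)} (hl : l ≠ []) :
    tri st (x :: l) = tri (nxt st x) l := by
  cases l with
  | nil => exact absurd rfl hl
  | cons y l => rw [tri]

lemma lift_quer (G : SimpleGraph V) (σ : Finset V → ℕ) : ∀ (h : ℕ) (st : St V) (ω : Lab V)
    (β : Bool) (s : ℕ), (∀ l, l ≠ [] → l.length ≤ h → ω l = σ (tri st l)) →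
    ((st β).2.2 ∈ nb G (st β).1 (st β).2.1 → s ≤ σ {(st β).1, (st β).2.1, (st β).2.2}) →
    (alive G h st β ω s ↔ aliveF G σ h (st β).1 (st β).2.1 s) := by
  intro h
  induction h with
  | zero => intro st ω β s _ _; simp [alive, aliveF]
  | succ h ih =>
    intro st ω β s hω hs
    rw [alive, aliveF]
    have key : ∀ v, (ω [(β, v)] < s ∧
        alive G h (nxt st (β, v)) false (sub ω (β, v)) (ω [(β, v)]) ∧
        alive G h (nxt st (β, v)) true (sub ω (β, v)) (ω [(β, v)])) ↔
        (σ {(st β).1, (st β).2.1, v} < s ∧
          aliveF G σ h (st β).1 v (σ {(st β).1, (st β).2.1, v}) ∧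
          aliveF G σ h (st β).2.1 v (σ {(st β).1, (st β).2.1, v})) := by
      intro v
      have e1 : ω [(β, v)] = σ {(st β).1, (st β).2.1, v} := by
        rw [hω _ (by simp) (by simp), tri]
      have e2 : ∀ l, l ≠ [] → l.length ≤ h →
          sub ω (β, v) l = σ (tri (nxt st (β, v)) l) := by
        intro l hl hlen
        rw [← tri_cons_quer st _ hl, ← hω _ (by simp) (by simpa using hlen)]
        rfl
      have e3 : ({(st β).1, v, (st β).2.1} : Finset V) = {(st β).1, (st β).2.1, v} := by
        rw [Finset.pair_comm]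
      have e4 : ({(st β).2.1, v, (st β).1} : Finset V) = {(st β).1, (st β).2.1, v} := by
        ext y; simp only [Finset.mem_insert, Finset.mem_singleton]; tauto
      have i0 := ih (nxt st (β, v)) (sub ω (β, v)) false (σ {(st β).1, (st β).2.1, v}) e2
        (fun _ => le_of_eq (congrArg σ e3.symm))
      have i1 := ih (nxt st (β, v)) (sub ω (β, v)) true (σ {(st β).1, (st β).2.1, v}) e2
        (fun _ => le_of_eq (congrArg σ e4.symm))
      rw [e1, i0, i1]
      rfl
    constructor
    · intro H v hv hc
      by_cases hvw : v = (st β).2.2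
      · subst hvw
        exact absurd hc.1 (not_lt.2 (hs hv))
      · exact H v ⟨hv, hvw⟩ ((key v).2 hc)
    · intro H v hv hc
      exact H v hv.1 ((key v).1 hc)

theorem quer_ok : QuerS := by
  intro V _ _ G h st
  refine ⟨fun ω l hq => ?_, fun ω ω' hw => ?_, fun σ ω β s => lift_quer G σ h st ω β s⟩
  · match h, l, hq with
    | 0, [], hq => simp [querT] at hq
    | _ + 1, [], hq => simp [querT] at hq
    | 0, _ :: _, hq => simp [querT] at hq
    | h + 1, x :: l, hq =>
      rw [querT] at hq
      have := len_quer G h _ _ _ l hq.2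
      exact ⟨by simp, by simpa using this.1, hq.1, this.2⟩
  · cases h with
    | zero =>
      refine ⟨fun l => ?_, fun β s => by simp [alive]⟩
      cases l <;> simp [querT]
    | succ h =>
      have h1 : ∀ x, ok G st x → ω' [x] = ω [x] := fun x hx =>
        hw [x] (by rw [querT]; exact ⟨hx, nil_quer G _ _ _ _⟩)
      have h2 := fun x (hx : ok G st x) =>
        inner_quer G h (nxt st x) (ω [x]) (sub ω x) (sub ω' x) fun l _ hq =>
          hw (x :: l) (by rw [querT]; exact ⟨hx, hq⟩)
      refine ⟨fun l => ?_, fun β s => ?_⟩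
      · cases l with
        | nil => simp [querT]
        | cons x l =>
          rw [querT, querT]
          refine and_congr_right fun hx => ?_
          rw [h1 x hx]
          exact (h2 x hx).2 l
      · rw [alive, alive]
        refine forall_congr' fun v => imp_congr_right fun hx => ?_
        rw [h1 _ hx, (h2 _ hx).1 _ le_rfl]

end Vale.Agent.P046
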