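import Vale.Agent.P046.Basic

/-! # P046: the statements of the steps of the proof (plans: notes/P046.md) -/

namespace Vale.Agent.P046

open Finset Vale.Agent.P015

/-! ### the process -/

def ProcS : Prop := ∀ n : ℕ,
  (∀ f : SimpleGraph (Fin n) → ℝ, ∃ h, Harm f h ∧ h ⊤ = expFinal n f) ∧
  ∀ G ∈ (final n).support, G.CliqueFree 3

def HarmBdS : Prop := ∀ (V : Type) [Fintype V] [DecidableEq V] (f h : SimpleGraph V → ℝ) (B : ℝ),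
  Harm f h → (∀ G, f G ≤ B) → ∀ G, h G ≤ B

def RankS : Prop := ∀ (V : Type) [Fintype V] [DecidableEq V] (f h : SimpleGraph V → ℝ) (B : ℝ)
  (M : ℕ) (G : SimpleGraph V), Harm f h → (∀ G, 0 ≤ f G ∧ f G ≤ B) → 0 < M →
  h G ≤ ((rlaw V M).E fun ω => f (finG G M ω)) + B * (Fintype.card V : ℝ) ^ 6 / M

/-! ### first phase -/

def RateS : Prop := ∀ (V : Type) [Fintype V] [DecidableEq V] (G : SimpleGraph V)
  (H : Finset (Sym2 V)), (triples V).Nonempty → (∀ e ∈ H, e ∈ G.edgeSet) →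
  1 - (∑ e ∈ H, codS G e) / (triples V).card
      ≤ ((FP.unif (triples V)).E fun T => ind H (lz G T)) ∧
  ((FP.unif (triples V)).E fun T => ind H (lz G T))
      ≤ 1 - (∑ e ∈ H, codS G e - (H.card : ℝ) ^ 2) / (triples V).card

def DriftS (C : ℝ) : Prop := ∀ (V : Type) [Fintype V] [DecidableEq V] (G : SimpleGraph V)
  (D δ a : ℝ) (j : ℕ) (e : V × V) (π : List Bool), StepHyp G D δ a j e π →
  |(FP.unif (triples V)).E (dz G D a e π) + a * (zz G D e (false :: π) + zz G D e (true :: π))|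
    ≤ a * (C * (j * δ ^ 2 + j ^ 3 / D))

def QVS (C : ℝ) : Prop := ∀ (V : Type) [Fintype V] [DecidableEq V] (G : SimpleGraph V)
  (D δ a : ℝ) (j : ℕ) (e : V × V) (π : List Bool), StepHyp G D δ a j e π →
  (∀ T ∈ triples V, |dz G D a e π T| ≤ C / D) ∧
  ((FP.unif (triples V)).E fun T => dz G D a e π T ^ 2) ≤ a * (C / D) ∧
  (Free π → ((FP.unif (triples V)).E fun T => dz G D a e π T ^ 2)
    ≤ a * (C * (j ^ 2 * δ ^ 2 / D + j / D ^ 2)))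

def PowS : Prop := ∀ k : ℕ, 1 ≤ k → ∃ c C : ℝ, 0 < c ∧ 0 ≤ C ∧
  ∀ (α : Type) (μ : FP α) (d : α → ℝ) (z z0 z1 b b0 b1 b' a ϖ : ℝ),
  0 < b → 0 < b0 → b0 ≤ 2 * b → 0 < b1 → b1 ≤ 2 * b → 0 ≤ a → a ≤ c → 0 ≤ ϖ → ϖ ≤ c →
  b + a * (b0 + b1 + 4 * b / k) ≤ b' →
  |μ.E d + a * (z0 + z1)| ≤ a * (ϖ ^ 2 * b) → (μ.E fun t => d t ^ 2) ≤ a * (ϖ ^ 2 * b ^ 2) →
  (μ.Ae fun t => |d t| ≤ ϖ * b) →
  (μ.E fun t => ((z + d t) / b') ^ (2 * k))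
    ≤ (1 - 2 * a) * (z / b) ^ (2 * k) + 2 * a * ((z0 / b0) ^ (2 * k) + (z1 / b1) ^ (2 * k))
      + a * C * ϖ ^ k

def BarS : Prop := ∀ C0 : ℝ, ∃ C : ℝ, ∀ (ν n D a : ℝ) (j : ℕ) (π : List Bool), C ≤ ν →
  ν ^ 4000 = n → ν ^ 100 ≤ D → D ≤ n - 2 → 0 ≤ a → a ≤ 1 / ν → n ^ 5 ≤ 2 ^ j → (j : ℝ) ≤ ν →
  0 < bar ν n D j π ∧
  (∀ β, bar ν n D j (β :: π) ≤ 2 * bar ν n D j π) ∧
  bar ν n D j π + a * (bar ν n D j (false :: π) + bar ν n D j (true :: π)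
    + 4 * bar ν n D j π / 64000) ≤ bar ν n (D / (1 + 2 * a)) j π ∧
  bar ν n D j [] ≤ 3 * bS ν n D ∧ 0 ≤ bS ν n D ∧ 3 * bS ν n D ≤ 1 / ν ^ 46 ∧
  C0 * (j * (3 * bS ν n D) ^ 2 + j ^ 3 / D) ≤ (1 / ν) ^ 2 * bar ν n D j π ∧
  (¬ Free π → C0 / D ≤ (1 / ν) ^ 2 * bar ν n D j π ^ 2) ∧
  (Free π → C0 * (j ^ 2 * (3 * bS ν n D) ^ 2 / D + j / D ^ 2) ≤ (1 / ν) ^ 2 * bar ν n D j π ^ 2) ∧
  C0 / D ≤ 1 / ν * bar ν n D j π ∧
  (π.length = j + 1 → ν ≤ bar ν n D j π)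

def KillS : Prop := ∃ C : ℝ, ∀ (V : Type) [Fintype V] [DecidableEq V] (ν : ℝ), C ≤ ν →
  ν ^ 4000 = Fintype.card V → ∀ K : ℕ, ν ^ 100 ≤ Dk (Fintype.card V) K →
  ∃ good : ℕ → SimpleGraph V → Prop, good 0 ⊤ ∧
    (∀ k ≤ K, ∀ G, good k G → Reg G (Dk (Fintype.card V) k) (1 / ν ^ 46)) ∧
    ((klaw good K).Pr fun o => o = none) ≤ 1 / (Fintype.card V : ℝ) ^ 2

def St1S : Prop := ∃ C : ℝ, ∀ (V : Type) [Fintype V] [DecidableEq V] (ν : ℝ), C ≤ ν →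
  ν ^ 4000 = Fintype.card V → ∃ (D p : ℝ) (μ : FP (Option (SimpleGraph V))), St1 ν D p μ

/-! ### mixing -/

def LinkS : Prop := ∀ (V : Type) [Fintype V] [DecidableEq V] (q m : ℝ) (u x y : V) (L : ℕ)
  (H : Finset (Sym2 V)) (U : Finset V), 0 ≤ q → q ≤ 1 → 1 ≤ (Fintype.card V : ℝ) * q ^ 2 →
  x ≠ u → y ≠ u → u ∈ U → x ∈ U → s(u, y) ∈ H → (∀ e ∈ H, ∀ v ∈ e, v ∈ U) →
  (U.card : ℝ) + L ≤ m →
  sumL L (fun vs => if u ∈ vs then 0 else q ^ (lk u x vs y \ H).card)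
    ≤ q * (Fintype.card V * q ^ 2 + m) ^ L
      + Real.sqrt (Fintype.card V * q ^ 2) ^ (L + 1) * (1 + m) ^ (L + 1)

def MomS : Prop := ∀ (V : Type) [Fintype V] [DecidableEq V] (μ : FP (Option (SimpleGraph V)))
  (q hm B : ℝ) (L s r : ℕ) (c : List V → ℝ) (S : List V → Finset (Sym2 V)) (H : Finset (Sym2 V)),
  Dom μ q hm → 0 ≤ q → 0 ≤ B → (∀ l, 0 ≤ c l) → (∀ l, l.length = L → (S l).card ≤ s) →
  (H.card : ℝ) + r * s ≤ hm →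
  (∀ H', H ⊆ H' → H'.card ≤ H.card + r * s → sumL L (fun l => c l * q ^ (S l \ H').card) ≤ B) →
  (μ.E fun o => o.elim 0 fun G => ind H G * sumL L (fun l => c l * ind (S l) G) ^ r)
    ≤ q ^ H.card * B ^ r

def MixS : Prop := ∃ C : ℝ, ∀ (V : Type) [Fintype V] [DecidableEq V] (ν : ℝ), C ≤ ν →
  ν ^ 4000 = Fintype.card V → ∀ (q : ℝ) (μ : FP (Option (SimpleGraph V))),
  0 ≤ q → ν ^ 100 ≤ Fintype.card V * q ^ 2 → Fintype.card V * q ^ 2 ≤ 3 * ν ^ 100 →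
  Dom μ q (ν ^ 13) →
  (μ.Pr fun o => ∃ G, o = some G ∧ ¬ Mix G (Fintype.card V * q * (1 + 1 / ν ^ 10))
    (q * (Fintype.card V * q ^ 2) ^ 127 * (1 + 1 / ν ^ 10))) ≤ 1 / (Fintype.card V : ℝ) ^ 2

def GapS : Prop := ∀ (V : Type) [Fintype V] [DecidableEq V] (G : SimpleGraph V) (D δ Δ w γ : ℝ),
  Reg G D δ → 0 ≤ δ → δ < 1 → 0 < D → Mix G Δ w → 0 ≤ w → 0 ≤ γ →
  2 * (1 / (D * (1 - δ)) + max 0 (Δ * w / (D * (1 - δ)) ^ 128 - (1 - δ) / (1 + δ))) ≤ γ ^ 128 →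
  Gap G γ

/-! ### the tree recursion -/

def LinS : Prop := ∀ (E : Type) [AddCommGroup E] [Module ℝ E] (p q : Seminorm ℝ E)
  (R P N : E →ₗ[ℝ] E) (γ C1 C2 τ g Ξ : ℝ) (w : ℕ → ℝ) (ξ f : ℕ → E) (s J : ℕ),
  (∀ φ, p (R φ) ≤ p φ) → (∀ φ, q (R φ) ≤ q φ) → (∀ φ, p (P φ) ≤ p φ) → (∀ φ, q (P φ) ≤ q φ) →
  (∀ φ, P (P φ) = P φ) → (∀ φ, p (N φ) ≤ 2 * p φ) → (∀ φ, q (N φ) ≤ γ * q φ) →
  0 ≤ γ → 0 ≤ C1 → 0 ≤ C2 → (∀ φ, p φ ≤ C1 * q φ) → (∀ φ, q φ ≤ C2 * p φ) →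
  (∀ r, 0 ≤ w r ∧ w r ≤ 1) → ∑ r ∈ range s, w r ≤ τ → 0 ≤ g → ξ 0 = 0 →
  (∀ r < s, ξ (r + 1) = ξ r - w r • ((P (ξ r) + N (ξ r)) + R (P (ξ r) + N (ξ r))) + w r • f r) →
  (∀ r < s, p (f r) ≤ g) → (∀ r ≤ s, p (ξ r) ≤ Ξ) →
  ∀ r ≤ s, p (ξ r) ≤ (∑ i ∈ range J, (4 * (τ + 2 * τ ^ 2)) ^ i) * ((τ + 2 * τ ^ 2) * g)
    + C1 * C2 * (2 * γ * (τ + 2 * τ ^ 2)) ^ J * Ξ

def StabS : Prop := ∃ C : ℝ, ∀ (V : Type) [Fintype V] [DecidableEq V] (ν : ℝ), C ≤ ν →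
  ν ^ 4000 = Fintype.card V → ∀ (G : SimpleGraph V) (γ g : ℝ) (ξ : ℕ → V → V → ℝ) (w : ℕ → ℝ)
  (s : ℕ), (∀ a b, G.Adj a b → 1 ≤ cod G a b) → 0 ≤ γ → γ ^ 16 ≤ 1 / ν → Gap G γ →
  (∀ r, 0 < w r ∧ w r ≤ 1) → ∑ r ∈ range s, w r ≤ 200 * Real.log ν → 0 ≤ g → ξ 0 = 0 →
  (∀ r < s, ∀ a b, G.Adj a b →
    |ξ (r + 1) a b - ξ r a b + w r * (opS G (ξ r) a b + opS G (ξ r) b a)| ≤ w r * g) →
  ∀ a b, G.Adj a b → |ξ s a b| ≤ ν * g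

def ResS (C : ℝ) : Prop := ∀ (V : Type) [Fintype V] [DecidableEq V] (G : SimpleGraph V)
  (D δ η ι : ℝ) (M s : ℕ), Reg G D δ → 0 ≤ δ → δ ≤ 1 / 10 → η ≤ 1 / 10 → ι ≤ 1 / 10 → 1 ≤ D →
  0 < M → D / M ≤ 1 / 10 →
  (∀ a b v, G.Adj a b → v ∈ nb G a b → 0 ≤ II G M s a b v ∧ II G M s a b v ≤ ι) →
  (∀ a b, G.Adj a b → |xi G D M s a b| ≤ η) →
  ∀ a b, G.Adj a b →
    (∀ v ∈ nb G a b, II G M s a b v ≤ II G M (s + 1) a b v ∧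
      II G M (s + 1) a b v ≤ II G M s a b v + 2 * rbar D M s ^ 2 / M) ∧
    |xi G D M (s + 1) a b - xi G D M s a b
      + D * rbar D M s ^ 2 / M * (opS G (xi G D M s) a b + opS G (xi G D M s) b a)|
      ≤ D * rbar D M s ^ 2 / M * (C * (δ + η ^ 2 + ι + D / M))

def OdeS : Prop := ∃ C : ℝ, ∀ (V : Type) [Fintype V] [DecidableEq V] (ν : ℝ), C ≤ ν →
  ν ^ 4000 = Fintype.card V → ∀ (G : SimpleGraph V) (D γ : ℝ), ν ^ 100 ≤ D → D ≤ 2 * ν ^ 100 →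
  Reg G D (1 / ν ^ 46) → 0 ≤ γ → γ ^ 16 ≤ 1 / ν → Gap G γ → Ode G ν D (Fintype.card V ^ 8)

def GoodS : Prop := ∃ C : ℝ, ∀ (V : Type) [Fintype V] [DecidableEq V] (ν : ℝ), C ≤ ν →
  ν ^ 4000 = Fintype.card V → ∀ (D p : ℝ) (μ : FP (Option (SimpleGraph V))), St1 ν D p μ →
  (μ.Pr fun o => ∃ G, o = some G ∧ ¬ Ode G ν D (Fintype.card V ^ 8))
    ≤ 1 / (Fintype.card V : ℝ) ^ 2

/-! ### the cover -/

def LawS : Prop := ∀ (V : Type) [Fintype V] [DecidableEq V] (M h : ℕ),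
  (∀ F : Bool × V → Lab V → ℝ,
    ((tlaw V M (h + 1)).E fun ω => ∏ x, F x (sub ω x)) = ∏ x, (tlaw V M h).E (F x)) ∧
  (0 < M → ∀ F : ℕ → Lab V → ℝ, (∀ r η η', (∀ l, l ≠ [] → η l = η' l) → F r η = F r η') →
    ((tlaw V M h).E fun η => F (η []) η) = (∑ r ∈ range M, (tlaw V M h).E (F r)) / M)

def AliveS : Prop := ∀ (V : Type) [Fintype V] [DecidableEq V] (G : SimpleGraph V) (M h : ℕ)
  (st : St V), 0 < M →
  (∀ s, s ≤ h → s ≤ M →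
    ((tlaw V M h).Pr fun ω => alive G h st false ω s ∧ alive G h st true ω s)
      = rho G (II G M s) (st false).1 (st false).2.1 (st false).2.2
        * rho G (II G M s) (st true).1 (st true).2.1 (st true).2.2 ∧
    ∀ β, ((tlaw V M h).Pr fun ω => alive G h st β ω s)
      = rho G (II G M s) (st β).1 (st β).2.1 (st β).2.2) ∧
  ∀ x r, r ≤ h + 1 → r ≤ M →
    ((tlaw V M h).Pr fun η => η [] < r ∧ alive G h (nxt st x) false η (η []) ∧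
      alive G h (nxt st x) true η (η [])) = II G M r (st x.1).1 (st x.1).2.1 x.2

def StopS : Prop := ∀ (A B α : Type) [Fintype A] [DecidableEq A] [Fintype B] [DecidableEq B]
  (p : FP α) (π : A → B) (Q : (A → α) → Set A) (P : (A → α) → Prop),
  (∀ ω ω', (∀ x ∈ Q ω, ω' x = ω x) → Q ω' = Q ω ∧ (P ω' ↔ P ω)) →
  |(FP.iid A p).Pr P - (FP.iid B p).Pr (fun σ => P (σ ∘ π))|
    ≤ (FP.iid A p).Pr fun ω => ¬ Set.InjOn π (Q ω)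

def QuerS : Prop := ∀ (V : Type) [Fintype V] [DecidableEq V] (G : SimpleGraph V) (h : ℕ)
  (st : St V),
  (∀ (ω : Lab V) l, querT G h st ω l → l ≠ [] ∧ l.length ≤ h ∧ okP G st l) ∧
  (∀ ω ω' : Lab V, (∀ l, querT G h st ω l → ω' l = ω l) →
    (∀ l, querT G h st ω' l ↔ querT G h st ω l) ∧
    ∀ β s, alive G h st β ω' s ↔ alive G h st β ω s) ∧
  ∀ (σ : Finset V → ℕ) (ω : Lab V) (β : Bool) (s : ℕ),
    (∀ l, l ≠ [] → l.length ≤ h → ω l = σ (tri st l)) →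
    ((st β).2.2 ∈ nb G (st β).1 (st β).2.1 → s ≤ σ {(st β).1, (st β).2.1, (st β).2.2}) →
    (alive G h st β ω s ↔ aliveF G σ h (st β).1 (st β).2.1 s)

def CoupleS : Prop := ∀ (V : Type) [Fintype V] [DecidableEq V] (G : SimpleGraph V) (M : ℕ)
  (a b c d : V), 0 < M →
  |((rlaw V M).Pr fun ω => aliveF G ω M a b M ∧ aliveF G ω M c d M)
      - rho G (II G M M) a b a * rho G (II G M M) c d c| ≤ confP G M (st0 a b c d) ∧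
  |((rlaw V M).Pr fun ω => aliveF G ω M a b M) - rho G (II G M M) a b a|
      ≤ confP G M (st0 a b c d) ∧
  |((rlaw V M).Pr fun ω => aliveF G ω M c d M) - rho G (II G M M) c d c|
      ≤ confP G M (st0 a b c d) ∧
  0 ≤ rho G (II G M M) a b a ∧ rho G (II G M M) a b a ≤ 1

def WeightS : Prop := ∀ (V : Type) [Fintype V] [DecidableEq V] (G : SimpleGraph V) (M : ℕ)
  (u : ℕ → ℝ) (st : St V) (c b1 b2 : List (Bool × V)), 0 < M → UB G M u → StAdj G st →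
  b2 ≠ [] → b1.head? ≠ b2.head? →
  ((tlaw V M M).Pr fun ω => querT G M st ω (c ++ b1) ∧ querT G M st ω (c ++ b2))
    ≤ wt (kap u M M) (c.length - 1) * wt (kap u M M) (b1.length - 2)
      * wt (kap u M M) (b2.length - 2)

def BadS : Prop := ∀ (V : Type) [Fintype V] [DecidableEq V] (G : SimpleGraph V) (a b c d : V)
  (l b1 b2 : List (Bool × V)), G.Adj a b → G.Adj c d → Dis a b c d →
  okP G (st0 a b c d) (l ++ b1) → okP G (st0 a b c d) (l ++ b2) → l ++ b1 ≠ [] → b2 ≠ [] →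
  b1.head? ≠ b2.head? → tri (st0 a b c d) (l ++ b1) = tri (st0 a b c d) (l ++ b2) →
  pvalid G ppar pnx (st0 a b c d, st0 a b c d, l.length, b1.length) (l ++ b1 ++ b2) ∧
  pbad ppar pnx (st0 a b c d, st0 a b c d, l.length, b1.length) {a, b, c, d}
    {s(a, b), s(c, d)} (l ++ b1 ++ b2)

def UnionS : Prop := ∀ (V : Type) [Fintype V] [DecidableEq V] (G : SimpleGraph V) (M : ℕ)
  (u : ℕ → ℝ) (a b c d : V), 0 < M → UB G M u → G.Adj a b → G.Adj c d → Dis a b c d →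
  confP G M (st0 a b c d) ≤ conf G M (kap u M M) a b c d

open Classical in
def TwoTreeS : Prop := ∀ (V : Type) [Fintype V] [DecidableEq V] (B : ℝ),
  (∀ (G : SimpleGraph V) (σ : PS V) (L : ℕ), (∀ a b, G.Adj a b → cod G a b ≤ B) →
    StAdj G σ.1 → StAdj G σ.2.1 →
    sumL L (fun l => if pvalid G ppar pnx σ l then 1 else 0) ≤ (2 * B) ^ L) ∧
  ∀ (μ : FP (Option (SimpleGraph V))) (q hm : ℝ) (σ : PS V) (U : Finset V)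
    (H : Finset (Sym2 V)) (L : ℕ), Dom μ q hm → 0 ≤ q → Fintype.card V * q ^ 2 ≤ B →
    (μ.Ae fun o => ∀ G, o = some G → ∀ a b, G.Adj a b → cod G a b ≤ B) →
    (∀ β, s((σ.1 β).1, (σ.1 β).2.1) ∈ H ∧ s((σ.2.1 β).1, (σ.2.1 β).2.1) ∈ H) →
    (∀ e ∈ H, ∀ v ∈ e, v ∈ U) → (H.card : ℝ) + 2 * L ≤ hm →
    (μ.E fun o => o.elim 0 fun G => ind H G *
      sumL L (fun l => if pvalid G ppar pnx σ l ∧ pbad ppar pnx σ U H l then 1 else 0))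
      ≤ 2 * L * (U.card + L) * q ^ (H.card + 1) * (2 * B) ^ (L - 1)

def ConfS : Prop := ∃ C : ℝ, ∀ (V : Type) [Fintype V] [DecidableEq V] (ν : ℝ), C ≤ ν →
  ν ^ 4000 = Fintype.card V → ∀ (D p : ℝ) (μ : FP (Option (SimpleGraph V))), St1 ν D p μ →
  ∀ a b c d : V, Dis a b c d →
  (μ.E fun o => o.elim 0 fun G => ind {s(a, b), s(c, d)} G * conf G (Fintype.card V ^ 8)
    (kap (fun s => 11 / 10 * rbar D (Fintype.card V ^ 8) s) (Fintype.card V ^ 8)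
      (Fintype.card V ^ 8)) a b c d) ≤ p ^ 2 / ν ^ 200

/-! ### assembly -/

open Classical in
def VarS : Prop := ∀ (V : Type) [Fintype V] [DecidableEq V] (G : SimpleGraph V) (M : ℕ)
  (u : ℕ → ℝ), 0 < M → UB G M u →
  ((rlaw V M).E fun ω => (mE (finG G M ω) - yE G M) ^ 2)
    ≤ ∑ a, ∑ b, ∑ c, ∑ d, ind {s(a, b), s(c, d)} G *
      if Dis a b c d then 3 * conf G M (kap u M M) a b c d else 1

open Classical in
def EdgeS : Prop := ∃ C : ℝ, ∀ (V : Type) [Fintype V] [DecidableEq V] (ν : ℝ), C ≤ ν →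
  ν ^ 4000 = Fintype.card V → ∀ (D p : ℝ) (μ : FP (Option (SimpleGraph V))), St1 ν D p μ →
  (μ.E fun o => o.elim 0 fun G => (mE G / Real.sqrt (1 + 2 * D)
      - (Fintype.card V : ℝ) ^ ((3 : ℝ) / 2) / Real.sqrt 2) ^ 2)
    ≤ (Fintype.card V : ℝ) ^ 3 / ν ^ 2 ∧
  (μ.E fun o => o.elim 0 fun G => ∑ a, ∑ b, ∑ c, ∑ d,
      if Dis a b c d then 0 else ind {s(a, b), s(c, d)} G) ≤ (Fintype.card V : ℝ) ^ 3 / ν ^ 2

/-- squared deviation of the number of edges. -/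
noncomputable def dev {V : Type} [Fintype V] (G : SimpleGraph V) : ℝ :=
  ((G.edgeSet.ncard : ℝ) - (Fintype.card V : ℝ) ^ ((3 : ℝ) / 2) / (2 * Real.sqrt 2)) ^ 2

def MainS : Prop := ∃ C : ℝ, ∀ (V : Type) [Fintype V] [DecidableEq V] (ν : ℝ), C ≤ ν →
  ν ^ 4000 = Fintype.card V → ∀ h : SimpleGraph V → ℝ, Harm dev h →
  h ⊤ ≤ (Fintype.card V : ℝ) ^ 3 / ν

end Vale.Agent.P046
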