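import Vale.Agent.P046.Stmts

/-! # P046: counting walks -/

set_option linter.unusedSectionVars false

namespace Vale.Agent.P046

open Finset Vale.Agent.P015

variable {V : Type} [Fintype V] [DecidableEq V]

lemma node_mem_wv (e : V × V) : ∀ l : List (Bool × V),
    (node e l).1 ∈ wv e l ∧ (node e l).2 ∈ wv e l
  | [] => by simp [node, wv]
  | x :: l => by
    have := node_mem_wv e l
    refine ⟨Finset.mem_insert_of_mem ?_, Finset.mem_insert_self _ _⟩
    simp only [node, sel]; split_ifs
    · exact this.2
    · exact this.1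

lemma mem_wv_of_wedge (e : V × V) : ∀ (l : List (Bool × V)) {w : Sym2 V}, w ∈ wedges e l →
    ∀ v ∈ w, v ∈ wv e l
  | [], _, h => by simp [wedges] at h
  | x :: l, w, h => by
    intro v hv
    have h1 := node_mem_wv e l
    simp only [wedges, Finset.mem_insert] at h
    simp only [wv, Finset.mem_insert]
    rcases h with rfl | rfl | h
    · rcases Sym2.mem_iff.mp hv with rfl | rfl
      · exact Or.inr h1.1
      · exact Or.inl rfl
    · rcases Sym2.mem_iff.mp hv with rfl | rfl
      · exact Or.inr h1.2
      · exact Or.inl rfl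
    · exact Or.inr (mem_wv_of_wedge e l h v hv)

lemma card_wv (e : V × V) : ∀ l : List (Bool × V), (wv e l).card ≤ l.length + 2
  | [] => Finset.card_le_two
  | x :: l => (Finset.card_insert_le _ _).trans (by have := card_wv e l; simp; omega)

lemma card_wedges (e : V × V) : ∀ l : List (Bool × V), (wedges e l).card ≤ 2 * l.length
  | [] => by simp [wedges]
  | x :: l => by
    have h := card_wedges e l
    have h1 := Finset.card_insert_le s((node e l).1, x.2) (insert s((node e l).2, x.2) (wedges e l))
    have h2 := Finset.card_insert_le s((node e l).2, x.2) (wedges e l)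
    simp only [wedges, List.length_cons]; omega

/-- a vertex outside the walk gives new edges. -/
lemma not_mem_wedges {e : V × V} {l : List (Bool × V)} {v : V} (hv : v ∉ wv e l) (x : V) :
    s(x, v) ∉ wedges e l := fun h => hv (mem_wv_of_wedge e l h v (by simp))

lemma node_ne {e : V × V} (he : e.1 ≠ e.2) : ∀ {l : List (Bool × V)}, ¬ hit (wv e) l →
    (node e l).1 ≠ (node e l).2
  | [], _ => he
  | x :: l, h => by
    have h1 := node_mem_wv e l
    intro h2
    refine h (Or.inl ?_)
    have h3 : sel x.1 (node e l) = x.2 := h2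
    rw [← h3]; unfold sel; split_ifs
    · exact h1.2
    · exact h1.1

/-- non-degenerate walks have exactly two edges per step. -/
lemma card_wedges_eq {e : V × V} (he : e.1 ≠ e.2) : ∀ {l : List (Bool × V)}, ¬ hit (wv e) l →
    (wedges e l).card = 2 * l.length
  | [], _ => by simp [wedges]
  | x :: l, h => by
    have h1 : x.2 ∉ wv e l := fun h' => h (Or.inl h')
    have h2 : ¬ hit (wv e) l := fun h' => h (Or.inr h')
    have h3 := node_ne he h2
    have h4 := node_mem_wv e l
    rw [wedges, Finset.card_insert_of_notMem, Finset.card_insert_of_notMem (not_mem_wedges h1 _),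
      card_wedges_eq he h2, List.length_cons]
    · ring
    · rw [Finset.mem_insert, not_or]
      refine ⟨fun h5 => ?_, not_mem_wedges h1 _⟩
      rcases Sym2.eq_iff.mp h5 with h6 | h6
      · exact h3 h6.1
      · exact h1 (h6.1 ▸ h4.1)

lemma node_adj {G : SimpleGraph V} {e : V × V} (he : G.Adj e.1 e.2) :
    ∀ {l : List (Bool × V)}, (∀ w ∈ wedges e l, w ∈ G.edgeSet) →
    G.Adj (node e l).1 (node e l).2
  | [], _ => he
  | x :: l, h => by
    simp only [node, sel]; split_ifs
    · exact h s((node e l).2, x.2) (by simp [wedges])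
    · exact h s((node e l).1, x.2) (by simp [wedges])

lemma cod_mul_ind_le {G : SimpleGraph V} {D' : ℝ} (hD : ∀ a b, G.Adj a b → cod G a b ≤ D')
    {e : V × V} (he : G.Adj e.1 e.2) (l : List (Bool × V)) :
    cod G (node e l).1 (node e l).2 * ind (wedges e l) G ≤ D' * ind (wedges e l) G := by
  rcases ind_cases (wedges e l) G with h | h
  · exact mul_le_mul_of_nonneg_right (hD _ _ (node_adj he h.2)) (ind_nonneg _ _)
  · rw [h.1]; simp

/-- number of walks with a given pattern. -/
lemma walk_count {G : SimpleGraph V} {D' : ℝ} (hD : ∀ a b, G.Adj a b → cod G a b ≤ D')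
    {e : V × V} (he : G.Adj e.1 e.2) : ∀ π : List Bool,
    sumW π (fun l => ind (wedges e l) G) ≤ D' ^ π.length
  | [] => by simp [sumW, wedges]
  | β :: π => by
    have h0 : 0 ≤ D' := (cod_nonneg _ _ _).trans (hD _ _ he)
    simp only [sumW, wedges, sum_ind_two]
    refine (sumW_mono π fun l _ => cod_mul_ind_le hD he l).trans ?_
    rw [sumW_mul_left, List.length_cons, pow_succ']
    exact mul_le_mul_of_nonneg_left (walk_count hD he π) h0

open Classical in
/-- number of walks with a step into a small set. -/
lemma hit_count {G : SimpleGraph V} {D' : ℝ} (hD : ∀ a b, G.Adj a b → cod G a b ≤ D')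
    {e : V × V} (he : G.Adj e.1 e.2) (Z : List (Bool × V) → Finset V) {z : ℝ} (hz0 : 0 ≤ z) :
    ∀ π : List Bool, (∀ l, l.length < π.length → ((Z l).card : ℝ) ≤ z) →
    sumW π (fun l => if hit Z l then ind (wedges e l) G else 0)
      ≤ π.length * z * D' ^ (π.length - 1)
  | [], _ => by simp [sumW, hit]
  | β :: π, hz => by
    have h0 : 0 ≤ D' := (cod_nonneg _ _ _).trans (hD _ _ he)
    have ih := hit_count hD he Z hz0 π fun l hl => hz l (by simp; omega)
    have key : ∀ l : List (Bool × V), l.map Prod.fst = π →
        (∑ v, if hit Z ((β, v) :: l) then ind (wedges e ((β, v) :: l)) G else 0)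
        ≤ z * ind (wedges e l) G + D' * if hit Z l then ind (wedges e l) G else 0 := by
      intro l hl
      have hl2 : l.length = π.length := by rw [← hl, List.length_map]
      by_cases h : hit Z l
      · have : ∀ v, hit Z ((β, v) :: l) := fun v => Or.inr h
        simp only [this, h, if_true, wedges, sum_ind_two]
        have := cod_mul_ind_le hD he l
        have := mul_nonneg hz0 (ind_nonneg (wedges e l) G)
        linarith
      · have h1 : ∀ v, (if hit Z ((β, v) :: l) then ind (wedges e ((β, v) :: l)) G else 0)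
            ≤ if v ∈ Z l then ind (wedges e l) G else 0 := by
          intro v
          by_cases hv : v ∈ Z l
          · rw [if_pos hv, if_pos (show hit Z ((β, v) :: l) from Or.inl hv)]
            exact ind_anti ((Finset.subset_insert _ _).trans (Finset.subset_insert _ _)) G
          · rw [if_neg hv, if_neg (show ¬ hit Z ((β, v) :: l) from fun h' => h'.elim hv h)]
        refine (Finset.sum_le_sum fun v _ => h1 v).trans ?_
        rw [← Finset.sum_filter, Finset.filter_mem_eq_inter, Finset.univ_inter, Finset.sum_const,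
          nsmul_eq_mul, if_neg h, mul_zero, add_zero]
        exact mul_le_mul_of_nonneg_right (hz l (by simp [hl2])) (ind_nonneg _ _)
    refine (sumW_mono π key).trans ?_
    rw [sumW_add, sumW_mul_left, sumW_mul_left, List.length_cons, Nat.add_sub_cancel]
    have h1 := mul_le_mul_of_nonneg_left (walk_count hD he π) hz0
    have h2 := mul_le_mul_of_nonneg_left ih h0
    have h3 : D' * (π.length * z * D' ^ (π.length - 1)) = π.length * z * D' ^ π.length := by
      rcases hπ : π.length with _ | k
      · simp
      · rw [Nat.add_sub_cancel, pow_succ]; ring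
    push_cast
    linarith

/-- a set containing an edge of the walk contains a step vertex. -/
lemma hit_of_wedge {e : V × V} {T : Finset V} : ∀ {l : List (Bool × V)} {w : Sym2 V},
    w ∈ wedges e l → (∀ v ∈ w, v ∈ T) → hit (fun _ => T) l
  | [], _, h, _ => by simp [wedges] at h
  | x :: l, w, h, hT => by
    simp only [wedges, Finset.mem_insert] at h
    rcases h with rfl | rfl | h
    · exact Or.inl (hT _ (by simp))
    · exact Or.inl (hT _ (by simp))
    · exact Or.inr (hit_of_wedge h hT)

/-- the current edge of a free walk consists of step vertices. -/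
lemma hit_of_free {e : V × V} {T : Finset V} : ∀ {l : List (Bool × V)},
    Free (l.map Prod.fst) → ((node e l).1 ∈ T ∨ (node e l).2 ∈ T) → hit (fun _ => T) l
  | [], h, _ => by simp [Free] at h
  | [x], h, _ => by simp [Free] at h
  | x :: y :: l, h, hT => by
    rcases hT with hT | hT
    · refine Or.inr ?_
      have h1 : sel x.1 (node e (y :: l)) ∈ T := hT
      unfold sel at h1
      split_ifs at h1 with hx
      · exact Or.inl h1
      · refine hit_of_free (e := e) ?_ (Or.inl h1)
        simp only [Free, List.map_cons, List.dropLast_cons₂, List.mem_cons] at h ⊢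
        exact h.resolve_left fun h' => hx h'.symm
    · exact Or.inl hT

lemma pow_one_add_le {δ : ℝ} {i j : ℕ} (h0 : 0 ≤ δ) (hi : i ≤ j + 2) (h : (j + 2) * δ ≤ 1 / 2) :
    (1 + δ) ^ i ≤ 2 := by
  have h1 : (i : ℝ) ≤ j + 2 := by exact_mod_cast hi
  have h2 : (i : ℝ) * δ ≤ 1 / 2 := (mul_le_mul_of_nonneg_right h1 h0).trans h
  calc (1 + δ) ^ i ≤ Real.exp δ ^ i :=
        pow_le_pow_left₀ (by linarith) (by linarith [Real.add_one_le_exp δ]) i
    _ = Real.exp (i * δ) := (Real.exp_nat_mul δ i).symm
    _ ≤ Real.exp (1 / 2) := Real.exp_le_exp.mpr h2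
    _ ≤ 2 := by
      have := Real.exp_bound' (x := 1 / 2) (by norm_num) (by norm_num) (n := 1) (by norm_num)
      norm_num [Nat.factorial] at this ⊢
      linarith

lemma StepHyp.pow_le {G : SimpleGraph V} {D δ a : ℝ} {j : ℕ} {e : V × V} {π : List Bool}
    (h : StepHyp G D δ a j e π) {i : ℕ} (hi : i ≤ j + 2) : (D * (1 + δ)) ^ i ≤ 2 * D ^ i := by
  have h1 := pow_one_add_le h.δ0 hi h.jδ
  have h2 : 0 ≤ D ^ i := pow_nonneg (by linarith [h.D1]) i
  rw [mul_pow]; nlinarith

lemma StepHyp.nonempty {G : SimpleGraph V} {D δ a : ℝ} {j : ℕ} {e : V × V} {π : List Bool}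
    (h : StepHyp G D δ a j e π) : (triples V).Nonempty := by
  rw [Finset.nonempty_iff_ne_empty]
  intro h0
  have := h.ha
  rw [h0] at this
  simp at this
  linarith [h.D1]

lemma StepHyp.a_pos {G : SimpleGraph V} {D δ a : ℝ} {j : ℕ} {e : V × V} {π : List Bool}
    (h : StepHyp G D δ a j e π) : 0 < a := by
  have h1 : (0 : ℝ) < (triples V).card := by exact_mod_cast h.nonempty.card_pos
  have h2 := h.ha
  have h3 := h.D1
  by_contra h4
  nlinarith

/-- trivial bound for `zz`, also one level below the tracked ones. -/
lemma StepHyp.zz_le {G : SimpleGraph V} {D δ a : ℝ} {j : ℕ} {e : V × V} {π : List Bool}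
    (h : StepHyp G D δ a j e π) (π' : List Bool) (hπ : π'.length ≤ j + 2) :
    |zz G D e π'| ≤ 2 * δ := by
  have hD : 0 < D := by linarith [h.D1]
  have h1 : |sumW π' fun l => ind (wedges e l) G * (cod G (node e l).1 (node e l).2 - D)|
      ≤ sumW π' fun l => δ * D * ind (wedges e l) G := by
    refine abs_sumW_le π' fun l _ => ?_
    rcases ind_cases (wedges e l) G with h1 | h1
    · rw [h1.1, one_mul, mul_one]; exact h.reg _ _ (node_adj h.adj h1.2)
    · rw [h1.1]; simp
  rw [sumW_mul_left] at h1
  have h2 := (walk_count (fun a b hab => h.reg.le hab) h.adj π').trans (h.pow_le hπ)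
  have h3 := mul_le_mul_of_nonneg_left h2 (mul_nonneg h.δ0 hD.le)
  rw [zz, abs_div, abs_of_pos (pow_pos hD _), div_le_iff₀ (pow_pos hD _), pow_succ]
  linarith

lemma zz_nil (G : SimpleGraph V) (D : ℝ) (e : V × V) : zz G D e [] = (cod G e.1 e.2 - D) / D := by
  simp [zz, sumW, wedges, node]

lemma cod_top {a b : V} (h : a ≠ b) : cod (⊤ : SimpleGraph V) a b = Fintype.card V - 2 := by
  have : nb (⊤ : SimpleGraph V) a b = univ \ {a, b} := by
    ext v; simp [eq_comm]
  have h2 : ({a, b} : Finset V).card = 2 := Finset.card_pair h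
  rw [cod, this, Finset.card_sdiff_of_subset (Finset.subset_univ _), h2, Finset.card_univ,
    Nat.cast_sub (h2 ▸ Finset.card_le_univ _)]
  norm_num

lemma zz_top {e : V × V} (he : e.1 ≠ e.2) (π : List Bool) :
    zz (⊤ : SimpleGraph V) (Fintype.card V - 2) e π = 0 := by
  rw [zz, sumW_congr π (F' := fun _ => 0), sumW_zero, zero_div]
  intro l _
  rcases ind_cases (wedges e l) ⊤ with h1 | h1
  · rw [cod_top (node_adj (G := ⊤) he h1.2).ne, sub_self, mul_zero]
  · rw [h1.1, zero_mul]

end Vale.Agent.P046
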